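import Crest.Agent.N337.A.Defs

/-!
# Row 337, block (a): `BasStmt`, `TogStmt` (helper17)
-/

set_option autoImplicit false
set_option linter.unusedSectionVars false

namespace Crest.Agent.N337.A

open Finset Equiv Crest.Agent.N337.Rep Crest.Agent.N337.LY0

namespace Bs

section Perm

variable {S : Type} [Fintype S] [DecidableEq S] {π : Perm S} {z : S → ℝ}

/-- an invariant colouring is constant on the orbits. -/
lemma inv_eq {α : Type} {n : S → α} (h : ∀ v, n (π v) = n v) {v w : S} (hvw : o π v = o π w) :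
    n v = n w := by
  have hp : ∀ (k : ℕ) v, n ((π ^ k) v) = n v := by
    intro k
    induction k with
    | zero => simp
    | succ k ih => intro v; rw [pow_succ', Perm.mul_apply, h, ih]
  obtain ⟨k, -, hk⟩ := (o_eq.1 hvw).exists_pow_eq'
  rw [← hk, hp]

lemma zd_nonneg (h0 : ∀ v, 0 ≤ z v) (D : S → Bool) : 0 ≤ zd z D :=
  prod_nonneg fun v _ => by split_ifs; exacts [h0 v, zero_le_one]

/-- invariant colourings with two prescribed values. -/
noncomputable def F2 (π : Perm S) (z : S → ℝ) (u u' : S) (a a' : Bool) : ℝ :=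
  ∑ D : S → Bool, if ∀ v, D (π v) = D v then zd z D * (if D u = a ∧ D u' = a' then 1 else 0) else 0

lemma F2_eq (π : Perm S) (z : S → ℝ) (u u' : S) (a a' : Bool) : F2 π z u u' a a' =
    ∏ g, ∑ k, (if k = true then pr π z g else 1) *
      (if (g = o π u → k = a) ∧ (g = o π u' → k = a') then 1 else 0) := by
  refine sum_inv_prod π _ _ fun c => ?_
  rw [prod_mul_distrib, zd_comp, prod_boole]
  congr 1
  by_cases h : (c ∘ o π) u = a ∧ (c ∘ o π) u' = a'
  · rw [if_pos h, if_pos fun g _ => ⟨fun e => e ▸ h.1, fun e => e ▸ h.2⟩]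
  · rw [if_neg h, if_neg fun h' => h ⟨(h' _ (mem_univ _)).1 rfl, (h' _ (mem_univ _)).2 rfl⟩]

lemma F2_comm (π : Perm S) (z : S → ℝ) (u u' : S) (a a' : Bool) :
    F2 π z u u' a a' = F2 π z u' u a' a := by
  simp only [F2, and_comm]

lemma F2_nonneg (h0 : ∀ v, 0 ≤ z v) (u u' : S) (a a' : Bool) : 0 ≤ F2 π z u u' a a' :=
  sum_nonneg fun D _ => by
    have := zd_nonneg h0 D
    split_ifs <;> simp [this]

/-- deleting the loop of the down point. -/
lemma F2_le (h0 : ∀ v, 0 ≤ z v) (h1 : ∀ v, z v ≤ 1) (u u' : S) :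
    F2 π z u u' true false ≤ F2 π z u u' false false := by
  rw [F2_eq, F2_eq]
  refine prod_le_prod (fun g _ => sum_nonneg fun k _ => ?_) fun g _ => ?_
  · have := pr_nonneg (π := π) h0 g
    split_ifs <;> simp [this]
  · have := pr_le_one (π := π) h0 h1 g
    generalize pr π z g = t at this ⊢
    by_cases e : g = o π u <;> by_cases e' : g = o π u'
    · simp only [eq_true e, eq_true e']; simp
    · simp only [eq_true e, eq_false e']; simp [this]
    · simp only [eq_false e, eq_true e']; simp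
    · simp only [eq_false e, eq_false e']; simp

lemma F2_sum (π : Perm S) (z : S → ℝ) (u u' : S) : ∏ g, (1 + pr π z g) =
    F2 π z u u' true true + F2 π z u u' false false + F2 π z u u' true false +
      F2 π z u u' false true := by
  rw [← sumD_eq]
  simp only [F2, ← sum_add_distrib]
  refine sum_congr rfl fun D _ => ?_
  split_ifs <;> simp_all

lemma F2_diag (h0 : ∀ v, 0 ≤ z v) {π' : Perm S} {u u' : S}
    (h : ∀ D : S → Bool, (∀ v, D (π v) = D v) → D u = D u' → ∀ v, D (π' v) = D v) :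
    F2 π z u u' true true + F2 π z u u' false false ≤ ∏ g, (1 + pr π' z g) := by
  rw [← sumD_eq]
  simp only [F2, ← sum_add_distrib]
  refine sum_le_sum fun D _ => ?_
  have := zd_nonneg h0 D
  by_cases h1 : ∀ v, D (π v) = D v
  · by_cases h2 : D u = D u'
    · rw [if_pos h1, if_pos h1, if_pos (h D h1 h2), ← h2]
      cases D u <;> simp
    · rw [if_pos h1, if_pos h1, if_neg fun e => h2 (e.1.trans e.2.symm),
        if_neg fun e => h2 (e.1.trans e.2.symm)]
      split_ifs <;> simp [this]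
  · rw [if_neg h1, if_neg h1]
    split_ifs <;> simp [this]

lemma prod_le_three (h0 : ∀ v, 0 ≤ z v) (h1 : ∀ v, z v ≤ 1) {π' : Perm S} {u u' : S}
    (h : ∀ D : S → Bool, (∀ v, D (π v) = D v) → D u = D u' → ∀ v, D (π' v) = D v) :
    ∏ g, (1 + pr π z g) ≤ 3 * ∏ g, (1 + pr π' z g) := by
  have e1 := F2_sum π z u u'
  have e2 := F2_diag h0 h
  have e3 := F2_le (π := π) h0 h1 u u'
  have e4 := F2_le (π := π) h0 h1 u' u
  have e5 := F2_nonneg (π := π) h0 u u' true true
  rw [F2_comm π z u' u, F2_comm π z u' u] at e4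
  linarith

end Perm

variable {Λ : Type} [Fintype Λ] [DecidableEq Λ] {T : ℕ} [NeZero T] (ex ey : Fin T → Λ)
  {κ : Type} [Fintype κ] [DecidableEq κ]

lemma one_le_lw {b : Fin T × Λ → ℝ} (h0 : ∀ v, 0 ≤ b v) (ξ : Fin T → Bool) : 1 ≤ lw ex ey b ξ := by
  rw [lw, ← sumD_eq]; exact one_le_sumD h0 _

lemma lw_nonneg {b : Fin T × Λ → ℝ} (h0 : ∀ v, 0 ≤ b v) (ξ : Fin T → Bool) : 0 ≤ lw ex ey b ξ :=
  zero_le_one.trans (one_le_lw ex ey h0 ξ)

/-- **finite energy.** -/
lemma lw_update {b : Fin T × Λ → ℝ} (h0 : ∀ v, 0 ≤ b v) (h1 : ∀ v, b v ≤ 1) (ξ : Fin T → Bool)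
    (s : Fin T) (c : Bool) : lw ex ey b ξ ≤ 3 * lw ex ey b (Function.update ξ s c) := by
  refine prod_le_three h0 h1 (u := (s, ex s)) (u' := (s, ey s)) fun D hD e v => ?_
  have hs : ∀ c x, D (s, sg (ex s) (ey s) c x) = D (s, x) := by
    intro c x
    cases c
    · rfl
    · simp only [sg, if_true, swap_apply_def]
      split_ifs with h h'
      exacts [h ▸ e.symm, h' ▸ e, rfl]
  obtain ⟨r, x⟩ := v
  by_cases hr : r = s
  · subst hr
    have h2 := hD (r, sg (ex r) (ey r) (ξ r) (sg (ex r) (ey r) c x))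
    rw [Sg_apply, sg_sg, hs, hs] at h2
    rw [Sg_apply, Function.update_self, h2]
  · have h2 := hD (r, x)
    rw [Sg_apply] at h2
    rw [Sg_apply, Function.update_of_ne hr, h2]

/-- labelled sums over the loops; the points of `B` are down. -/
lemma sum_dw (b : Fin T × Λ → ℝ) {lab : Finset (Fin T × Λ) → κ → ℝ} (hl : Lab lab)
    (ξ : Fin T → Bool) (B : Finset (Fin T × Λ)) :
    ∑ n : Fin T × Λ → Option κ, (if ∀ v, n (Sg ex ey ξ v) = n v then
      dw ex ey b lab (ξ, n) * (if ∀ v ∈ B, n v ≠ none then 1 else 0) else 0) =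
      ∏ g, if g ∈ B.image (o (Sg ex ey ξ)) then pr (Sg ex ey ξ) b g else 1 + pr (Sg ex ey ξ) b g := by
  rw [sum_inv_prod (Sg ex ey ξ) _ fun g k => (if k = none then 1 else pr (Sg ex ey ξ) b g) *
    k.elim 1 (lab (ob (Sg ex ey ξ) g)) * (if g ∈ B.image (o (Sg ex ey ξ)) → k ≠ none then 1 else 0)]
  · refine prod_congr rfl fun g _ => ?_
    by_cases h : g ∈ B.image (o (Sg ex ey ξ))
    · simp only [h, Fintype.sum_option]; simp [← mul_sum, hl.2]
    · simp only [h, Fintype.sum_option]; simp [← mul_sum, hl.2]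
  · intro c
    have h1 : ∏ v, (if (c ∘ o (Sg ex ey ξ)) v = none then 1 else b v) =
        ∏ g, if c g = none then 1 else pr (Sg ex ey ξ) b g := by
      rw [← prod_pr (Sg ex ey ξ)]
      refine prod_congr rfl fun g _ => ?_
      split_ifs with h
      · exact pr_one fun v hv => by simp [hv, h]
      · exact pr_congr fun v hv => by simp [hv, h]
    rw [prod_mul_distrib, prod_mul_distrib, ← ind_prod B fun g => c g ≠ none, dw, h1]
    simp only [Function.comp, o_bp]

lemma wt_eq (M : Mdl T Λ) (lab : Finset (Fin T × Λ) → κ → ℝ) (ξ : Fin T → Bool)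
    (n : Fin T × Λ → Option κ) (c : ℝ) : wt ex ey M lab (ξ, n) * c =
      Pw M.p ξ * if ∀ v, n (Sg ex ey ξ v) = n v then dw ex ey M.b lab (ξ, n) * c else 0 := by
  unfold wt Cl
  split_ifs <;> simp [mul_assoc]

/-- labelled sums of the weight; the points of `B` are down. -/
lemma sum_wt_ind (M : Mdl T Λ) {lab : Finset (Fin T × Λ) → κ → ℝ} (hl : Lab lab)
    (ξ : Fin T → Bool) (B : Finset (Fin T × Λ)) :
    ∑ n : Fin T × Λ → Option κ, wt ex ey M lab (ξ, n) * (if ∀ v ∈ B, n v ≠ none then 1 else 0) =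
      Pw M.p ξ * ∏ g, if g ∈ B.image (o (Sg ex ey ξ)) then pr (Sg ex ey ξ) M.b g
        else 1 + pr (Sg ex ey ξ) M.b g := by
  simp only [wt_eq]
  rw [← mul_sum, sum_dw ex ey M.b hl]

lemma sum_wt (M : Mdl T Λ) {lab : Finset (Fin T × Λ) → κ → ℝ} (hl : Lab lab) (ξ : Fin T → Bool) :
    ∑ n : Fin T × Λ → Option κ, wt ex ey M lab (ξ, n) = Pw M.p ξ * lw ex ey M.b ξ := by
  simpa [lw] using sum_wt_ind ex ey M hl ξ ∅

/-- the loop through `v` is down. -/
lemma sum_wt_down (M : Mdl T Λ) {lab : Finset (Fin T × Λ) → κ → ℝ} (hl : Lab lab)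
    (ξ : Fin T → Bool) (v : Fin T × Λ) :
    ∑ n : Fin T × Λ → Option κ, wt ex ey M lab (ξ, n) * (if n v ≠ none then 1 else 0) =
      Pw M.p ξ * (pr (Sg ex ey ξ) M.b (o (Sg ex ey ξ) v) *
        ∏ g ∈ univ.erase (o (Sg ex ey ξ) v), (1 + pr (Sg ex ey ξ) M.b g)) := by
  have h := sum_wt_ind ex ey M hl ξ {v}
  simp only [mem_singleton, forall_eq, image_singleton] at h
  rw [h, ← mul_prod_erase _ _ (mem_univ (o (Sg ex ey ξ) v)), if_pos rfl]
  congr 2
  exact prod_congr rfl fun g hg => if_neg (ne_of_mem_erase hg)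

lemma dw_nonneg {b : Fin T × Λ → ℝ} (h0 : ∀ v, 0 ≤ b v) {lab : Finset (Fin T × Λ) → κ → ℝ}
    (hl : Lab lab) (ω : St T Λ κ) : 0 ≤ dw ex ey b lab ω := by
  refine mul_nonneg (prod_nonneg fun v _ => ?_) (prod_nonneg fun g _ => ?_)
  · split_ifs; exacts [zero_le_one, h0 v]
  · cases ω.2 (bp g)
    exacts [zero_le_one, hl.1 _ _]

lemma wt_nonneg {M : Mdl T Λ} {y : ℝ} (hM : M.Ok y) {lab : Finset (Fin T × Λ) → κ → ℝ}
    (hl : Lab lab) (ω : St T Λ κ) : 0 ≤ wt ex ey M lab ω := by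
  unfold wt
  split_ifs
  exacts [mul_nonneg (Pw_nonneg hM.1 _) (dw_nonneg ex ey (fun v => (hM.2.1 v).1) hl ω), le_rfl]

lemma sum_wt_phi (M : Mdl T Λ) {lab : Finset (Fin T × Λ) → κ → ℝ} (hl : Lab lab)
    (φ : (Fin T → Bool) → ℝ) :
    ∑ ω, wt ex ey M lab ω * φ ω.1 = ∑ ξ, Pw M.p ξ * lw ex ey M.b ξ * φ ξ := by
  rw [Fintype.sum_prod_type]
  exact sum_congr rfl fun ξ _ => by rw [← sum_wt ex ey M hl, sum_mul]

lemma one_le_Z {M : Mdl T Λ} {y : ℝ} (hM : M.Ok y) : 1 ≤ Z ex ey M := by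
  rw [← sum_Pw M.p]
  exact sum_le_sum fun ξ _ =>
    le_mul_of_one_le_right (Pw_nonneg hM.1 ξ) (one_le_lw ex ey (fun v => (hM.2.1 v).1) ξ)

/-! ### time `0` -/

/-- weight `t` at time `0`. -/
def tz (t : ℝ) (v : Fin T × Λ) : ℝ := if v.1 = 0 then t else 1

lemma prod_time0 {R : Type} [CommMonoid R] (P : Fin T × Λ → Prop) [DecidablePred P] (t : R) :
    ∏ v, (if P v then (if v.1 = 0 then t else 1) else 1) = t ^ (univ.filter fun x => P (0, x)).card := by
  rw [Fintype.prod_prod_type, prod_eq_single (0 : Fin T) (fun s _ hs => by simp [hs]) (by simp),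
    ← prod_const, prod_filter]
  simp

lemma pr_tz (ξ : Fin T → Bool) (t : ℝ) (v : Fin T × Λ) :
    pr (Sg ex ey ξ) (tz t) (o (Sg ex ey ξ) v) = t ^ wind ex ey ξ v := by
  rw [pr, prod_filter]
  exact prod_time0 _ t

lemma wind_pos (ξ : Fin T → Bool) (v : Fin T × Λ) : 0 < wind ex ey ξ v := by
  obtain ⟨x, hx⟩ := exists_time ex ey ξ (o (Sg ex ey ξ) v) 0
  exact card_pos.2 ⟨x, mem_filter.2 ⟨mem_univ _, hx⟩⟩

lemma lw_tz {t : ℝ} (ht : 0 ≤ t) (ξ : Fin T → Bool) :
    lw ex ey (tz t) ξ ≤ (1 + t) ^ Fintype.card Λ := by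
  have h := prod_time0 (T := T) (Λ := Λ) (fun _ => True) (1 + t)
  simp only [if_true, filter_true, card_univ] at h
  rw [← h, ← prod_pr (Sg ex ey ξ)]
  refine prod_le_prod (fun g _ => ?_) fun g _ => ?_
  · exact add_nonneg zero_le_one (pr_nonneg (fun v => by unfold tz; split_ifs <;> positivity) g)
  · obtain ⟨v, rfl⟩ := o_surj _ g
    have h1 := pr_tz ex ey ξ (1 + t) v
    unfold tz at h1
    rw [h1, pr_tz]
    simpa using pow_add_pow_le zero_le_one ht (wind_pos ex ey ξ v).ne'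

lemma pr_le_pow {M : Mdl T Λ} {y : ℝ} (hM : M.Ok y) (ξ : Fin T → Bool) (v : Fin T × Λ) :
    pr (Sg ex ey ξ) M.b (o (Sg ex ey ξ) v) ≤ y ^ wind ex ey ξ v := by
  rw [← pr_tz]
  refine prod_le_prod (fun w _ => (hM.2.1 w).1) fun w _ => ?_
  obtain ⟨s, x⟩ := w
  unfold tz
  split_ifs with h
  · obtain rfl : s = 0 := h
    exact hM.2.2 x
  · exact (hM.2.1 _).2

/-- number of down points at time `0`. -/
def c0 (n : Fin T × Λ → Bool) : ℕ := (univ.filter fun x => n (0, x) = true).card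

lemma prod_split (b : Fin T × Λ → ℝ) (l : ℂ) (n : Fin T × Λ → Bool) :
    ∏ v, (if n v = true then (if v.1 = 0 then l else 1) * (b v : ℂ) else 1) =
      l ^ c0 n * (zd b n : ℂ) := by
  rw [c0, ← prod_time0 (fun v => n v = true) l, zd, Complex.ofReal_prod, ← prod_mul_distrib]
  refine prod_congr rfl fun v _ => ?_
  by_cases h : n v = true <;> simp [h]

lemma Zc_eq (M : Mdl T Λ) (l : ℂ) : Zc ex ey M l = ∑ ξ, (Pw M.p ξ : ℂ) * ∑ n : Fin T × Λ → Bool,
    if ∀ v, n (Sg ex ey ξ v) = n v then l ^ c0 n * (zd M.b n : ℂ) else 0 := by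
  unfold Zc Cl
  refine sum_congr rfl fun ξ _ => ?_
  rw [mul_sum]
  refine sum_congr rfl fun n _ => ?_
  rw [prod_split]
  split_ifs <;> simp

lemma norm_loops_le {b : Fin T × Λ → ℝ} (h0 : ∀ v, 0 ≤ b v ∧ b v ≤ 1) (ξ : Fin T → Bool) (l : ℂ) :
    ‖(∑ n : Fin T × Λ → Bool, if ∀ v, n (Sg ex ey ξ v) = n v then l ^ c0 n * (zd b n : ℂ) else 0) -
      1‖ ≤ (1 + ‖l‖) ^ Fintype.card Λ - 1 := by
  have h1 := lw_tz ex ey (norm_nonneg l) ξ
  rw [lw, ← sumD_eq, ← add_sum_erase _ _ (mem_univ fun _ => false)] at h1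
  rw [← add_sum_erase _ _ (mem_univ fun _ => false)]
  simp only [zd, c0, implies_true, if_true, Bool.false_eq_true, if_false, prod_const_one,
    filter_false, card_empty, pow_zero, Complex.ofReal_one, mul_one, add_sub_cancel_left] at h1 ⊢
  refine (norm_sum_le _ _).trans (le_trans (sum_le_sum fun n _ => ?_) (le_sub_iff_add_le'.2 h1))
  split_ifs
  · rw [norm_mul, norm_pow, Complex.norm_real, ← prod_time0 (fun v => n v = true) ‖l‖]
    refine mul_le_of_le_one_right (prod_nonneg fun v _ => ?_) ?_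
    · split_ifs <;> positivity
    · refine (Real.norm_of_nonneg (zd_nonneg (fun v => (h0 v).1) n)).trans_le ?_
      refine prod_le_one (fun v _ => ?_) fun v _ => ?_
      · split_ifs; exacts [(h0 v).1, zero_le_one]
      · split_ifs; exacts [(h0 v).2, le_rfl]
  · simp

/-! ### one coin -/

lemma Pw_update (p : Fin T → ℝ) (ξ : Fin T → Bool) (s : Fin T) (c : Bool) :
    Pw p (Function.update ξ s c) = wb (p s) c * ∏ r ∈ univ.erase s, wb (p r) (ξ r) := by
  rw [Pw, ← mul_prod_erase _ _ (mem_univ s), Function.update_self]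
  congr 1
  exact prod_congr rfl fun r hr => by rw [Function.update_of_ne (ne_of_mem_erase hr)]

lemma sum_coin {M : Mdl T Λ} {y : ℝ} (hM : M.Ok y) {s : Fin T} (hs : M.p s ≤ 1 / 2)
    {φ : (Fin T → Bool) → ℝ} (h0 : ∀ ξ, 0 ≤ φ ξ) (hφ : ∀ ξ c, φ (Function.update ξ s c) = φ ξ) :
    ∑ ξ, Pw M.p ξ * lw ex ey M.b ξ * ((if ξ s = true then 1 else 0) * φ ξ) ≤
      6 * M.p s * ∑ ξ, Pw M.p ξ * lw ex ey M.b ξ * φ ξ := by
  have hi : Function.Involutive fun ξ : Fin T → Bool => Function.update ξ s (!ξ s) := fun ξ => by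
    simp
  rw [mul_sum, ← Equiv.sum_comp hi.toPerm]
  refine sum_le_sum fun ξ _ => ?_
  have hb : ∀ v, 0 ≤ M.b v := fun v => (hM.2.1 v).1
  have hp := (hM.1 s).1
  simp only [Function.Involutive.coe_toPerm, Function.update_self, hφ]
  cases h : ξ s
  · have e1 := lw_update ex ey hb (fun v => (hM.2.1 v).2) (Function.update ξ s true) s false
    have e2 := Pw_update M.p ξ s false
    rw [Function.update_idem, ← h, Function.update_eq_self] at e1
    rw [← h, Function.update_eq_self, h] at e2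
    have hR : 0 ≤ ∏ r ∈ univ.erase s, wb (M.p r) (ξ r) := prod_nonneg fun r _ => wb_nonneg (hM.1 r) _
    rw [Bool.not_false, Pw_update, e2]
    simp only [wb, if_true, Bool.false_eq_true, if_false, one_mul] at hR ⊢
    generalize ∏ r ∈ univ.erase s, (if ξ r = true then M.p r else 1 - M.p r) = R at hR ⊢
    have e3 := mul_le_mul_of_nonneg_left e1 (mul_nonneg (mul_nonneg hp hR) (h0 ξ))
    have e4 := mul_nonneg (mul_nonneg (mul_nonneg (mul_nonneg hp hR) (h0 ξ)) (lw_nonneg ex ey hb ξ))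
      (sub_nonneg.2 hs)
    nlinarith
  · simp only [Bool.not_true, Bool.false_eq_true, if_false, zero_mul, mul_zero]
    exact mul_nonneg (by positivity)
      (mul_nonneg (mul_nonneg (Pw_nonneg hM.1 ξ) (lw_nonneg ex ey hb ξ)) (h0 ξ))

lemma sum_coins {M : Mdl T Λ} {y : ℝ} (hM : M.Ok y) (S : Finset (Fin T))
    (hS : ∀ s ∈ S, M.p s ≤ 1 / 2) :
    ∑ ξ, Pw M.p ξ * lw ex ey M.b ξ * (if ∀ s ∈ S, ξ s = true then 1 else 0) ≤
      (∏ s ∈ S, 6 * M.p s) * Z ex ey M := by
  induction S using Finset.induction_on with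
  | empty => simp [Z]
  | insert s S hs ih =>
    have h1 := sum_coin ex ey hM (hS s (mem_insert_self _ _))
      (φ := fun ξ => if ∀ r ∈ S, ξ r = true then 1 else 0) (fun ξ => by split_ifs <;> norm_num)
      fun ξ c => if_congr (forall₂_congr fun r hr => by
        rw [Function.update_of_ne (ne_of_mem_of_not_mem hr hs)]) rfl rfl
    have h2 := mul_le_mul_of_nonneg_left (ih fun r hr => hS r (mem_insert_of_mem hr))
      (mul_nonneg (by norm_num : (0 : ℝ) ≤ 6) (hM.1 s).1)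
    rw [prod_insert hs, mul_assoc (6 * M.p s)]
    refine le_trans (le_of_eq (sum_congr rfl fun ξ _ => ?_)) (h1.trans h2)
    simp only [forall_mem_insert, ite_and]
    split_ifs <;> simp

/-! ### long loops -/

lemma sum_long {M : Mdl T Λ} {y : ℝ} (hM : M.Ok y) (hy : 0 ≤ y)
    {lab : Finset (Fin T × Λ) → κ → ℝ} (hl : Lab lab) (K : ℕ) (v : Fin T × Λ) :
    ∑ ω, wt ex ey M lab ω * (if ω.2 v ≠ none ∧ K < wind ex ey ω.1 v then 1 else 0) ≤
      y ^ K * Z ex ey M := by
  have hb : ∀ v, 0 ≤ M.b v := fun v => (hM.2.1 v).1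
  rw [Fintype.sum_prod_type, Z, mul_sum]
  refine sum_le_sum fun ξ _ => ?_
  have hP := Pw_nonneg hM.1 ξ
  by_cases hK : K < wind ex ey ξ v
  · simp only [hK, and_true]
    rw [sum_wt_down ex ey M hl, lw, ← mul_prod_erase _ _ (mem_univ (o (Sg ex ey ξ) v)),
      mul_left_comm (y ^ K), ← mul_assoc (y ^ K)]
    have h1 : pr (Sg ex ey ξ) M.b (o (Sg ex ey ξ) v) ≤ y ^ K := by
      rcases le_total y 1 with h | h
      · exact (pr_le_pow ex ey hM ξ v).trans (pow_le_pow_of_le_one hy h hK.le)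
      · exact (pr_le_one hb (fun v => (hM.2.1 v).2) _).trans (one_le_pow₀ h)
    refine mul_le_mul_of_nonneg_left (mul_le_mul_of_nonneg_right (h1.trans ?_)
      (prod_nonneg fun g _ => add_nonneg zero_le_one (pr_nonneg hb g))) hP
    exact le_mul_of_one_le_right (pow_nonneg hy K) (le_add_of_nonneg_right (pr_nonneg hb _))
  · simp only [hK, and_false, if_false, mul_zero, sum_const_zero]
    exact mul_nonneg (pow_nonneg hy K) (mul_nonneg hP (lw_nonneg ex ey hb ξ))

end Bs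

open Bs

theorem bas : BasStmt := by
  intro Λ _ _ T _ ex ey M y hM
  refine ⟨one_le_Z ex ey hM, ?_, ?_, fun l => ?_, fun κ _ _ lab hl =>
    ⟨wt_nonneg ex ey hM hl, sum_wt_phi ex ey M hl⟩⟩
  · rw [Zc_eq, Z, Complex.ofReal_sum]
    refine sum_congr rfl fun ξ _ => ?_
    rw [lw, ← sumD_eq, Complex.ofReal_mul, Complex.ofReal_sum]
    congr 1
    refine sum_congr rfl fun n _ => ?_
    split_ifs <;> simp
  · refine ⟨∑ ξ, Polynomial.C (Pw M.p ξ : ℂ) * ∑ n : Fin T × Λ → Bool,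
      if ∀ v, n (Sg ex ey ξ v) = n v then Polynomial.monomial (c0 n) (zd M.b n : ℂ) else 0, ?_,
      fun l => ?_⟩
    · refine Polynomial.natDegree_sum_le_of_forall_le _ _ fun ξ _ =>
        (Polynomial.natDegree_C_mul_le _ _).trans
          (Polynomial.natDegree_sum_le_of_forall_le _ _ fun n _ => ?_)
      split_ifs
      · exact (Polynomial.natDegree_monomial_le _).trans (card_le_univ _)
      · simp
    · rw [Zc_eq, Polynomial.eval_finsetSum]
      refine sum_congr rfl fun ξ _ => ?_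
      rw [Polynomial.eval_C_mul, Polynomial.eval_finsetSum]
      congr 1
      refine sum_congr rfl fun n _ => ?_
      split_ifs <;> simp [mul_comm]
  · have h1 : (1 : ℂ) = ∑ ξ, (Pw M.p ξ : ℂ) * 1 := by
      simp only [mul_one]; exact_mod_cast (sum_Pw M.p).symm
    have h2 : ∀ c : ℝ, c = ∑ ξ, Pw M.p ξ * c := fun c => by rw [← sum_mul, sum_Pw, one_mul]
    rw [Zc_eq, h2 (_ - 1 : ℝ)]
    conv_lhs => rw [h1, ← sum_sub_distrib]
    refine (norm_sum_le _ _).trans (sum_le_sum fun ξ _ => ?_)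
    rw [← mul_sub, norm_mul, Complex.norm_real, Real.norm_of_nonneg (Pw_nonneg hM.1 ξ)]
    exact mul_le_mul_of_nonneg_left (norm_loops_le ex ey hM.2.1 ξ l) (Pw_nonneg hM.1 ξ)

theorem tog : TogStmt := by
  intro Λ _ _ T _ ex ey M y hM hy κ _ _ lab hl
  have hZ : 0 < Z ex ey M := one_pos.trans_le (one_le_Z ex ey hM)
  refine ⟨fun S hS => ?_, fun K => ?_⟩
  · rw [Pb, Ev, div_le_iff₀ hZ]
    refine le_trans (le_of_eq ?_) (sum_coins ex ey hM S hS)
    rw [← sum_wt_phi ex ey M hl]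
    exact sum_congr rfl fun ω _ => by congr
  · rw [Pb, Ev, div_le_iff₀ hZ, mul_assoc, ← nsmul_eq_mul, ← card_univ, ← sum_const]
    refine le_trans ?_ (sum_le_sum fun x _ => sum_long ex ey hM hy hl K (0, x))
    rw [sum_comm]
    refine sum_le_sum fun ω _ => ?_
    rw [← mul_sum]
    by_cases hc : Cl ex ey ω.1 ω.2
    · refine mul_le_mul_of_nonneg_left ?_ (wt_nonneg ex ey hM hl ω)
      split_ifs with h
      · obtain ⟨u, h1, h2⟩ := h
        obtain ⟨x, hx⟩ := exists_time ex ey ω.1 (o (Sg ex ey ω.1) u) 0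
        refine le_trans (le_of_eq (if_pos ⟨?_, ?_⟩).symm) (single_le_sum
          (f := fun x => if ω.2 (0, x) ≠ none ∧ K < wind ex ey ω.1 (0, x) then (1 : ℝ) else 0)
          (fun _ _ => by split_ifs <;> norm_num) (mem_univ x))
        · rwa [inv_eq hc hx]
        · rwa [wind, hx]
      · exact sum_nonneg fun _ _ => by split_ifs <;> norm_num
    · simp [wt, hc]

end Crest.Agent.N337.A
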