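import Crest.Agent.N337.A.Loc

/-!
# Row 337, block (a): four layers of resampling mix
-/

set_option autoImplicit false
set_option linter.unusedSectionVars false

namespace Crest.Agent.N337.A

open Finset Equiv Crest.Agent.N337.Rep Crest.Agent.N337.LY0

variable {Λ : Type} [Fintype Λ] [DecidableEq Λ] {T : ℕ} [NeZero T] {ex ey : Fin T → Λ}
  {κ : Type} [Fintype κ] [DecidableEq κ] {d : Λ → Λ → ℕ} {M : Mdl T Λ}
  {lab : Finset (Fin T × Λ) → κ → ℝ} {y : ℝ} {ω ω' : St T Λ κ} {U : Finset (Fin T × Λ)}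

lemma schur {ι : Type} [Fintype ι] {a b : ι → ℝ} (ha : ∀ i, 0 ≤ a i) (hb : ∀ i, 0 ≤ b i) {ε : ℝ}
    (h : ∀ φ : ι → ℝ, (∀ i, |φ i| ≤ 1) → |∑ i, a i * φ i - ∑ i, b i * φ i| ≤ ε) (F : ι → ℝ) :
    (∑ i, a i * F i - ∑ i, b i * F i) ^ 2 ≤ ε * (∑ i, a i * F i ^ 2 + ∑ i, b i * F i ^ 2) := by
  have h1 : ∑ i, |a i - b i| ≤ ε := by
    refine le_trans (le_of_eq ?_) ((le_abs_self _).trans
      (h (fun i => if b i ≤ a i then 1 else -1) fun i => by split_ifs <;> simp))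
    rw [← sum_sub_distrib]
    refine sum_congr rfl fun i _ => ?_
    split_ifs with h2
    · rw [abs_of_nonneg (by linarith)]; ring
    · rw [abs_of_nonpos (by linarith)]; ring
  have h2 := sum_sq_le_sum_mul_sum_of_sq_le_mul univ (r := fun i => a i * F i - b i * F i)
    (f := fun i => |a i - b i|) (g := fun i => |a i - b i| * F i ^ 2) (fun _ _ => abs_nonneg _)
    (fun _ _ => by positivity) fun i _ => le_of_eq (by rw [← mul_assoc, abs_mul_abs_self]; ring)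
  rw [← sum_sub_distrib, ← sum_add_distrib]
  refine h2.trans (mul_le_mul h1 (sum_le_sum fun i _ => ?_) (sum_nonneg fun _ _ => by positivity)
    ((sum_nonneg fun _ _ => abs_nonneg _).trans h1))
  rw [← add_mul]
  exact mul_le_mul_of_nonneg_right (abs_le.2 ⟨by linarith [ha i], by linarith [hb i]⟩) (sq_nonneg _)

/-- positive linear functionals. -/
def Lin {α : Type} [Fintype α] (L : (α → ℝ) → ℝ) : Prop :=
  ∃ c : α → ℝ, (∀ x, 0 ≤ c x) ∧ ∀ F, L F = ∑ x, c x * F x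

lemma Lin.comp {α β : Type} [Fintype α] [Fintype β] {L : (α → ℝ) → ℝ} {Q : (β → ℝ) → α → ℝ}
    (hL : Lin L) (hQ : ∀ x, Lin fun F => Q F x) : Lin fun F => L (Q F) := by
  obtain ⟨c, h0, h1⟩ := hL
  choose c' h2 h3 using hQ
  refine ⟨fun z => ∑ x, c x * c' x z, fun z => sum_nonneg fun x _ => mul_nonneg (h0 x) (h2 x z),
    fun F => ?_⟩
  simp only [h1, h3, mul_sum, sum_mul, mul_assoc]
  exact sum_comm

lemma Lin.nonneg {α : Type} [Fintype α] {L : (α → ℝ) → ℝ} (hL : Lin L) {F : α → ℝ}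
    (h : ∀ x, 0 ≤ F x) : 0 ≤ L F := by
  obtain ⟨c, h0, h1⟩ := hL
  rw [h1]; exact sum_nonneg fun x _ => mul_nonneg (h0 x) (h x)

section
variable (hM : M.Ok y) (hl : Lab lab)
include hM hl

lemma lin_Ev {α : Type} [Fintype α] (r : St T Λ κ → α) :
    Lin fun F : α → ℝ => Ev ex ey M lab fun ω => F (r ω) :=
  ⟨_, fun _ => Pb_nonneg bas hM hl _, fun F => Ev_atoms r F⟩

lemma lin_Pk (U : Finset (Fin T × Λ)) (ω : St T Λ κ) : Lin fun F => Pk ex ey M lab U F ω :=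
  lin_Ev (hM.child U _) hl _

lemma Ev_Pk (U : Finset (Fin T × Λ)) (F : St T Λ κ → ℝ) :
    Ev ex ey M lab (Pk ex ey M lab U F) = Ev ex ey M lab F := by
  simpa only [one_mul] using ev_Pk (ex := ex) (ey := ey) bas hM hl U (fun _ => 1) F

lemma Ev_near {F G : St T Λ κ → ℝ} {E : St T Λ κ → Prop} {e : ℝ} (he : 0 ≤ e)
    (hF : ∀ ω, |F ω| ≤ 1) (hG : ∀ ω, |G ω| ≤ 1)
    (h : ∀ ω, wt ex ey M lab ω ≠ 0 → E ω → |F ω - G ω| ≤ e) :
    |Ev ex ey M lab F - Ev ex ey M lab G| ≤ e + 2 * Pb ex ey M lab fun ω => ¬ E ω := by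
  have key : ∀ {F G : St T Λ κ → ℝ}, (∀ ω, |F ω| ≤ 1) → (∀ ω, |G ω| ≤ 1) →
      (∀ ω, wt ex ey M lab ω ≠ 0 → E ω → |F ω - G ω| ≤ e) →
      Ev ex ey M lab F ≤ Ev ex ey M lab G + (e + 2 * Pb ex ey M lab fun ω => ¬ E ω) := by
    intro F G hF hG h
    rw [Pb, ← Ev_mul, ← Ev_const (ex := ex) (ey := ey) bas hM hl e, ← Ev_add, ← Ev_add]
    refine Ev_mono bas hM hl fun ω hω => ?_
    split_ifs with h1
    · linarith [le_of_abs_le (h ω hω h1)]
    · linarith [le_of_abs_le (hF ω), neg_le_of_abs_le (hG ω)]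
  have h1 := key hF hG h
  have h2 := key hG hF fun ω h1 h2 => by rw [abs_sub_comm]; exact h ω h1 h2
  rw [abs_le]; constructor <;> linarith

lemma Ev_abs {F : St T Λ κ → ℝ} (hF : ∀ ω, |F ω| ≤ 1) : |Ev ex ey M lab F| ≤ 1 := by
  have h1 := Ev_mono (ex := ex) (ey := ey) bas hM hl fun ω _ => le_of_abs_le (hF ω)
  have h2 := Ev_mono (ex := ex) (ey := ey) bas hM hl fun ω _ => neg_le_of_abs_le (hF ω)
  rw [Ev_const bas hM hl] at h1 h2
  exact abs_le.2 ⟨h2, h1⟩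

lemma Pk_abs {F : St T Λ κ → ℝ} (hF : ∀ ω, |F ω| ≤ 1) (ω : St T Λ κ) :
    |Pk ex ey M lab U F ω| ≤ 1 := Ev_abs (hM.child U _) hl fun _ => hF _

end

/-- the down loops of a good state are small. -/
lemma Gd.near {m v : ℕ} (hd : Met ex ey d) (h0 : wt ex ey M lab ω ≠ 0) (h : Gd ex ey d M m v ω)
    {u w : Fin T × Λ} (hw : ω.2 w ≠ none) (e : o (Sg ex ey ω.1) u = o (Sg ex ey ω.1) w) :
    d u.2 w.2 ≤ (m + 1) * v := by
  have h1 : ∀ w', o (Sg ex ey ω.1) w' = o (Sg ex ey ω.1) u → ω.2 w' ≠ none := fun w' h' => by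
    rwa [(wt_cl h0).eq (h'.trans e)]
  exact loop_near hd h.2 ω.1 u (h.1 u (h1 u rfl))
    (fun w' h' h2 h3 => Or.inr ⟨h2, tch_of (h1 w' h') h3⟩) (fun w' h' _ => wt_b h0 (h1 w' h')) w
    e.symm

lemma Gd.child {m v : ℕ} (h : Gd ex ey d M m v ω) :
    Slow ex ey d (Cheap ex ey d (child ex ey M U (res ex ey U ω))) (fun u => M.b u ≠ 0) v := by
  refine h.2.mono' le_rfl (fun _ h => h) fun s _ _ _ hc => ?_
  rcases hc with hc | hc
  · simp only [A.child] at hc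
    split_ifs at hc with h1 h2
    · obtain ⟨z, h3, h4⟩ := h1.exists
      exact Or.inr ⟨res_fst h1 ▸ h2, tch_of (w := (s, z)) ((res_snd h4).1 ▸ h4) h3⟩
    · exact absurd hc zero_ne_one
    · exact Or.inl (Or.inl hc)
  · exact Or.inl (Or.inr hc)

/-- bad states are rare in every model `M'` that keeps the active pins of `M` and is slow. -/
lemma Pb_not_Gd {M' : Mdl T Λ} {S : Finset Λ} {K : ℝ} {N v : ℕ} (m g : ℕ) (hd : Met ex ey d)
    (hM : M'.Ok y) (hy : 0 ≤ y) (hl : Lab lab) (hs : ∀ v, M.b v ≠ 0 → v.2 ∈ S)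
    (hs' : ∀ v, M'.b v ≠ 0 → v.2 ∈ S) (hSN : S.card ≤ N) (hp : ∀ s, M.p s = 1 → M'.p s = 1)
    (hR : Rate ex ey d M' (v + 2) K) (hS : Slow ex ey d (Cheap ex ey d M') (fun u => M.b u ≠ 0) v) :
    Pb ex ey M' lab (fun ω => ¬ Gd ex ey d M m ((g + 1) * (v + 1)) ω) ≤
      N * y ^ m + N * Real.exp (40 * K - g) := by
  refine (Pb_le_add bas hM hl fun ω hω h8 => ?_).trans (add_le_add (longS ex ey hM hy hl hs' hSN m)
    (fastS ex ey g hd hM hy hR hS hl hs hSN))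
  by_contra h9
  push Not at h9
  refine h8 ⟨h9.1, h9.2.mono' le_rfl (fun _ h => h) fun s _ _ _ hc => ?_⟩
  rcases hc with (hc | hc) | hc
  exacts [Or.inl (wt_p1 hω (hp s hc)), Or.inr hc, Or.inl hc.1]

variable (ex ey d M lab) in
/-- on good states `H` is close to a function of the loops that meet `U`. -/
def App (m v : ℕ) (U : Finset (Fin T × Λ)) (H : St T Λ κ → ℝ) (e : ℝ) : Prop :=
  ∃ φ : St T Λ κ → ℝ, (∀ x, |φ x| ≤ 1) ∧
    ∀ ω, wt ex ey M lab ω ≠ 0 → Gd ex ey d M m v ω → |H ω - φ (res ex ey U ω)| ≤ e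

section step
variable {Tf K K' δ : ℝ} {N v V m f g D : ℕ} {S0 : Finset Λ} (hs : ∀ v, M.b v ≠ 0 → v.2 ∈ S0)
  (hSN : S0.card ≤ N) (hN1 : 1 ≤ N) (hd : Met ex ey d) (hM : M.Ok (Real.exp (-1 / Tf)))
  (hR : Rate ex ey d M (V + 2) K) (hN : Num N Tf K δ V m f D) (hl : Lab lab)
  (hv : v ≤ V) (hR' : Rate ex ey d M (v + 2) K') (hg : N * Real.exp (40 * K' - g) ≤ δ)
include hs hSN hN1 hd hM hN hl hR' hg

/-- resampling keeps a good state good (with a larger speed). -/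
lemma step_bad (h0 : wt ex ey M lab ω ≠ 0) (h : Gd ex ey d M m v ω) :
    Pb ex ey (child ex ey M U (res ex ey U ω)) lab
      (fun ω' => ¬ Gd ex ey d M m ((g + 1) * (v + 1)) (glue (res ex ey U ω) ω')) ≤ 2 * δ := by
  have hM' := hM.child (ex := ex) (ey := ey) U (res ex ey U ω)
  have hsm := hN.small hN1
  have h3 := longS ex ey hM' (Real.exp_pos _).le hl (fun v h => hs v (child_b h).2.2) hSN m
  have h4 := fastS ex ey g hd hM' (Real.exp_pos _).le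
    (hR'.of_le le_rfl (fun s => (hM.1 s).1) (child_p U _)) h.child hl hs hSN
  refine (Pb_le_add bas hM' hl fun ω' hω' h8 => ?_).trans
    ((add_le_add h3 h4).trans (by linarith [hsm.2]))
  by_contra h9
  push Not at h9
  refine h8 ⟨fun u hu => ?_, h9.2.mono' le_rfl (fun _ h => h) fun s _ _ _ hc => ?_⟩
  · rcases Cd.glue_ne_none.1 hu with h10 | h10
    · rw [Cd.glue_fst, wind_glue (wt_cl h0) hω' h10, (wt_cl h0).wind_res h10]
      exact h.1 u ((res_snd h10).1 ▸ h10)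
    · exact h9.1 u h10
  · rcases hc with (hc | hc) | hc
    exacts [Or.inl (wt_p1 (wt_glue_ne h0 hω') hc), Or.inr hc, Or.inl hc.1]

include hR hv in
/-- one layer: the region of disagreement shrinks to a neighbourhood of the killed set. -/
lemma step {S C : Finset Λ} {H : St T Λ κ → ℝ} {e : ℝ} (he : 0 ≤ e) (hH : ∀ ω, |H ω| ≤ 1)
    (hA : App ex ey d M lab m ((g + 1) * (v + 1)) (cyl (nbd d (2 * D + 1) (S ∩ nbd d D C))ᶜ) H e) :
    App ex ey d M lab m v (cyl Sᶜ) (Pk ex ey M lab (cyl C) H) (e + 14 * δ) := by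
  classical
  obtain ⟨φ, hφ, hφ'⟩ := hA
  set A := S ∩ nbd d D C with hAdef
  set U' : Finset (Fin T × Λ) := cyl (nbd d (2 * D + 1) A)ᶜ with hU'
  let Ψ := Pk ex ey M lab (cyl C) fun ω => φ (res ex ey U' ω)
  have hmv : (m + 1) * v ≤ D := by
    have h1 := hN.2.2.2.2.2.2
    have h2 : v ≤ (f + 1) * (V + 1) := by nlinarith
    exact (Nat.mul_le_mul_left _ h2).trans (by omega)
  have h1 : ∀ ω, wt ex ey M lab ω ≠ 0 → Gd ex ey d M m v ω →
      |Pk ex ey M lab (cyl C) H ω - Ψ ω| ≤ e + 4 * δ := fun ω h0 h => by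
    refine (Ev_near (hM.child _ _) hl he (fun _ => hH _) (fun _ => hφ _)
      fun ω' hω' h' => hφ' _ (wt_glue_ne h0 hω') h').trans ?_
    linarith [step_bad (U := cyl C) hs hSN hN1 hd hM hN hl hR' hg h0 h]
  have h2 : ∀ ω ω', wt ex ey M lab ω ≠ 0 → Gd ex ey d M m v ω → wt ex ey M lab ω' ≠ 0 →
      Gd ex ey d M m v ω' → res ex ey (cyl Sᶜ) ω = res ex ey (cyl Sᶜ) ω' →
      |Ψ ω - Ψ ω'| ≤ 10 * δ := by
    intro ω ω' h0 h h0' h' hr
    have hc := wt_cl h0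
    have hc' := wt_cl h0'
    have far : ∀ {ω : St T Λ κ}, wt ex ey M lab ω ≠ 0 → Gd ex ey d M m v ω → ∀ u : Fin T × Λ,
        u.2 ∉ nbd d D C → (res ex ey (cyl C) ω).2 u = none := by
      intro ω h0 h u hu
      by_contra h3
      obtain ⟨h4, w, hw, h5⟩ := res_snd h3
      exact hu (mem_nbd.2 ⟨w.2, mem_cyl.1 hw, by
        rw [hd.2.1]; exact (h.near hd h0 (h4 ▸ h3) h5).trans hmv⟩)
    have key : ∀ u : Fin T × Λ, u.2 ∉ A →
        LA ex ey (res ex ey (cyl C) ω) (res ex ey (cyl C) ω') u := fun u hu => by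
      by_cases h3 : u.2 ∈ S
      · have h4 : u.2 ∉ nbd d D C := fun h4 => hu (mem_inter.2 ⟨h3, h4⟩)
        exact ⟨by rw [far h0 h u h4, far h0' h' u h4], fun h5 => absurd (far h0 h u h4) h5⟩
      · exact (la_of_res hc hc' hr (mem_cyl.2 (mem_compl.2 h3))).res hc hc'
    have hAA : ∀ x, x ∉ nbd d (2 * D + 1) A → x ∉ A := fun x hx ha =>
      hx (mem_nbd.2 ⟨x, ha, by rw [hd.1]; omega⟩)
    have hres : res ex ey U' (res ex ey (cyl C) ω) = res ex ey U' (res ex ey (cyl C) ω') :=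
      res_ext (hc.rev _).cl (hc'.rev _).cl fun u hu => key u (hAA _ (mem_compl.1 (mem_cyl.1 hu)))
    have e1 : ∀ {ω : St T Λ κ}, Cl ex ey ω.1 ω.2 → Ψ ω =
        Ev ex ey (child ex ey M (cyl C) (res ex ey (cyl C) ω)) lab fun x =>
          φ (comb ex ey (res ex ey U' (res ex ey (cyl C) ω)) (res ex ey U' x)) := fun hc =>
      Ev_congr fun x hx => congrArg φ (res_glue_comb hc hx _)
    rw [e1 hc, e1 hc', hres]
    have hRc : ∀ η : St T Λ κ, Rate ex ey d (child ex ey M (cyl C) η) (V + 2) K := fun η =>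
      hR.of_le le_rfl (fun s => (hM.1 s).1) (child_p _ _)
    refine clusS (A := A) (U := (nbd d (2 * D + 1) A)ᶜ) (fun v h => hs v (child_b h).2.2)
      (fun v h => hs v (child_b h).2.2) hSN hN1 hd (hM.child _ _) (hM.child _ _) ⟨fun s h3 h4 => ?_, fun u hu => ?_⟩ (hRc _) (hRc _)
      (h.child.mono' hv (fun u hu => (child_b hu.2).2.2) fun _ _ _ _ h => h) hN
      (fun a ha u hu => ?_) hl (φ := fun x => φ (comb ex ey _ x)) Subset.rfl fun _ => hφ _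
    · have h5 : Tch ex ey (res ex ey (cyl C) ω).2 s ↔ Tch ex ey (res ex ey (cyl C) ω').2 s := by
        rw [Tch, Tch, (key (s, ex s) h3).1, (key (s, ey s) h4).1]
      simp only [child, ← h5]
      split_ifs with h6 h7 h8 h8
      any_goals rfl
      all_goals
        obtain ⟨z, h9, h10⟩ := h6.exists
        have := (key (s, z) (by rcases h9 with rfl | rfl; exacts [h3, h4])).2 h10 _ rfl h9
        simp_all
    · simp only [child, (key u hu).1]
    · by_contra h3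
      exact mem_compl.1 hu (mem_nbd.2 ⟨a, ha, by rw [hd.2.1]; omega⟩)
  refine ⟨fun x => if h : ∃ ω, (wt ex ey M lab ω ≠ 0 ∧ Gd ex ey d M m v ω) ∧
    res ex ey (cyl Sᶜ) ω = x then Ψ h.choose else 0, fun x => ?_, fun ω h0 h => ?_⟩
  · beta_reduce
    split_ifs
    · exact Pk_abs hM hl (fun _ => hφ _) _
    · simp
  · have h3 : ∃ ω', (wt ex ey M lab ω' ≠ 0 ∧ Gd ex ey d M m v ω') ∧
        res ex ey (cyl Sᶜ) ω' = res ex ey (cyl Sᶜ) ω := ⟨ω, ⟨h0, h⟩, rfl⟩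
    simp only [dif_pos h3]
    have h4 := h2 ω _ h0 h h3.choose_spec.1.1 h3.choose_spec.1.2 h3.choose_spec.2.symm
    linarith [abs_sub_le (Pk ex ey M lab (cyl C) H ω) (Ψ ω) (Ψ h3.choose), h1 ω h0 h]

end step

open Classical in
/-- **the box move**: four layers mix; the speeds `v i` form a tower, the model lives on the at
most `N` slots of `S`. -/
theorem boxS {Cor : Fin 4 → Finset Λ} {S : Finset Λ} {Tf δ : ℝ} {K : ℕ → ℝ} {v g : ℕ → ℕ}
    {N m f D : ℕ} (hs : ∀ v, M.b v ≠ 0 → v.2 ∈ S) (hSN : S.card ≤ N) (hN1 : 1 ≤ N)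
    (hd : Met ex ey d) (hM : M.Ok (Real.exp (-1 / Tf)))
    (hv : ∀ i < 4, v (i + 1) = (g i + 1) * (v i + 1) ∧ Rate ex ey d M (v i + 2) (K i) ∧
      N * Real.exp (40 * K i - g i) ≤ δ)
    (hN : Num N Tf (K 3) δ (v 3) m f D)
    (hC : ∀ x, (∃ s, M.b (s, x) ≠ 0) → ∃ l, x ∉ nbd d (12 * D) (Cor l)) (hl : Lab lab)
    (F : St T Λ κ → ℝ) (hF : ∀ ω, F (res ex ey univ ω) = F ω) :
    Ev ex ey M lab (fun ω => if Gd ex ey d M m (v 0) ω then
      (Pk ex ey M lab (cyl (Cor 0)) (Pk ex ey M lab (cyl (Cor 1))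
        (Pk ex ey M lab (cyl (Cor 2)) (Pk ex ey M lab (cyl (Cor 3)) F))) ω -
          Ev ex ey M lab F) ^ 2 else 0) ≤
      400 * (δ + Pb ex ey M lab fun ω => ¬ Gd ex ey d M m (v 0) ω) *
        Ev ex ey M lab fun ω => F ω ^ 2 := by
  have hδ := hN.2.1
  have hD : 2 ≤ D := by have := hN.2.2.2.2.2.2; omega
  obtain ⟨v0, R0, g0⟩ := hv 0 (by omega)
  obtain ⟨v1, R1, g1⟩ := hv 1 (by omega)
  obtain ⟨v2, R2, g2⟩ := hv 2 (by omega)
  obtain ⟨v3, hR, g3⟩ := hv 3 (by omega)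
  have m2 : v 2 ≤ v 3 := by rw [v2]; nlinarith
  have m1 : v 1 ≤ v 3 := le_trans (by rw [v1]; nlinarith) m2
  have m0 : v 0 ≤ v 3 := le_trans (by rw [v0]; nlinarith) m1
  let Q := fun F : St T Λ κ → ℝ => Pk ex ey M lab (cyl (Cor 0)) (Pk ex ey M lab (cyl (Cor 1))
    (Pk ex ey M lab (cyl (Cor 2)) (Pk ex ey M lab (cyl (Cor 3)) F)))
  have hQ : ∀ F, Ev ex ey M lab (Q F) = Ev ex ey M lab F := fun F => by
    simp only [Q, Ev_Pk hM hl]
  have hP := Pb_nonneg (ex := ex) (ey := ey) bas hM hl fun ω => ¬ Gd ex ey d M m (v 0) ω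
  set P := Pb ex ey M lab fun ω => ¬ Gd ex ey d M m (v 0) ω with hPdef
  have h1 : ∀ φ : St T Λ κ → ℝ, (∀ x, |φ x| ≤ 1) → ∀ ω, wt ex ey M lab ω ≠ 0 →
      Gd ex ey d M m (v 0) ω → |Q (fun ω => φ (res ex ey univ ω)) ω -
        Ev ex ey M lab fun ω => φ (res ex ey univ ω)| ≤ 112 * δ + 2 * P := by
    intro φ hφ ω h0 h
    let nx := fun (S : Finset Λ) (l : Fin 4) => nbd d (2 * D + 1) (S ∩ nbd d D (Cor l))
    have a4 : App ex ey d M lab m (v 4) (cyl (nx (nx (nx (nx univ 0) 1) 2) 3)ᶜ)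
        (fun ω => φ (res ex ey univ ω)) 0 := by
      refine ⟨φ, hφ, fun ω h0 _ => ?_⟩
      have e : rn ex ey (cyl (nx (nx (nx (nx univ 0) 1) 2) 3)ᶜ) ω = rn ex ey univ ω := by
        funext w
        rw [Cd.rn_univ]
        by_cases hw : ω.2 w = none
        · rw [Cd.rn_of_none hw, hw]
        · refine Cd.rn_of_mem (mem_cyl.2 (mem_compl.2 fun h4 => ?_))
          obtain ⟨l, hl⟩ := hC w.2 ⟨w.1, wt_b h0 hw⟩
          simp only [nx, mem_nbd, mem_inter] at h4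
          obtain ⟨x3, ⟨⟨x2, ⟨⟨x1, ⟨⟨x0, ⟨-, c0, m0, d0⟩, e0⟩, c1, m1, d1⟩, e1⟩, c2, m2, d2⟩, e2⟩,
            c3, m3, d3⟩, e3⟩ := h4
          have t := hd.2.2.1
          have t2 := t w.2 x3 x2
          have t1 := t w.2 x2 x1
          have t0 := t w.2 x1 x0
          refine hl (mem_nbd.2 ?_)
          fin_cases l
          exacts [⟨c0, m0, (t _ x0 _).trans (by omega)⟩, ⟨c1, m1, (t _ x1 _).trans (by omega)⟩,
            ⟨c2, m2, (t _ x2 _).trans (by omega)⟩, ⟨c3, m3, (t _ x3 _).trans (by omega)⟩]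
      simp only [res, e, sub_self, abs_zero, le_refl]
    have b4 : ∀ ω, |φ (res ex ey univ ω)| ≤ 1 := fun _ => hφ _
    have b3 := Pk_abs (ex := ex) (ey := ey) (U := cyl (Cor 3)) hM hl b4
    have b2 := Pk_abs (ex := ex) (ey := ey) (U := cyl (Cor 2)) hM hl b3
    have b1 := Pk_abs (ex := ex) (ey := ey) (U := cyl (Cor 1)) hM hl b2
    have b0 := Pk_abs (ex := ex) (ey := ey) (U := cyl (Cor 0)) hM hl b1
    have a3 := step hs hSN hN1 hd hM hR hN hl le_rfl hR g3 le_rfl b4 (v3 ▸ a4)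
    have a2 := step hs hSN hN1 hd hM hR hN hl m2 R2 g2 (by positivity) b3 (v2 ▸ a3)
    have a1 := step hs hSN hN1 hd hM hR hN hl m1 R1 g1 (by positivity) b2 (v1 ▸ a2)
    obtain ⟨ψ, hψ, a0⟩ := step hs hSN hN1 hd hM hR hN hl m0 R0 g0 (by positivity) b1 (v0 ▸ a1)
    have e0 : ∀ ω' : St T Λ κ, res ex ey (cyl univᶜ) ω' = res ex ey (cyl univᶜ) ω := fun ω' => by
      have e : ∀ x : St T Λ κ, rn ex ey (cyl univᶜ) x = fun _ => none := fun x => by
        funext w; simp [rn, cyl]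
      simp only [res, e]
      simp [Tch]
    simp only [e0] at a0
    have h2 := Ev_near hM hl (by positivity) b0 (fun _ => hψ _) a0
    rw [Ev_const bas hM hl, ← hPdef] at h2
    have h3 := a0 ω h0 h
    rw [← hQ, abs_le]
    rw [abs_le] at h2 h3
    constructor <;> linarith [h2.1, h2.2, h3.1, h3.2]
  have hL : ∀ ω, Lin fun φ : St T Λ κ → ℝ => Q (fun ω => φ (res ex ey univ ω)) ω := fun ω =>
    (lin_Pk hM hl _ ω).comp fun ω => (lin_Pk hM hl _ ω).comp fun ω => (lin_Pk hM hl _ ω).comp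
      fun ω => lin_Ev (hM.child _ _) hl fun ω' => res ex ey univ (glue (res ex ey _ ω) ω')
  have h4 : 0 ≤ Ev ex ey M lab fun ω => F ω ^ 2 := Ev_nonneg bas hM hl fun _ => sq_nonneg _
  have h5 : Ev ex ey M lab (fun ω => (112 * δ + 2 * P) * (Q (fun ω => F ω ^ 2) ω +
      Ev ex ey M lab fun ω => F ω ^ 2)) =
        (112 * δ + 2 * P) * (2 * Ev ex ey M lab fun ω => F ω ^ 2) := by
    rw [Ev_mul, Ev_add, hQ, Ev_const bas hM hl, ← two_mul]
  refine le_trans (Ev_mono bas hM hl fun ω h0 => ?_) (h5.le.trans (by nlinarith))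
  obtain ⟨a, ha, ha'⟩ := hL ω
  obtain ⟨b, hb, hb'⟩ := lin_Ev (ex := ex) (ey := ey) hM hl (res ex ey univ)
  have h6 := ha' F
  have h7 := ha' fun ω => F ω ^ 2
  have h8 := hb' F
  have h9 := hb' fun ω => F ω ^ 2
  simp only [hF] at h6 h7 h8 h9
  split_ifs with h
  · change (Q F ω - Ev ex ey M lab F) ^ 2 ≤ _
    rw [h6, h7, h8, h9]
    exact schur ha hb (fun φ hφ => by rw [← ha', ← hb']; exact h1 φ hφ ω h0 h) F
  · refine mul_nonneg (by positivity) (add_nonneg ?_ h4)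
    rw [h7]; exact sum_nonneg fun x _ => mul_nonneg (ha x) (sq_nonneg _)

end Crest.Agent.N337.A
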