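import Crest.Agent.N337.A.Defs

/-!
# Row 337, block (a): from the small disc to `l = 1` (helper48)
-/

set_option autoImplicit false

namespace Crest.Agent.N337.A

open Polynomial Metric Set

namespace Ci

/-- logarithmic derivative -/
noncomputable def ld (P : ℂ[X]) (l : ℂ) : ℂ := P.derivative.eval l / P.eval l

lemma ld_le {P : ℂ[X]} {R r : ℝ} (hP : ∀ l, ‖l‖ < R → P.eval l ≠ 0) (hr : r < R) {l : ℂ}
    (hl : ‖l‖ ≤ r) : ‖ld P l‖ ≤ P.natDegree * (R - r)⁻¹ := by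
  have h0 := sub_pos.2 hr
  rw [ld, (IsAlgClosed.splits P).eval_derivative_div_eval_of_ne_zero (hP l (hl.trans_lt hr))]
  refine (norm_multiset_sum_le _).trans
    ((Multiset.sum_le_card_nsmul _ (R - r)⁻¹ fun x hx => ?_).trans ?_)
  · simp only [Multiset.map_map, Multiset.mem_map, Function.comp] at hx
    obtain ⟨z, hz, rfl⟩ := hx
    have h1 : R ≤ ‖z‖ := not_lt.1 fun e => hP z e (isRoot_of_mem_roots hz)
    have h2 := norm_sub_norm_le z l
    rw [one_div, norm_inv, norm_sub_rev]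
    exact inv_anti₀ h0 (by linarith)
  · rw [Multiset.card_map, Multiset.card_map, nsmul_eq_mul]
    exact mul_le_mul_of_nonneg_right (Nat.cast_le.2 P.card_roots') (inv_pos.2 h0).le

lemma annulus {g : ℂ → ℂ} {ρ r C : ℝ} {m : ℕ} (hρ : 0 < ρ)
    (hg : ∀ l, ‖l‖ ≤ r → DifferentiableAt ℂ g l) (h1 : ∀ l, ‖l‖ = ρ → ‖g l‖ ≤ C * ‖l‖ ^ m)
    (h2 : ∀ l, ‖l‖ = r → ‖g l‖ ≤ C * ‖l‖ ^ m) {l : ℂ} (hl1 : ρ < ‖l‖) (hl2 : ‖l‖ < r) :
    ‖g l‖ ≤ C * ‖l‖ ^ m := by
  have hc : closure ({z : ℂ | ρ < ‖z‖} ∩ {z | ‖z‖ < r}) ⊆ {z | ρ ≤ ‖z‖} ∩ {z | ‖z‖ ≤ r} :=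
    closure_minimal (fun z hz => ⟨le_of_lt (a := ρ) hz.1, le_of_lt (b := r) hz.2⟩)
      ((isClosed_le continuous_const continuous_norm).inter
        (isClosed_le continuous_norm continuous_const))
  have key : ∀ z : ℂ, ρ ≤ ‖z‖ → (‖g z / z ^ m‖ ≤ C ↔ ‖g z‖ ≤ C * ‖z‖ ^ m) := fun z hz => by
    rw [norm_div, norm_pow, div_le_iff₀ (pow_pos (hρ.trans_le hz) m)]
  refine (key l hl1.le).1 (Complex.norm_le_of_forall_mem_frontier_norm_le
    (f := fun z => g z / z ^ m) (U := {z : ℂ | ρ < ‖z‖} ∩ {z | ‖z‖ < r})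
    ((isBounded_ball (x := 0) (r := r)).subset fun z hz => mem_ball_zero_iff.2 hz.2)
    (DifferentiableOn.diffContOnCl fun z hz => ?_) (fun z hz => ?_) (subset_closure ⟨hl1, hl2⟩))
  · exact ((hg z (hc hz).2).div (differentiableAt_pow m) (pow_ne_zero m
      (norm_pos_iff.1 (hρ.trans_le (hc hz).1)))).differentiableWithinAt
  · refine (key z (hc (frontier_subset_closure hz)).1).2 ?_
    rcases frontier_inter_subset _ _ hz with e | e
    · exact h1 z (frontier_lt_subset_eq continuous_const continuous_norm e.1).symm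
    · exact h2 z (frontier_lt_subset_eq continuous_norm continuous_const e.2)

lemma core {P1 P2 : ℂ[X]} {N m : ℕ} {Tf ε δ : ℝ} (hN : 1 ≤ N) (hT : 1 ≤ Tf)
    (d1 : P1.natDegree ≤ 2 * N) (d2 : P2.natDegree ≤ 2 * N)
    (z1 : ∀ l, ‖l‖ < Real.exp (1 / Tf) → P1.eval l ≠ 0)
    (z2 : ∀ l, ‖l‖ < Real.exp (1 / Tf) → P2.eval l ≠ 0) (e1 : P1.eval 0 = 1) (e2 : P2.eval 0 = 1)
    (lo : ∀ l : ℂ, 8 * N * ‖l‖ ≤ 1 → 9 / 16 ≤ ‖P2.eval l‖)
    (cl : ∀ l : ℂ, 8 * N * ‖l‖ ≤ 1 → ‖P1.eval l - P2.eval l‖ ≤ ε) (hε : ε ≤ 1 / 8)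
    (hδ1 : 200 * N * ε * (16 * N) ^ m ≤ δ) (hδ2 : 16 * N * Tf * Real.exp (-m / (2 * Tf)) ≤ δ) :
    ‖P1.eval 1‖ ≤ Real.exp δ * ‖P2.eval 1‖ := by
  have hN' : (1 : ℝ) ≤ N := Nat.one_le_cast.2 hN
  have hε0 : 0 ≤ ε := (norm_nonneg _).trans (cl 0 (by simp))
  have hδ0 : 0 ≤ δ := le_trans (by positivity) hδ1
  have hr1 : 1 / (2 * Tf) + 1 ≤ Real.exp (1 / (2 * Tf)) := Real.add_one_le_exp _
  have hRr : Real.exp (1 / Tf) = Real.exp (1 / (2 * Tf)) * Real.exp (1 / (2 * Tf)) := by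
    rw [← Real.exp_add]; congr 1; field_simp; norm_num
  have hm : Real.exp (-m / (2 * Tf)) * Real.exp (1 / (2 * Tf)) ^ m = 1 := by
    rw [← Real.exp_nat_mul, ← Real.exp_add, Real.exp_eq_one_iff]; ring
  have ht : 0 < 1 / (2 * Tf) := by positivity
  generalize Real.exp (1 / (2 * Tf)) = r at hr1 hRr hm
  generalize Real.exp (1 / Tf) = R at z1 z2 hRr
  have hr : 1 < r := by linarith
  have hgap : 1 / (2 * Tf) ≤ R - r := by nlinarith
  have hrR : r < R := by linarith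
  have hd : ∀ l : ℂ, ‖l‖ < R → HasDerivAt (fun w => P1.eval w / P2.eval w)
      ((ld P1 l - ld P2 l) * (P1.eval l / P2.eval l)) l := fun l hl => by
    have a1 := z1 l hl
    have a2 := z2 l hl
    refine ((P1.hasDerivAt l).div (P2.hasDerivAt l) a2).congr_deriv ?_
    rw [ld, ld]
    field_simp
  have hsm : ∀ l : ℂ, 8 * N * ‖l‖ ≤ 1 → ‖l‖ < R := fun l hl => by nlinarith [norm_nonneg l]
  have hh : ∀ l : ℂ, 8 * N * ‖l‖ ≤ 1 → ‖P1.eval l / P2.eval l - 1‖ ≤ 2 * ε := fun l hl => by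
    have a2 := z2 l (hsm l hl)
    rw [div_sub_one a2, norm_div, div_le_iff₀ (norm_pos_iff.2 a2)]
    nlinarith [cl l hl, lo l hl]
  have hρ : (0 : ℝ) < (16 * N : ℝ)⁻¹ := by positivity
  have hin : ∀ l : ℂ, ‖l‖ ≤ (16 * N : ℝ)⁻¹ → ‖ld P1 l - ld P2 l‖ ≤ 200 * N * ε := fun l hl => by
    have hb : ∀ w ∈ closedBall l (16 * N : ℝ)⁻¹, 8 * N * ‖w‖ ≤ 1 := fun w hw => by
      have a1 := norm_le_norm_add_norm_sub' w l
      have a2 := mem_closedBall_iff_norm.1 hw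
      calc 8 * N * ‖w‖ ≤ 8 * N * (2 * (16 * N : ℝ)⁻¹) := by gcongr; linarith
        _ = 1 := by field_simp; norm_num
    have hl' := hb l (mem_closedBall_self hρ.le)
    have a1 := Complex.norm_deriv_le_of_forall_mem_sphere_norm_le
      (f := fun w => P1.eval w / P2.eval w - 1) hρ
      (DifferentiableOn.diffContOnCl fun w hw => ((hd w (hsm w (hb w
        (closure_ball_subset_closedBall hw)))).sub_const 1).differentiableAt.differentiableWithinAt)
      fun w hw => hh w (hb w (sphere_subset_closedBall hw))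
    rw [((hd l (hsm l hl')).sub_const 1).deriv, norm_mul, div_inv_eq_mul] at a1
    have a2 := norm_sub_norm_le 1 (P1.eval l / P2.eval l)
    rw [norm_one, norm_sub_rev] at a2
    have a3 : 3 / 4 ≤ ‖P1.eval l / P2.eval l‖ := by linarith [hh l hl']
    nlinarith [mul_le_mul_of_nonneg_left a3 (norm_nonneg (ld P1 l - ld P2 l)),
      mul_nonneg (zero_le_one.trans hN') hε0]
  have hall : ∀ l : ℂ, ‖l‖ ≤ 1 → ‖ld P1 l - ld P2 l‖ ≤ δ := fun l hl => by
    rcases le_or_gt ‖l‖ (16 * N : ℝ)⁻¹ with e | e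
    · exact (hin l e).trans (le_trans (le_mul_of_one_le_right (by positivity)
        (one_le_pow₀ (by linarith))) hδ1)
    refine (annulus (g := fun l => ld P1 l - ld P2 l) (m := m) (C := δ) hρ (fun w hw => ?_)
      (fun w hw => ?_) (fun w hw => ?_) e (hl.trans_lt hr)).trans
      (mul_le_of_le_one_right hδ0 (pow_le_one₀ (norm_nonneg _) hl))
    · exact (P1.derivative.differentiableAt.div P1.differentiableAt (z1 w (hw.trans_lt hrR))).sub
        (P2.derivative.differentiableAt.div P2.differentiableAt (z2 w (hw.trans_lt hrR)))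
    · refine (hin w hw.le).trans ?_
      rw [hw, inv_pow, ← div_eq_mul_inv, le_div_iff₀ (by positivity)]
      exact hδ1
    · have b0 : (R - r)⁻¹ ≤ 2 * Tf := by
        rw [← inv_inv (2 * Tf)]
        exact inv_anti₀ (by positivity) (by rwa [← one_div])
      have b1 : ∀ P : ℂ[X], P.natDegree ≤ 2 * N → (∀ l, ‖l‖ < R → P.eval l ≠ 0) →
          ‖ld P w‖ ≤ 2 * N * (2 * Tf) := fun P dP zP =>
        (ld_le zP hrR hw.le).trans (mul_le_mul (by exact_mod_cast dP) b0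
          (inv_pos.2 (sub_pos.2 hrR)).le (by positivity))
      have b2 := mul_le_mul_of_nonneg_right hδ2 (pow_pos (zero_lt_one.trans hr) m).le
      rw [mul_assoc, hm] at b2
      rw [hw]
      refine (norm_sub_le _ _).trans ?_
      nlinarith [b1 P1 d1 z1, b1 P2 d2 z2, mul_nonneg (zero_le_one.trans hN') (zero_le_one.trans hT)]
  have hI : ∀ t ∈ Icc (0 : ℝ) 1, ‖(t : ℂ)‖ ≤ 1 := fun t ht => by
    rw [Complex.norm_real, Real.norm_of_nonneg ht.1]; exact ht.2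
  have hD : ∀ t ∈ Icc (0 : ℝ) 1, HasDerivAt (fun s : ℝ => P1.eval (s : ℂ) / P2.eval (s : ℂ)) _ t :=
    fun t ht => (hd t ((hI t ht).trans_lt (hr.trans hrR))).comp_ofReal
  have G := norm_le_gronwallBound_of_norm_deriv_right_le (δ := 1) (K := δ) (ε := 0)
    (fun t ht => (hD t ht).continuousAt.continuousWithinAt)
    (fun t ht => (hD t (Ico_subset_Icc_self ht)).hasDerivWithinAt) (by simp [e1, e2])
    (fun t ht => by
      rw [norm_mul, add_zero]
      exact mul_le_mul_of_nonneg_right (hall t (hI t (Ico_subset_Icc_self ht))) (norm_nonneg _))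
    1 ⟨zero_le_one, le_rfl⟩
  rwa [gronwallBound_ε0, one_mul, sub_zero, mul_one, Complex.ofReal_one, norm_div,
    div_le_iff₀ (norm_pos_iff.2 (z2 1 (by rw [norm_one]; exact hr.trans hrR)))] at G

end Ci

theorem circ : CircStmt := by
  intro Q z N m Tf ε δ hN hT hd h1 hz hne hlo h0 hcl hε hδ1 hδ2
  have d : ∀ a b c e, (Q a b * Q c e).natDegree ≤ 2 * N := fun a b c e =>
    natDegree_mul_le.trans (by linarith [hd a b, hd c e])
  have nz : ∀ a b c e l, ‖l‖ < Real.exp (1 / Tf) → (Q a b * Q c e).eval l ≠ 0 := fun a b c e l hl => by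
    have : ‖l‖ * Real.exp (-1 / Tf) < 1 := by
      rwa [neg_div, Real.exp_neg, ← div_eq_mul_inv, div_lt_one (Real.exp_pos _)]
    rw [eval_mul]
    exact mul_ne_zero (hne a b l this) (hne c e l this)
  have e0 : ∀ a b c e, (Q a b * Q c e).eval 0 = 1 := fun a b c e => by rw [eval_mul, h0, h0, mul_one]
  have lo : ∀ a b c e (l : ℂ), 8 * N * ‖l‖ ≤ 1 → 9 / 16 ≤ ‖(Q a b * Q c e).eval l‖ :=
    fun a b c e l hl => by
      have k : ∀ i j, 3 / 4 ≤ ‖(Q i j).eval l‖ := fun i j => by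
        have := norm_sub_norm_le 1 ((Q i j).eval l)
        rw [norm_one, norm_sub_rev] at this
        linarith [hlo i j l hl]
      rw [eval_mul, norm_mul]
      nlinarith [k a b, k c e]
  have v : ∀ a b c e, ‖(Q a b * Q c e).eval 1‖ = z a b * z c e := fun a b c e => by
    rw [eval_mul, h1, h1, ← Complex.ofReal_mul, Complex.norm_real,
      Real.norm_of_nonneg (mul_pos (hz a b) (hz c e)).le]
  rw [← v, ← v]
  exact ⟨Ci.core hN hT (d _ _ _ _) (d _ _ _ _) (nz _ _ _ _) (nz _ _ _ _) (e0 _ _ _ _) (e0 _ _ _ _)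
      (lo _ _ _ _) (fun l hl => by rw [eval_mul, eval_mul]; exact hcl l hl) hε hδ1 hδ2,
    Ci.core hN hT (d _ _ _ _) (d _ _ _ _) (nz _ _ _ _) (nz _ _ _ _) (e0 _ _ _ _) (e0 _ _ _ _)
      (lo _ _ _ _) (fun l hl => by rw [eval_mul, eval_mul, norm_sub_rev]; exact hcl l hl) hε hδ1 hδ2⟩

end Crest.Agent.N337.A
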