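import Crest.Agent.N337.A.Defs
import Crest.Agent.N337.LY.Pres

/-!
# Row 337, block (a): Lee–Yang in the disc, `lyd : LYdStmt` (helper35)
-/

set_option autoImplicit false
set_option linter.unusedSectionVars false

namespace Crest.Agent.N337.A

open Finset Equiv Matrix Crest.Agent.N337.Rep Crest.Agent.N337.Slot Crest.Agent.N337.LY

namespace Ld

section trace
variable {ι : Type} [Fintype ι] [DecidableEq ι]

lemma prod_ofFn_apply (n : ℕ) : ∀ (A : Fin (n + 1) → Matrix ι ι ℂ) (i j : ι),
    (List.ofFn A).reverse.prod i j = ∑ η : Fin n → ι, ∏ s : Fin (n + 1),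
      A s ((Fin.snoc η i : Fin (n + 1) → ι) s) ((Fin.cons j η : Fin (n + 1) → ι) s) := by
  induction n with
  | zero =>
    intro A i j
    simp [Fin.snoc]
  | succ n ih =>
    intro A i j
    rw [List.ofFn_succ, List.reverse_cons, List.prod_append, List.prod_singleton, Matrix.mul_apply,
      ← (Fin.consEquiv fun _ : Fin (n + 1) => ι).sum_comp, Fintype.sum_prod_type]
    refine sum_congr rfl fun k _ => ?_
    rw [ih, sum_mul]
    refine sum_congr rfl fun η _ => ?_
    rw [Fin.prod_univ_succ (n := n + 1), mul_comm]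
    have e : (Fin.snoc ((Fin.consEquiv fun _ : Fin (n + 1) => ι) (k, η)) i : Fin (n + 2) → ι) =
        Fin.cons k (Fin.snoc η i) := (Fin.cons_snoc_eq_snoc_cons k η i).symm
    rw [e]
    simp only [Fin.consEquiv_apply, Fin.cons_zero, Fin.cons_succ]

lemma trace_ofFn {T : ℕ} [NeZero T] (A : Fin T → Matrix ι ι ℂ) :
    ((List.ofFn A).reverse.prod).trace = ∑ η : Fin T → ι, ∏ s, A s (η (s + 1)) (η s) := by
  obtain ⟨n, rfl⟩ : ∃ n, T = n + 1 := Nat.exists_eq_succ_of_ne_zero (NeZero.ne T)
  rw [Matrix.trace, ← (Fin.consEquiv fun _ : Fin (n + 1) => ι).sum_comp, Fintype.sum_prod_type]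
  refine sum_congr rfl fun j _ => ?_
  rw [Matrix.diag_apply, prod_ofFn_apply]
  refine sum_congr rfl fun η _ => prod_congr rfl fun s _ => ?_
  simp only [Fin.consEquiv_apply]
  congr 1
  refine Fin.lastCases ?_ (fun t => ?_) s
  · simp
  · simp

lemma conj_ofFn (H : Matrix ι ι ℂ) (n : ℕ) : ∀ A B : Fin n → Matrix ι ι ℂ,
    (∀ s, A s * H = H * B s) → (List.ofFn A).reverse.prod * H = H * (List.ofFn B).reverse.prod := by
  induction n with
  | zero => intro A B _; simp
  | succ n ih =>
    intro A B h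
    simp only [List.ofFn_succ, List.reverse_cons, List.prod_append, List.prod_singleton]
    rw [Matrix.mul_assoc, h, ← Matrix.mul_assoc, ih _ _ fun s => h s.succ, Matrix.mul_assoc]

end trace

variable {Λ : Type} [Fintype Λ] [DecidableEq Λ]

lemma pres_ofFn (n : ℕ) : ∀ A : Fin n → COp Λ, (∀ s, Pres (A s)) →
    Pres (List.ofFn A).reverse.prod := by
  induction n with
  | zero => intro A _; simpa using pres_one
  | succ n ih =>
    intro A h
    simp only [List.ofFn_succ, List.reverse_cons, List.prod_append, List.prod_singleton]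
    exact (ih _ fun s => h s.succ).mul (h 0)

lemma tc_mul (A B : Λ → Bool → Bool → ℂ) :
    tc A * tc B = tc fun x i j => ∑ k, A x i k * B x k j := by
  ext σ τ
  rw [tc, tc, tc, of_apply, Finset.prod_univ_sum]
  simp only [Matrix.mul_apply, of_apply, Fintype.piFinset_univ, Finset.prod_mul_distrib]

lemma tc_diag (a : Λ → ℂ) : (tc fun x i j => if i = j then (if j = true then a x else 1) else 0) =
    diagonal (ket a) := by
  ext σ τ
  rw [tc, of_apply, diagonal_apply]
  split_ifs with h
  · subst h; simp [ket]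
  · obtain ⟨x, hx⟩ := Function.ne_iff.1 h
    exact prod_eq_zero (mem_univ x) (if_neg hx)

/-- the Hadamard matrix at every slot -/
def Hd (c : ℂ) : COp Λ := tc fun _ i j => if i = true ∧ j = true then -c else c

/-- the conjugate of a diagonal weight -/
noncomputable def Eh (a : Λ → ℂ) : COp Λ :=
  tc fun x i j => if i = j then (1 + a x) / 2 else (1 - a x) / 2

lemma Hd_mul {c c' : ℂ} (h : 2 * (c * c') = 1) : (Hd c * Hd c' : COp Λ) = 1 := by
  have h1 : (diagonal (ket fun _ => 1) : COp Λ) = 1 := by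
    rw [← diagonal_one]; congr 1; funext σ; simp [ket]
  rw [Hd, Hd, tc_mul, ← h1, ← tc_diag]
  congr 1
  funext x i j
  cases i <;> cases j <;> simp <;> linear_combination h

lemma diag_Hd (a : Λ → ℂ) : diagonal (ket a) * Hd 1 = Hd 1 * Eh a := by
  rw [← tc_diag, Hd, Eh, tc_mul, tc_mul]
  congr 1
  funext x i j
  cases i <;> cases j <;> simp <;> ring

lemma Eh_mul (a b : Λ → ℂ) : Eh a * Eh b = Eh fun x => a x * b x := by
  rw [Eh, Eh, Eh, tc_mul]
  congr 1
  funext x i j
  cases i <;> cases j <;> simp <;> ring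

lemma step_Hd (x y : Λ) (p : ℝ) : cm (step x y p) * Hd 1 = Hd 1 * cm (step x y p) := by
  have h : cm (swp x y) * Hd 1 = (Hd 1 * cm (swp x y) : COp Λ) := by
    ext σ τ
    have h1 : (cm (swp x y) * Hd 1 : COp Λ) σ τ = Hd 1 (σ ∘ Equiv.swap x y) τ :=
      congrFun (swp_mulVec x y fun ρ => Hd 1 ρ τ) σ
    rw [h1, Matrix.mul_apply, Finset.sum_eq_single (τ ∘ Equiv.swap x y)]
    · simp only [cm_apply, swp, of_apply, if_true, Complex.ofReal_one, mul_one, Hd, tc]
      exact Fintype.prod_equiv (Equiv.swap x y) _ _ fun z => by simp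
    · intro ρ _ h; simp [cm_apply, swp, h]
    · simp
  rw [step, map_add, cm_smul, cm_smul, map_one, Matrix.add_mul, Matrix.mul_add, Matrix.smul_mul,
    Matrix.smul_mul, Matrix.mul_smul, Matrix.mul_smul, h, Matrix.one_mul, Matrix.mul_one]

lemma moeb {α β : ℂ} (h : Complex.normSq β < Complex.normSq α) :
    α + β ≠ 0 ∧ 0 < ((α - β) / (α + β)).re := by
  have h0 : α + β ≠ 0 := fun e => by
    rw [eq_neg_of_add_eq_zero_left e, Complex.normSq_neg] at h
    exact lt_irrefl _ h
  refine ⟨h0, ?_⟩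
  rw [Complex.div_re, ← add_div]
  refine div_pos ?_ (Complex.normSq_pos.2 h0)
  simp only [Complex.normSq_apply] at h
  simp only [Complex.add_re, Complex.sub_re, Complex.add_im, Complex.sub_im]
  linarith

lemma pres_Eh {a : Λ → ℂ} (ha : ∀ x, ‖a x‖ ≤ 1) : Pres (Eh a) := by
  refine pres_of_map fun v hv => ?_
  have h : ∀ x, Complex.normSq (a x * (1 - v x)) < Complex.normSq (1 + v x) := fun x => by
    have h1 : Complex.normSq (a x) ≤ 1 := by
      rw [Complex.normSq_eq_norm_sq]; exact pow_le_one₀ (norm_nonneg _) (ha x)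
    have h2 : Complex.normSq (1 - v x) < Complex.normSq (1 + v x) := by
      have := hv x
      simp only [Complex.normSq_apply, Complex.add_re, Complex.sub_re, Complex.add_im,
        Complex.sub_im, Complex.one_re, Complex.one_im]
      linarith
    rw [map_mul]
    exact (mul_le_of_le_one_left (Complex.normSq_nonneg _) h1).trans_lt h2
  refine ⟨∏ x, (1 + v x + a x * (1 - v x)) / 2, _, prod_ne_zero_iff.2 fun x _ =>
    div_ne_zero (moeb (h x)).1 two_ne_zero, fun x => (moeb (h x)).2, ?_⟩
  refine (tc_mulVec _ fun x j => if j = true then v x else 1).trans ?_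
  funext σ
  simp only [Pi.smul_apply, smul_eq_mul, ket, ← Finset.prod_mul_distrib]
  refine Finset.prod_congr rfl fun x _ => ?_
  have := (moeb (h x)).1
  cases σ x
  · simp; ring
  · simp; field_simp; ring

variable {T : ℕ} [NeZero T]

open Classical in
lemma trace_eq (ex ey : Fin T → Λ) (p : Fin T → ℝ) (w : Fin T × Λ → ℂ) :
    ((List.ofFn fun s => cm (step (ex s) (ey s) (p s)) *
      diagonal (ket fun x => w (s, x))).reverse.prod).trace =
    ∑ ξ, ∑ n : Fin T × Λ → Bool, if Cl ex ey ξ n then (Pw p ξ : ℂ) *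
      ∏ v, if n v = true then w v else 1 else 0 := by
  rw [trace_ofFn, sum_comm, ← (Equiv.curry (Fin T) Λ Bool).sum_comp]
  refine sum_congr rfl fun n _ => ?_
  have h1 : ∀ (s : Fin T) (η D : Λ → Bool), (cm (step (ex s) (ey s) (p s)) *
      diagonal (ket fun x => w (s, x)) : COp Λ) η D = ∑ b : Bool, (wb (p s) b : ℂ) *
        (ket (fun x => w (s, x)) D * if η = D ∘ sg (ex s) (ey s) b then 1 else 0) := by
    intro s η D
    rw [mul_diagonal, cm_apply, step, Fintype.sum_bool]
    simp only [Matrix.add_apply, Matrix.smul_apply, smul_eq_mul, swp, of_apply, one_apply, wb, sg,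
      if_true, Bool.false_eq_true, if_false, Perm.coe_one, Function.comp_id]
    split_ifs <;> push_cast <;> ring
  simp only [h1]
  rw [Fintype.prod_sum]
  refine sum_congr rfl fun ξ _ => ?_
  have h2 : (∀ s, (Equiv.curry (Fin T) Λ Bool) n (s + 1) =
      (Equiv.curry (Fin T) Λ Bool) n s ∘ sg (ex s) (ey s) (ξ s)) ↔ Cl ex ey ξ n := by
    refine ⟨fun h v => ?_, fun h s => funext fun x => ?_⟩
    · have := congrFun (h v.1) (sg (ex v.1) (ey v.1) (ξ v.1) v.2)
      rw [Function.comp_apply, sg_sg] at this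
      exact this
    · have := h (s, sg (ex s) (ey s) (ξ s) x)
      rw [Sg_apply, sg_sg] at this
      exact this
  rw [prod_mul_distrib, prod_mul_distrib, prod_boole]
  simp only [mem_univ, true_imp_iff, h2, mul_ite, mul_one, mul_zero]
  rw [Pw, Complex.ofReal_prod, Fintype.prod_prod_type]
  rfl

end Ld

open Ld in
theorem lyd : LYdStmt := by
  intro Λ _ _ T _ ex ey M y hM l hl
  set w : Fin T × Λ → ℂ := fun v => (if v.1 = 0 then l else 1) * (M.b v : ℂ) with hw
  have h1 := conj_ofFn (Hd 1) T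
    (fun s => cm (step (ex s) (ey s) (M.p s)) * diagonal (ket fun x => w (s, x)))
    (fun s => cm (step (ex s) (ey s) (M.p s)) * Eh fun x => w (s, x)) fun s => by
      rw [Matrix.mul_assoc, diag_Hd, ← Matrix.mul_assoc, step_Hd, Matrix.mul_assoc]
  have h2 := congrArg (fun X => (X * Hd 2⁻¹).trace) h1
  simp only [Matrix.mul_assoc] at h2
  rw [Hd_mul (by norm_num), Matrix.mul_one, trace_eq, trace_mul_comm, Matrix.mul_assoc,
    Hd_mul (by norm_num), Matrix.mul_one] at h2
  refine ne_of_eq_of_ne h2 ?_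
  obtain ⟨n, rfl⟩ : ∃ n, T = n + 1 := Nat.exists_eq_succ_of_ne_zero (NeZero.ne T)
  set t : ℝ := max (‖l‖ * y) (1 / 2) with ht
  have ht0 : 0 < t := lt_max_of_lt_right (by norm_num)
  have ht1 : t < 1 := max_lt hl (by norm_num)
  have h3 : (Eh fun x => w (0, x)) = Eh (fun x => w (0, x) / t) * tc fun _ => xi t := by
    refine Eq.trans ?_ (Eh_mul _ fun _ => (t : ℂ)).symm
    congr 1
    funext x
    rw [div_mul_cancel₀ _ (Complex.ofReal_ne_zero.2 ht0.ne')]
  have hs : ∀ s, Pres (cm (step (ex s) (ey s) (M.p s))) := fun s =>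
    pres_step _ _ (hM.1 s).1 (hM.1 s).2
  rw [List.ofFn_succ, List.reverse_cons, List.prod_append, List.prod_singleton, h3,
    ← Matrix.mul_assoc, ← Matrix.mul_assoc]
  refine trace_xi_ne (((pres_ofFn n _ fun s => (hs _).mul (pres_Eh fun x => ?_)).mul (hs 0)).mul
    (pres_Eh fun x => ?_)) ht0.le ht1
  · simp only [hw, if_neg (Fin.succ_ne_zero s), one_mul, Complex.norm_real, Real.norm_eq_abs]
    exact abs_le.2 ⟨by linarith [(hM.2.1 (s.succ, x)).1], (hM.2.1 _).2⟩
  · simp only [hw, if_true, norm_div, norm_mul, Complex.norm_real, Real.norm_eq_abs,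
      abs_of_pos ht0, abs_of_nonneg (hM.2.1 _).1]
    exact (div_le_one ht0).2 ((mul_le_mul_of_nonneg_left (hM.2.2 x) (norm_nonneg _)).trans
      (le_max_left _ _))

end Crest.Agent.N337.A
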