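import Crest.Agent.N337.A.Sup
import Crest.Agent.N337.A.Cond
import Crest.Agent.N337.A.LYd
import Crest.Agent.N337.A.Circ

/-!
# Row 337, block (a): clustering from the Lee–Yang property
-/

set_option autoImplicit false
set_option linter.unusedSectionVars false

namespace Crest.Agent.N337.A

open Finset Equiv Crest.Agent.N337.Rep Crest.Agent.N337.LY0

variable {Λ : Type} [Fintype Λ] [DecidableEq Λ] {T : ℕ} [NeZero T] {ex ey : Fin T → Λ}
  {κ : Type} [Fintype κ] [DecidableEq κ] {d : Λ → Λ → ℕ} {M : Mdl T Λ}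
  {lab : Finset (Fin T × Λ) → κ → ℝ} {y : ℝ}

section ev
variable (hB : BasStmt) (hM : M.Ok y) (hl : Lab lab)
include hB hM

lemma Z_pos : 0 < Z ex ey M := zero_lt_one.trans_le (hB Λ T ex ey M y hM).1

include hl

lemma wt_nonneg (ω : St T Λ κ) : 0 ≤ wt ex ey M lab ω :=
  ((hB Λ T ex ey M y hM).2.2.2.2 κ lab hl).1 ω

lemma sum_wt : ∑ ω, wt ex ey M lab ω = Z ex ey M := by
  simpa [Z] using ((hB Λ T ex ey M y hM).2.2.2.2 κ lab hl).2 fun _ => 1

lemma Ev_const (c : ℝ) : Ev ex ey M lab (fun _ => c) = c := by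
  rw [Ev, ← sum_mul, sum_wt hB hM hl, mul_div_cancel_left₀ _ (Z_pos hB hM).ne']

lemma Ev_mono {F G : St T Λ κ → ℝ} (h : ∀ ω, wt ex ey M lab ω ≠ 0 → F ω ≤ G ω) :
    Ev ex ey M lab F ≤ Ev ex ey M lab G := by
  refine div_le_div_of_nonneg_right (sum_le_sum fun ω _ => ?_) (Z_pos hB hM).le
  by_cases h0 : wt ex ey M lab ω = 0
  · rw [h0, zero_mul, zero_mul]
  · exact mul_le_mul_of_nonneg_left (h ω h0) (wt_nonneg hB hM hl ω)

lemma Ev_nonneg {F : St T Λ κ → ℝ} (h : ∀ ω, 0 ≤ F ω) : 0 ≤ Ev ex ey M lab F := by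
  simpa only [Ev_const hB hM hl] using Ev_mono hB hM hl (F := fun _ => 0) fun ω _ => h ω

lemma Pb_nonneg (E : St T Λ κ → Prop) : 0 ≤ Pb ex ey M lab E :=
  Ev_nonneg hB hM hl fun ω => by split_ifs <;> norm_num

end ev

lemma Ev_add (F G : St T Λ κ → ℝ) :
    Ev ex ey M lab (fun ω => F ω + G ω) = Ev ex ey M lab F + Ev ex ey M lab G := by
  simp only [Ev, mul_add, sum_add_distrib, add_div]

lemma Ev_mul (c : ℝ) (F : St T Λ κ → ℝ) :
    Ev ex ey M lab (fun ω => c * F ω) = c * Ev ex ey M lab F := by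
  simp only [Ev, mul_left_comm _ c, ← mul_sum, mul_div_assoc]

lemma Ev_sum {ι : Type} (S : Finset ι) (F : ι → St T Λ κ → ℝ) :
    Ev ex ey M lab (fun ω => ∑ i ∈ S, F i ω) = ∑ i ∈ S, Ev ex ey M lab (F i) := by
  simp only [Ev, mul_sum, ← sum_div]; rw [sum_comm]

lemma Ev_congr {F G : St T Λ κ → ℝ} (h : ∀ ω, wt ex ey M lab ω ≠ 0 → F ω = G ω) :
    Ev ex ey M lab F = Ev ex ey M lab G := by
  unfold Ev
  congr 1
  refine sum_congr rfl fun ω _ => ?_
  by_cases h0 : wt ex ey M lab ω = 0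
  · rw [h0, zero_mul, zero_mul]
  · rw [h ω h0]

lemma Ev_atoms {α : Type} [Fintype α] (r : St T Λ κ → α) (φ : α → ℝ) :
    Ev ex ey M lab (fun ω => φ (r ω)) = ∑ η, Pb ex ey M lab (fun ω => r ω = η) * φ η := by
  simp only [Pb, mul_comm _ (φ _), ← Ev_mul, ← Ev_sum]
  congr 1; funext ω
  rw [sum_eq_single (r ω)] <;> simp +contextual [eq_comm]

lemma Pb_le_add (hB : BasStmt) (hM : M.Ok y) (hl : Lab lab) {E E1 E2 : St T Λ κ → Prop}
    (h : ∀ ω, wt ex ey M lab ω ≠ 0 → E ω → E1 ω ∨ E2 ω) :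
    Pb ex ey M lab E ≤ Pb ex ey M lab E1 + Pb ex ey M lab E2 := by
  rw [Pb, Pb, Pb, ← Ev_add]
  refine Ev_mono hB hM hl fun ω hω => ?_
  have := h ω hω
  split_ifs <;> first | (exfalso; tauto) | norm_num

lemma tv_aux {ι : Type} [Fintype ι] (P P' φ : ι → ℝ) (G : ι → Prop) [DecidablePred G] {δ β : ℝ}
    (h0 : ∀ i, 0 ≤ P i) (h0' : ∀ i, 0 ≤ P' i) (h1 : ∑ i, P i = 1) (h1' : ∑ i, P' i = 1)
    (hG : ∀ i, G i → P i ≤ Real.exp δ * P' i) (hδ : 0 ≤ δ)
    (hβ : ∑ i, P i * (if G i then 0 else 1) ≤ β) (hφ : ∀ i, |φ i| ≤ 1) :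
    |∑ i, P i * φ i - ∑ i, P' i * φ i| ≤ 2 * (δ + β) := by
  have key : ∀ i, |P i * φ i - P' i * φ i| ≤
      P' i - P i + 2 * (δ * P i + P i * (if G i then 0 else 1)) := by
    intro i
    rw [← sub_mul, abs_mul]
    refine (mul_le_of_le_one_right (abs_nonneg _) (hφ i)).trans ?_
    have h2 : P i - P' i ≤ δ * P i + P i * (if G i then 0 else 1) := by
      split_ifs with h
      · have h3 : Real.exp (-δ) * P i ≤ P' i := by
          rw [Real.exp_neg, inv_mul_le_iff₀ (Real.exp_pos δ)]; exact hG i h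
        have h4 := mul_le_mul_of_nonneg_right (Real.add_one_le_exp (-δ)) (h0 i)
        linarith
      · nlinarith [h0 i, h0' i]
    have h3 : 0 ≤ δ * P i + P i * (if G i then 0 else 1) := by
      have := h0 i
      split_ifs <;> positivity
    rw [abs_le]; constructor <;> linarith
  rw [← sum_sub_distrib]
  refine (abs_sum_le_sum_abs _ _).trans ((sum_le_sum fun i _ => key i).trans ?_)
  rw [sum_add_distrib, sum_sub_distrib, h1, h1', ← mul_sum, sum_add_distrib, ← mul_sum, h1]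
  linarith

lemma Pb_prod (hB : BasStmt) {p : Fin T → ℝ} (hp : ∀ s, 0 ≤ p s ∧ p s ≤ 1) (hl : Lab lab)
    (E : (Fin T → Bool) → Prop) [DecidablePred E] :
    ∑ ξ, Pw p ξ * (if E ξ then 0 else 1) = Pb ex ey ⟨p, 0⟩ lab fun ω => ¬ E ω.1 := by
  classical
  have hM : (⟨p, 0⟩ : Mdl T Λ).Ok 0 := ⟨hp, fun _ => by simp, fun _ => le_rfl⟩
  have h1 : ∀ ξ, lw ex ey (0 : Fin T × Λ → ℝ) ξ = 1 := fun ξ =>
    prod_eq_one fun g _ => by rw [pr_zero (o_bp g) rfl, add_zero]
  have h2 := ((hB Λ T ex ey _ 0 hM).2.2.2.2 κ lab hl).2 fun ξ => if E ξ then 0 else 1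
  simp only [h1, mul_one] at h2
  rw [Pb, Ev, ← h2, Z]
  simp only [h1, mul_one, sum_Pw, div_one]
  exact sum_congr rfl fun ω _ => by by_cases h : E ω.1 <;> simp [h]

lemma Pb_atom (hB : BasStmt) (hC : CondStmt) (hM : M.Ok y) (hl : Lab lab)
    (U : Finset (Fin T × Λ)) {ω0 : St T Λ κ} (h0 : Cl ex ey ω0.1 ω0.2) :
    Pb ex ey M lab (fun ω => res ex ey U ω = res ex ey U ω0) =
      aw ex ey M lab (res ex ey U ω0) * Z ex ey (child ex ey M U (res ex ey U ω0)) / Z ex ey M := by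
  have h := (hC Λ T ex ey κ lab M U ω0 h0).1 fun _ => 1
  simp only [mul_one, sum_wt hB (hM.child U _) hl] at h
  rw [Pb, Ev, ← h]
  congr 1
  exact sum_congr rfl fun ω _ => by congr

lemma card_pos (ex : Fin T → Λ) : 1 ≤ Fintype.card Λ := Fintype.card_pos_iff.2 ⟨ex 0⟩

lemma Num.small {N : ℕ} {Tf K δ : ℝ} {v m f D : ℕ} (h : Num N Tf K δ v m f D) (hN : 1 ≤ N) :
    16 * ((1 / 2) ^ f + N * Real.exp (40 * K - f)) ≤ δ ∧ N * Real.exp (-1 / Tf) ^ m ≤ δ := by
  obtain ⟨h1, h2, -, h4, h5, -⟩ := h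
  have hN' : (1 : ℝ) ≤ N := by exact_mod_cast hN
  constructor
  · refine le_trans ?_ h5
    have h6 : (1 : ℝ) ≤ (16 * N) ^ m := one_le_pow₀ (by linarith)
    have h7 : (0 : ℝ) ≤ (1 / 2) ^ f + N * Real.exp (40 * K - f) := by positivity
    nlinarith [mul_le_mul hN' h6 zero_le_one (by linarith : (0 : ℝ) ≤ N)]
  · refine le_trans ?_ h4
    have h6 : Real.exp (-1 / Tf) ^ m ≤ Real.exp (-m / (2 * Tf)) := by
      rw [← Real.exp_nat_mul, Real.exp_le_exp, mul_div_assoc', div_le_div_iff₀ (by linarith)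
        (by linarith)]
      have : (0 : ℝ) ≤ m * Tf := by positivity
      nlinarith
    have h7 := Real.exp_pos (-m / (2 * Tf))
    have h8 : (N : ℝ) ≤ 16 * N * Tf := by nlinarith
    exact mul_le_mul h8 h6 (by positivity) (by positivity)

/-- the cross ratio of four partition functions. -/
lemma ratio {M' : Mdl T Λ} {A U S : Finset Λ} {Tf K δ : ℝ} {N v m f D : ℕ}
    (hs : ∀ v, M.b v ≠ 0 → v.2 ∈ S) (hs' : ∀ v, M'.b v ≠ 0 → v.2 ∈ S) (hSN : S.card ≤ N)
    (hN1 : 1 ≤ N) (hd : Met ex ey d)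
    (hM : M.Ok (Real.exp (-1 / Tf))) (hM' : M'.Ok (Real.exp (-1 / Tf))) (hA : Agree ex ey M M' A)
    (hR : Rate ex ey d M (v + 2) K) (hR' : Rate ex ey d M' (v + 2) K)
    (hS : Slow ex ey d (Cheap ex ey d M) (fun u => u.2 ∉ nbd d 1 A ∧ M.b u ≠ 0) v)
    (hN : Num N Tf K δ v m f D) (hD : ∀ a ∈ A, ∀ u ∈ U, 2 * D + 2 ≤ d a u)
    (hl : Lab lab) {U' : Finset (Fin T × Λ)} (hU : U' ⊆ cyl U) {η : St T Λ κ}
    (hη : ∀ w, η.2 w ≠ none → w.2 ∈ nbd d ((m + 1) * ((f + 1) * (v + 1))) U) :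
    Z ex ey (child ex ey M U' η) * Z ex ey M' ≤
      Real.exp δ * (Z ex ey M * Z ex ey (child ex ey M' U' η)) := by
  classical
  set D0 := (m + 1) * ((f + 1) * (v + 1)) with hD0
  have hDD : D0 + 2 ≤ D := hN.2.2.2.2.2.2
  let B : Bool → Mdl T Λ := fun i => if i = true then M else M'
  let Mm : Bool → Bool → Mdl T Λ := fun i j => if j = true then child ex ey (B i) U' η else B i
  have hBo : ∀ i, (B i).Ok (Real.exp (-1 / Tf)) := fun i => by cases i; exacts [hM', hM]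
  have hMo : ∀ i j, (Mm i j).Ok (Real.exp (-1 / Tf)) := fun i j => by
    cases j; exacts [hBo i, (hBo i).child U' η]
  have hy1 : Real.exp (-1 / Tf) ≤ 1 :=
    Real.exp_le_one_iff.2 (div_nonpos_of_nonpos_of_nonneg (by norm_num) (by linarith [hN.1]))
  have hAA : ∀ x, x ∉ nbd d 1 A → x ∉ A := fun x hx ha =>
    hx (mem_nbd.2 ⟨x, ha, by rw [hd.1]; omega⟩)
  have hG : ∀ x, x ∉ nbd d (D0 + 1) U → ∀ s x', d x x' ≤ 1 → η.2 (s, x') = none := by
    intro x hx s x' hx'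
    by_contra h
    obtain ⟨u, hu, h3⟩ := mem_nbd.1 (hη _ h)
    exact hx (mem_nbd.2 ⟨u, hu, (hd.2.2.1 _ x' _).trans (by simp only at h3; omega)⟩)
  have hT : ∀ s x, x ∉ nbd d (D0 + 1) U → (x = ex s ∨ x = ey s) → ¬ Tch ex ey η.2 s := by
    rintro s x hx he (h | h)
    · exact h (hG x hx s _ (hd.ends he (Or.inl rfl)))
    · exact h (hG x hx s _ (hd.ends he (Or.inr rfl)))
  have hBp : ∀ i s, ex s ∉ A → ey s ∉ A → (B i).p s = M.p s := fun i s h1 h2 => by
    cases i; exacts [(hA.1 s h1 h2).symm, rfl]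
  have hBb : ∀ i u, u.2 ∉ A → (B i).b u = M.b u := fun i u h1 => by
    cases i; exacts [(hA.2 u h1).symm, rfl]
  have hMs : ∀ i j v, (Mm i j).b v ≠ 0 → v.2 ∈ S := fun i j v h => by
    have h3 : (B i).b v ≠ 0 := by cases j; exacts [h, (child_b h).2.2]
    cases i; exacts [hs' v h3, hs v h3]
  have hB := bas
  have hTwo := twoS Mm (nbd d 1 A) (nbd d (D0 + 1) U) ((f + 1) * (v + 1)) f
    (N * Real.exp (40 * K - f)) hMs hSN hd (fun i j => (hMo i j).mono hy1)
    (fun j => ⟨fun s h1 h2 => ?_, fun u h1 => ?_⟩) (fun i => ⟨fun s h1 h2 => ?_, fun u h1 => ?_⟩)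
    (fun a ha g hg => ?_) fun i j => ?_
  · choose Q hQ1 hQ2 using fun i j => degS ex ey (hMs i j) hSN
    have hN1' : (1 : ℝ) ≤ N := by exact_mod_cast hN1
    have hsm := hN.small hN1
    have h := (circ Q (fun i j => Z ex ey (Mm i j)) N m Tf _ δ hN1 hN.1 hQ1
      (fun i j => by rw [hQ2, (hB Λ T ex ey _ _ (hMo i j)).2.1]) (fun i j => Z_pos hB (hMo i j))
      (fun i j l hl => by rw [hQ2]; exact lyd Λ T ex ey _ _ (hMo i j) l hl)
      (fun i j l hl => ?_) (fun i j => ?_) (fun l hl => by simp only [hQ2]; exact hTwo l hl)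
      (hsm.1.trans hN.2.2.1) (le_trans (le_of_eq (by ring)) hN.2.2.2.2.1) hN.2.2.2.1).1
    · simpa [Mm, B] using h
    · rw [hQ2]
      refine (normS ex ey ((hMo i j).mono hy1) (hMs i j) hSN l).trans ?_
      have h3 : (1 + ‖l‖) ^ N ≤ Real.exp ‖l‖ ^ N :=
        pow_le_pow_left₀ (by positivity) (by linarith [Real.add_one_le_exp ‖l‖]) _
      rw [← Real.exp_nat_mul] at h3
      have h4 : Real.exp (N * ‖l‖) ≤ Real.exp (1 / 8) :=
        Real.exp_le_exp.2 (by linarith)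
      have h5 := Real.exp_bound_div_one_sub_of_interval (x := 1 / 8) (by norm_num) (by norm_num)
      norm_num at h5
      linarith
    · have := (hB Λ T ex ey _ _ (hMo i j)).2.2.2.1 0
      rw [hQ2]
      simpa [sub_eq_zero] using this
  · have e := hA.1 s (hAA _ h1) (hAA _ h2)
    cases j
    · exact e
    · simp only [Mm, B, child, if_true, Bool.false_eq_true, if_false, e]
  · have e := hA.2 u (hAA _ h1)
    cases j
    · exact e
    · simp only [Mm, B, child, if_true, Bool.false_eq_true, if_false, e]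
  · simp only [Mm, child, if_true, Bool.false_eq_true, if_false, if_neg (hT s _ h1 (Or.inl rfl))]
  · have h3 : ¬ (u ∈ U' ∨ η.2 u ≠ none) := by
      rintro (h | h)
      · exact h1 (mem_nbd.2 ⟨u.2, mem_cyl.1 (hU h), by rw [hd.1]; omega⟩)
      · exact h (hG _ h1 u.1 u.2 (by rw [hd.1]; omega))
    simp only [Mm, child, if_true, Bool.false_eq_true, if_false, if_neg h3]
  · obtain ⟨a', ha', h3⟩ := mem_nbd.1 ha
    obtain ⟨u, hu, h4⟩ := mem_nbd.1 hg
    have h5 := hD a' ha' u hu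
    have h6 := hd.2.2.1 a' a u
    have h7 := hd.2.2.1 a g u
    have h8 := hN.2.2.2.2.2.1
    rw [hd.2.1] at h3
    have : (2 * f + 3) * (2 * ((f + 1) * (v + 1)) + 2) =
      (2 * f + 2) * (2 * ((f + 1) * (v + 1)) + 2) + (2 * ((f + 1) * (v + 1)) + 2) := by ring
    omega
  · rw [Pb_prod hB (hMo i j).1 hl]
    refine fastS ex ey (M := ⟨(Mm i j).p, 0⟩) (y := 0) f hd
      ⟨(hMo i j).1, fun _ => by simp, fun _ => le_rfl⟩ le_rfl ?_ ?_ hl
      (fun u hu => hMs i j u hu.2.2) hSN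
    · have h3 : Rate ex ey d (B i) (v + 2) K := by cases i; exacts [hR', hR]
      refine h3.of_le le_rfl (fun s => ((hBo i).1 s).1) fun s => ?_
      cases j
      · exact Or.inl rfl
      · exact child_p U' η s
    · refine hS.mono' le_rfl (fun u hu => ⟨hu.1, ?_⟩) fun s x hx he hc => ?_
      · rw [← hBb i u (hAA _ hu.1)]
        cases j
        · exact hu.2.2
        · exact (child_b hu.2.2).2.2
      · have h3 : ∀ x', (x' = ex s ∨ x' = ey s) → x' ∉ A := fun x' h ha =>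
          hx.1 (mem_nbd.2 ⟨x', ha, hd.ends he h⟩)
        have h4 : (Mm i j).p s = M.p s := by
          rw [← hBp i s (h3 _ (Or.inl rfl)) (h3 _ (Or.inr rfl))]
          cases j
          · rfl
          · simp only [Mm, child, if_true, if_neg (hT s x hx.2.1 he)]
        unfold Cheap at hc ⊢
        rwa [← h4]

/-- **clustering**, uniformly in the pins, for models supported on at most `N` slots. -/
theorem clusS {M' : Mdl T Λ} {A U S : Finset Λ} {Tf K δ : ℝ} {N v m f D : ℕ}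
    (hs : ∀ v, M.b v ≠ 0 → v.2 ∈ S) (hs' : ∀ v, M'.b v ≠ 0 → v.2 ∈ S) (hSN : S.card ≤ N)
    (hN1 : 1 ≤ N) (hd : Met ex ey d)
    (hM : M.Ok (Real.exp (-1 / Tf))) (hM' : M'.Ok (Real.exp (-1 / Tf))) (hA : Agree ex ey M M' A)
    (hR : Rate ex ey d M (v + 2) K) (hR' : Rate ex ey d M' (v + 2) K)
    (hS : Slow ex ey d (Cheap ex ey d M) (fun u => u.2 ∉ nbd d 1 A ∧ M.b u ≠ 0) v)
    (hN : Num N Tf K δ v m f D) (hD : ∀ a ∈ A, ∀ u ∈ U, 2 * D + 2 ≤ d a u)
    (hl : Lab lab) {U' : Finset (Fin T × Λ)} {φ : St T Λ κ → ℝ} (hU : U' ⊆ cyl U)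
    (hφ : ∀ η, |φ η| ≤ 1) :
    |Ev ex ey M lab (fun ω => φ (res ex ey U' ω)) -
      Ev ex ey M' lab (fun ω => φ (res ex ey U' ω))| ≤ 10 * δ := by
  classical
  have hB := bas
  have hC := cond
  set D0 := (m + 1) * ((f + 1) * (v + 1)) with hD0
  have hDD : D0 + 2 ≤ D := hN.2.2.2.2.2.2
  have hsm := hN.small hN1
  have hδ := hN.2.1
  rw [Ev_atoms (res ex ey U') φ, Ev_atoms (res ex ey U') φ]
  have h1 : ∀ {M : Mdl T Λ}, M.Ok (Real.exp (-1 / Tf)) →
      ∑ η, Pb ex ey M lab (fun ω => res ex ey U' ω = η) = 1 := fun {M} hM => by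
    simpa only [mul_one, Ev_const hB hM hl] using
      (Ev_atoms (ex := ex) (ey := ey) (M := M) (lab := lab) (res ex ey U') fun _ => 1).symm
  refine (tv_aux _ _ φ (fun η => ∀ w, η.2 w ≠ none → w.2 ∈ nbd d D0 U) (β := 2 * δ)
    (fun _ => Pb_nonneg hB hM hl _) (fun _ => Pb_nonneg hB hM' hl _) (h1 hM) (h1 hM')
    (fun η hη => ?_) hδ.le ?_ hφ).trans (by linarith)
  · by_cases h0 : ∃ ω0 : St T Λ κ, Cl ex ey ω0.1 ω0.2 ∧ res ex ey U' ω0 = η
    · obtain ⟨ω0, h0, rfl⟩ := h0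
      have hfar : ∀ s x x', (res ex ey U' ω0).2 (s, x) ≠ none → d x' x ≤ 1 → x' ∉ A := by
        intro s x x' h hx ha
        obtain ⟨u, hu, h3⟩ := mem_nbd.1 (hη _ h)
        have h4 := hD x' ha u hu
        have h5 := hd.2.2.1 x' x u
        simp only at h3
        omega
      have haw : aw ex ey M lab (res ex ey U' ω0) = aw ex ey M' lab (res ex ey U' ω0) := by
        unfold aw dw
        congr 2
        · funext s
          split_ifs with h
          · rcases h with h | h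
            · rw [hA.1 s (hfar _ _ _ h (hd.ends (Or.inl rfl) (Or.inl rfl)))
                (hfar _ _ _ h (hd.ends (Or.inr rfl) (Or.inl rfl)))]
            · rw [hA.1 s (hfar _ _ _ h (hd.ends (Or.inl rfl) (Or.inr rfl)))
                (hfar _ _ _ h (hd.ends (Or.inr rfl) (Or.inr rfl)))]
          · rfl
        · refine prod_congr rfl fun w _ => ?_
          split_ifs with h
          · rfl
          · exact hA.2 w (hfar w.1 w.2 w.2 h (by rw [hd.1]; omega))
      have hr := ratio hs hs' hSN hN1 hd hM hM' hA hR hR' hS hN hD hl hU hη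
      have ha : 0 ≤ aw ex ey M' lab (res ex ey U' ω0) := by
        have h3 := Pb_nonneg (ex := ex) (ey := ey) hB hM' hl
          fun ω => res ex ey U' ω = res ex ey U' ω0
        rw [Pb_atom hB hC hM' hl U' h0, le_div_iff₀ (Z_pos hB hM'), zero_mul] at h3
        exact nonneg_of_mul_nonneg_left h3 (Z_pos hB (hM'.child U' _))
      rw [Pb_atom hB hC hM hl U' h0, Pb_atom hB hC hM' hl U' h0, haw, mul_div_assoc',
        div_le_div_iff₀ (Z_pos hB hM) (Z_pos hB hM')]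
      nlinarith [mul_le_mul_of_nonneg_left hr ha]
    · have : Pb ex ey M lab (fun ω => res ex ey U' ω = η) = 0 := by
        refine Eq.trans (Ev_congr fun ω hω => ?_) (Ev_const hB hM hl 0)
        exact if_neg fun h => h0 ⟨ω, wt_cl hω, h⟩
      rw [this]
      exact mul_nonneg (Real.exp_pos _).le (Pb_nonneg hB hM' hl _)
  · rw [← Ev_atoms (res ex ey U') fun η =>
      if ∀ w, η.2 w ≠ none → w.2 ∈ nbd d D0 U then 0 else 1]
    have h3 := longS ex ey hM (Real.exp_pos _).le hl hs hSN m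
    have h4 := fastS ex ey f hd hM (Real.exp_pos _).le hR hS hl (fun u hu => hs u hu.2) hSN
    have h5 := Pb_le_add (ex := ex) (ey := ey) hB hM hl (E := fun ω => ¬ ∀ w, (res ex ey U' ω).2 w ≠ none →
      w.2 ∈ nbd d D0 U) (E1 := fun ω => ∃ u, ω.2 u ≠ none ∧ m < wind ex ey ω.1 u)
      (E2 := fun ω => ¬ Slow ex ey d (Act ex ey d ω.1) (fun u => u.2 ∉ nbd d 1 A ∧ M.b u ≠ 0)
        ((f + 1) * (v + 1))) fun ω hω h => ?_
    · have h6 : (0 : ℝ) ≤ (1 / 2) ^ f := by positivity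
      have h7 : (0 : ℝ) ≤ N * Real.exp (40 * K - f) := by positivity
      refine le_trans (le_of_eq ?_) (h5.trans (by linarith [hsm.1, hsm.2]))
      exact Ev_congr fun ω _ => by
        by_cases h : ∀ w, (res ex ey U' ω).2 w ≠ none → w.2 ∈ nbd d D0 U
        · rw [if_pos h, if_neg (not_not.2 h)]
        · rw [if_neg h, if_pos h]
    · by_contra h6
      push Not at h6
      refine h fun w hw => ?_
      obtain ⟨e, u, hu, h7⟩ := res_snd hw
      rw [e] at hw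
      have h8 : ∀ w', o (Sg ex ey ω.1) w' = o (Sg ex ey ω.1) u → ω.2 w' ≠ none := fun w' h' => by
        rwa [(wt_cl hω).eq (h'.trans h7)]
      have h9 := loop_near hd h6.2 ω.1 u (h6.1 u (h8 u rfl)) (fun _ _ h _ => Or.inl h)
        (fun w' h' h'' => ⟨fun ha => ?_, wt_b hω (h8 w' h')⟩) w h7.symm
      · exact mem_nbd.2 ⟨u.2, mem_cyl.1 (hU hu), by rwa [hd.2.1]⟩
      · obtain ⟨a, ha, h10⟩ := mem_nbd.1 ha
        have h11 := hD a ha _ (mem_cyl.1 (hU hu))
        have h12 := hd.2.2.1 a w'.2 u.2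
        rw [hd.2.1] at h10 h''
        omega

theorem clus : ClusStmt := fun _ _ _ _ _ ex _ _ _ _ _ _ _ _ _ _ _ _ _ hd hM hM' hA hR hR' hS hN hD _ _ _ _
    hl _ _ hU hφ => clusS (S := univ) (fun _ _ => mem_univ _) (fun _ _ => mem_univ _) le_rfl
      (card_pos ex) hd hM hM' hA hR hR' hS hN hD hl hU hφ

end Crest.Agent.N337.A
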