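import Crest.Agent.N337.S27.LY0A
import Crest.Agent.N337.Rep.Cyc

/-!
# Row 337, block (a): pinned loop models, Lee–Yang clustering, box move (definitions, statements)

Space-time points `Fin T × Λ`, coins `ξ`, permutation `Sg ex ey ξ`.  A state is `(ξ, n)`;
`n v = none` means up, `n v = some a` means down with label `a` (constant along loops).
-/

set_option autoImplicit false
set_option linter.unusedSectionVars false

namespace Crest.Agent.N337.A

open Finset Equiv Crest.Agent.N337.Rep Crest.Agent.N337.LY0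

/-- a pinned model: coin biases (`0`, `1` = pinned) and point weights (`0` = killed). -/
structure Mdl (T : ℕ) (Λ : Type) where
  p : Fin T → ℝ
  b : Fin T × Λ → ℝ

/-- states: coins and labelled down points. -/
abbrev St (T : ℕ) (Λ κ : Type) : Type := (Fin T → Bool) × (Fin T × Λ → Option κ)

section defs
variable {Λ : Type} [Fintype Λ] [DecidableEq Λ] {T : ℕ} [NeZero T] (ex ey : Fin T → Λ)
  {κ : Type} [Fintype κ] [DecidableEq κ]

/-- admissible parameters; `y` bounds the weights at time `0`. -/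
def Mdl.Ok (M : Mdl T Λ) (y : ℝ) : Prop :=
  (∀ s, 0 ≤ M.p s ∧ M.p s ≤ 1) ∧ (∀ v, 0 ≤ M.b v ∧ M.b v ≤ 1) ∧ ∀ x, M.b (0, x) ≤ y

/-- law of the label of a down loop given its set of points (the same in all models). -/
def Lab (lab : Finset (Fin T × Λ) → κ → ℝ) : Prop :=
  (∀ g a, 0 ≤ lab g a) ∧ ∀ g, ∑ a, lab g a = 1

/-- `n` is constant along the loops of `ξ`. -/
def Cl {α : Type} (ξ : Fin T → Bool) (n : Fin T × Λ → α) : Prop := ∀ v, n (Sg ex ey ξ v) = n v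

/-- weight of the down points and of their labels. -/
noncomputable def dw (b : Fin T × Λ → ℝ) (lab : Finset (Fin T × Λ) → κ → ℝ) (ω : St T Λ κ) : ℝ :=
  (∏ v, if ω.2 v = none then 1 else b v) *
    ∏ g : Orb (Sg ex ey ω.1), (ω.2 (bp g)).elim 1 (lab (ob (Sg ex ey ω.1) g))

open Classical in
/-- unnormalised weight of a state. -/
noncomputable def wt (M : Mdl T Λ) (lab : Finset (Fin T × Λ) → κ → ℝ) (ω : St T Λ κ) : ℝ :=
  if Cl ex ey ω.1 ω.2 then Pw M.p ω.1 * dw ex ey M.b lab ω else 0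

/-- loop weight of a coin configuration. -/
noncomputable def lw (b : Fin T × Λ → ℝ) (ξ : Fin T → Bool) : ℝ :=
  ∏ g : Orb (Sg ex ey ξ), (1 + pr (Sg ex ey ξ) b g)

/-- partition function. -/
noncomputable def Z (M : Mdl T Λ) : ℝ := ∑ ξ, Pw M.p ξ * lw ex ey M.b ξ

open Classical in
/-- partition function with the weights at time `0` multiplied by a complex number. -/
noncomputable def Zc (M : Mdl T Λ) (l : ℂ) : ℂ :=
  ∑ ξ, ∑ n : Fin T × Λ → Bool, if Cl ex ey ξ n then (Pw M.p ξ : ℂ) *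
    ∏ v, if n v = true then (if v.1 = 0 then l else 1) * (M.b v : ℂ) else 1 else 0

/-- expectation. -/
noncomputable def Ev (M : Mdl T Λ) (lab : Finset (Fin T × Λ) → κ → ℝ) (F : St T Λ κ → ℝ) : ℝ :=
  (∑ ω, wt ex ey M lab ω * F ω) / Z ex ey M

open Classical in
/-- probability. -/
noncomputable def Pb (M : Mdl T Λ) (lab : Finset (Fin T × Λ) → κ → ℝ) (E : St T Λ κ → Prop) : ℝ :=
  Ev ex ey M lab fun ω => if E ω then 1 else 0

/-- step `s` touches a down point. -/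
def Tch (n : Fin T × Λ → Option κ) (s : Fin T) : Prop := n (s, ex s) ≠ none ∨ n (s, ey s) ≠ none

instance (n : Fin T × Λ → Option κ) (s : Fin T) : Decidable (Tch ex ey n s) := by
  unfold Tch; infer_instance

/-- the down points on loops that meet `U`. -/
noncomputable def rn (U : Finset (Fin T × Λ)) (ω : St T Λ κ) : Fin T × Λ → Option κ := fun v =>
  if ∃ u ∈ U, o (Sg ex ey ω.1) u = o (Sg ex ey ω.1) v then ω.2 v else none

/-- the down loops that meet `U` and the coins that touch them (all other coins set to `false`).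
`res univ ω` is the configuration `w` of all down loops. -/
noncomputable def res (U : Finset (Fin T × Λ)) (ω : St T Λ κ) : St T Λ κ :=
  (fun s => if Tch ex ey (rn ex ey U ω) s then ω.1 s else false, rn ex ey U ω)

/-- the model left after revealing `η = res U ω`: coins touching `η` pinned, `U` and `η` killed. -/
def child (M : Mdl T Λ) (U : Finset (Fin T × Λ)) (η : St T Λ κ) : Mdl T Λ where
  p s := if Tch ex ey η.2 s then (if η.1 s = true then 1 else 0) else M.p s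
  b v := if v ∈ U ∨ η.2 v ≠ none then 0 else M.b v

/-- the revealed loops together with a state of the child model. -/
def glue (η ω : St T Λ κ) : St T Λ κ := (ω.1, fun v => if η.2 v = none then ω.2 v else η.2 v)

/-- weight of the revealed loops. -/
noncomputable def aw (M : Mdl T Λ) (lab : Finset (Fin T × Λ) → κ → ℝ) (η : St T Λ κ) : ℝ :=
  (∏ s, if Tch ex ey η.2 s then wb (M.p s) (η.1 s) else 1) * dw ex ey M.b lab η

/-- resampling of everything but the loops that meet `U` (conditional expectation given `res U`). -/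
noncomputable def Pk (M : Mdl T Λ) (lab : Finset (Fin T × Λ) → κ → ℝ) (U : Finset (Fin T × Λ))
    (F : St T Λ κ → ℝ) (ω : St T Λ κ) : ℝ :=
  Ev ex ey (child ex ey M U (res ex ey U ω)) lab fun ω' => F (glue (res ex ey U ω) ω')

/-- the cylinder over a set of slots. -/
def cyl (A : Finset Λ) : Finset (Fin T × Λ) := univ.filter fun v => v.2 ∈ A

/-- pseudo-metric on the slots; steps have length at most one. -/
def Met (d : Λ → Λ → ℕ) : Prop :=
  (∀ x, d x x = 0) ∧ (∀ x y, d x y = d y x) ∧ (∀ x y z, d x z ≤ d x y + d y z) ∧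
    ∀ s, d (ex s) (ey s) ≤ 1

/-- `r`-neighbourhood of a set of slots. -/
def nbd (d : Λ → Λ → ℕ) (r : ℕ) (A : Finset Λ) : Finset Λ := univ.filter fun x => ∃ a ∈ A, d x a ≤ r

/-- a path inside one period: at every time it stays or crosses an allowed step. -/
def Path (Al : Fin T → Prop) (W : Fin T × Λ → Prop) (s t : ℕ) (γ : ℕ → Λ) : Prop :=
  ∀ r : Fin T, s ≤ r.val → r.val < t → W (r, γ r.val) ∧
    (γ (r.val + 1) = γ r.val ∨ (Al r ∧ γ (r.val + 1) = swap (ex r) (ey r) (γ r.val)))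

/-- allowed paths have displacement at most `v` (monotone in `Al`, `W`). -/
def Slow (d : Λ → Λ → ℕ) (Al : Fin T → Prop) (W : Fin T × Λ → Prop) (v : ℕ) : Prop :=
  ∀ s t γ, s ≤ t → t ≤ T → Path ex ey Al W s t γ → d (γ s) (γ t) ≤ v

/-- steps that cost nothing: pinned active, or of length zero. -/
def Cheap (d : Λ → Λ → ℕ) (M : Mdl T Λ) (s : Fin T) : Prop := M.p s = 1 ∨ d (ex s) (ey s) = 0

/-- active steps (or of length zero). -/
def Act (d : Λ → Λ → ℕ) (ξ : Fin T → Bool) (s : Fin T) : Prop := ξ s = true ∨ d (ex s) (ey s) = 0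

/-- cheap steps and active steps that touch a down point of `ω`. -/
def ActW (d : Λ → Λ → ℕ) (M : Mdl T Λ) (ω : St T Λ κ) (s : Fin T) : Prop :=
  Cheap ex ey d M s ∨ (ω.1 s = true ∧ Tch ex ey ω.2 s)

open Classical in
/-- the free coins are small and spread evenly over `ns` time blocks `τ`: within distance `r` of a slot
one block carries mass at most `c`; `K` bounds the mass of one period. -/
def Rate (d : Λ → Λ → ℕ) (M : Mdl T Λ) (r : ℕ) (K : ℝ) : Prop :=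
  (∀ s, ¬ Cheap ex ey d M s → M.p s ≤ 1 / 2) ∧
  ∃ (ns : ℕ) (τ : Fin T → ℕ) (c : ℝ), Monotone τ ∧ (∀ s, τ s < ns) ∧ 40 * c ≤ 1 ∧ c * ns ≤ K ∧
    ∀ x j, ∑ s ∈ univ.filter (fun s => τ s = j ∧ ¬ Cheap ex ey d M s ∧ d x (ex s) ≤ r), M.p s ≤ c

/-- number of time-`0` points of the loop through `v`. -/
noncomputable def wind (ξ : Fin T → Bool) (v : Fin T × Λ) : ℕ :=
  (univ.filter fun x : Λ => o (Sg ex ey ξ) (0, x) = o (Sg ex ey ξ) v).card

/-- two models agree off the slots `A`. -/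
def Agree (M M' : Mdl T Λ) (A : Finset Λ) : Prop :=
  (∀ s, ex s ∉ A → ey s ∉ A → M.p s = M'.p s) ∧ ∀ v, v.2 ∉ A → M.b v = M'.b v

/-- good states of the box move: short loops, slow pins. -/
def Gd (d : Λ → Λ → ℕ) (M : Mdl T Λ) (K v : ℕ) (ω : St T Λ κ) : Prop :=
  (∀ u, ω.2 u ≠ none → wind ex ey ω.1 u ≤ K) ∧
    Slow ex ey d (ActW ex ey d M ω) (fun u => M.b u ≠ 0) v

end defs

/-- **(Bas)** partition function, polynomial form, crude bounds. -/
def BasStmt : Prop :=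
  ∀ (Λ : Type) [Fintype Λ] [DecidableEq Λ] (T : ℕ) [NeZero T] (ex ey : Fin T → Λ)
    (M : Mdl T Λ) (y : ℝ), M.Ok y →
    1 ≤ Z ex ey M ∧ Zc ex ey M 1 = (Z ex ey M : ℂ) ∧
    (∃ Q : Polynomial ℂ, Q.natDegree ≤ Fintype.card Λ ∧ ∀ l, Q.eval l = Zc ex ey M l) ∧
    (∀ l : ℂ, ‖Zc ex ey M l - 1‖ ≤ (1 + ‖l‖) ^ Fintype.card Λ - 1) ∧
    ∀ (κ : Type) [Fintype κ] [DecidableEq κ] (lab : Finset (Fin T × Λ) → κ → ℝ), Lab lab →
      (∀ ω, 0 ≤ wt ex ey M lab ω) ∧
      ∀ φ : (Fin T → Bool) → ℝ,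
        ∑ ω, wt ex ey M lab ω * φ ω.1 = ∑ ξ, Pw M.p ξ * lw ex ey M.b ξ * φ ξ

/-- **(Cond)** revealing the loops that meet `U`. -/
def CondStmt : Prop :=
  ∀ (Λ : Type) [Fintype Λ] [DecidableEq Λ] (T : ℕ) [NeZero T] (ex ey : Fin T → Λ)
    (κ : Type) [Fintype κ] [DecidableEq κ] (lab : Finset (Fin T × Λ) → κ → ℝ) (M : Mdl T Λ)
    (U : Finset (Fin T × Λ)) (ω0 : St T Λ κ), Cl ex ey ω0.1 ω0.2 →
    (∀ F : St T Λ κ → ℝ,
      ∑ ω, wt ex ey M lab ω * (if res ex ey U ω = res ex ey U ω0 then F ω else 0) =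
        aw ex ey M lab (res ex ey U ω0) *
          ∑ ω, wt ex ey (child ex ey M U (res ex ey U ω0)) lab ω * F (glue (res ex ey U ω0) ω)) ∧
    Cl ex ey (res ex ey U ω0).1 (res ex ey U ω0).2 ∧
    ∀ ω, wt ex ey (child ex ey M U (res ex ey U ω0)) lab ω ≠ 0 →
      Cl ex ey ω.1 (glue (res ex ey U ω0) ω).2 ∧
        res ex ey U (glue (res ex ey U ω0) ω) = res ex ey U ω0

/-- **(Tog)** finite energy for the coins, long loops are rare. -/
def TogStmt : Prop :=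
  ∀ (Λ : Type) [Fintype Λ] [DecidableEq Λ] (T : ℕ) [NeZero T] (ex ey : Fin T → Λ)
    (M : Mdl T Λ) (y : ℝ), M.Ok y → 0 ≤ y →
    ∀ (κ : Type) [Fintype κ] [DecidableEq κ] (lab : Finset (Fin T × Λ) → κ → ℝ), Lab lab →
      (∀ S : Finset (Fin T), (∀ s ∈ S, M.p s ≤ 1 / 2) →
        Pb ex ey M lab (fun ω => ∀ s ∈ S, ω.1 s = true) ≤ ∏ s ∈ S, 6 * M.p s) ∧
      ∀ K : ℕ, Pb ex ey M lab (fun ω => ∃ u, ω.2 u ≠ none ∧ K < wind ex ey ω.1 u) ≤
        Fintype.card Λ * y ^ K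

/-- **(Fast)** slow pins give slow active paths. -/
def FastStmt : Prop :=
  ∀ (Λ : Type) [Fintype Λ] [DecidableEq Λ] (T : ℕ) [NeZero T] (ex ey : Fin T → Λ)
    (d : Λ → Λ → ℕ) (M : Mdl T Λ) (y K : ℝ) (W : Fin T × Λ → Prop) (v f : ℕ),
    Met ex ey d → M.Ok y → 0 ≤ y → Rate ex ey d M (v + 2) K →
    Slow ex ey d (Cheap ex ey d M) W v →
    ∀ (κ : Type) [Fintype κ] [DecidableEq κ] (lab : Finset (Fin T × Λ) → κ → ℝ), Lab lab →
      Pb ex ey M lab (fun ω => ¬ Slow ex ey d (Act ex ey d ω.1) W ((f + 1) * (v + 1))) ≤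
        Fintype.card Λ * Real.exp (40 * K - f)

/-- **(LYd)** Lee–Yang in the disc. -/
def LYdStmt : Prop :=
  ∀ (Λ : Type) [Fintype Λ] [DecidableEq Λ] (T : ℕ) [NeZero T] (ex ey : Fin T → Λ)
    (M : Mdl T Λ) (y : ℝ), M.Ok y → ∀ l : ℂ, ‖l‖ * y < 1 → Zc ex ey M l ≠ 0

/-- **(Two)** two-copy swap at small complex fugacity. -/
def TwoStmt : Prop :=
  ∀ (Λ : Type) [Fintype Λ] [DecidableEq Λ] (T : ℕ) [NeZero T] (ex ey : Fin T → Λ)
    (d : Λ → Λ → ℕ) (M : Bool → Bool → Mdl T Λ) (A G : Finset Λ) (v n0 : ℕ) (ε : ℝ),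
    Met ex ey d → (∀ i j, (M i j).Ok 1) →
    (∀ j, Agree ex ey (M true j) (M false j) A) → (∀ i, Agree ex ey (M i true) (M i false) G) →
    (∀ a ∈ A, ∀ g ∈ G, (2 * n0 + 2) * (2 * v + 2) < d a g) →
    (∀ i j, ∑ ξ, Pw (M i j).p ξ * (open Classical in if Slow ex ey d (Act ex ey d ξ)
      (fun u => u.2 ∉ A ∧ u.2 ∉ G ∧ (M i j).b u ≠ 0) v then 0 else 1) ≤ ε) →
    ∀ l : ℂ, 8 * Fintype.card Λ * ‖l‖ ≤ 1 →
      ‖Zc ex ey (M true true) l * Zc ex ey (M false false) l -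
        Zc ex ey (M true false) l * Zc ex ey (M false true) l‖ ≤ 16 * ((1 / 2) ^ n0 + ε)

/-- **(Circ)** from the small disc to `l = 1`. -/
def CircStmt : Prop :=
  ∀ (Q : Bool → Bool → Polynomial ℂ) (z : Bool → Bool → ℝ) (N m : ℕ) (Tf ε δ : ℝ), 1 ≤ N → 1 ≤ Tf →
    (∀ i j, (Q i j).natDegree ≤ N) → (∀ i j, (Q i j).eval 1 = z i j) → (∀ i j, 0 < z i j) →
    (∀ i j l, ‖l‖ * Real.exp (-1 / Tf) < 1 → (Q i j).eval l ≠ 0) →
    (∀ i j l, 8 * N * ‖l‖ ≤ 1 → ‖(Q i j).eval l - 1‖ ≤ 1 / 4) → (∀ i j, (Q i j).eval 0 = 1) →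
    (∀ l : ℂ, 8 * N * ‖l‖ ≤ 1 → ‖(Q true true).eval l * (Q false false).eval l -
      (Q true false).eval l * (Q false true).eval l‖ ≤ ε) →
    ε ≤ 1 / 8 → 200 * N * ε * (16 * N) ^ m ≤ δ → 16 * N * Tf * Real.exp (-m / (2 * Tf)) ≤ δ →
    z true true * z false false ≤ Real.exp δ * (z true false * z false true) ∧
      z true false * z false true ≤ Real.exp δ * (z true true * z false false)

/-- numerical conditions of the clustering lemma (`N` slots, field `1/Tf`, speed `v`, rate `K`,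
range `D`, error `δ`). -/
def Num (N : ℕ) (Tf K δ : ℝ) (v m f D : ℕ) : Prop :=
  1 ≤ Tf ∧ 0 < δ ∧ δ ≤ 1 / 8 ∧ 16 * N * Tf * Real.exp (-m / (2 * Tf)) ≤ δ ∧
    3200 * N * ((1 / 2) ^ f + N * Real.exp (40 * K - f)) * (16 * N) ^ m ≤ δ ∧
    (2 * f + 3) * (2 * ((f + 1) * (v + 1)) + 2) ≤ D ∧ (m + 1) * ((f + 1) * (v + 1)) + 2 ≤ D

/-- **(Clus)** clustering, uniformly in the pins. -/
def ClusStmt : Prop :=
  ∀ (Λ : Type) [Fintype Λ] [DecidableEq Λ] (T : ℕ) [NeZero T] (ex ey : Fin T → Λ)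
    (d : Λ → Λ → ℕ) (M M' : Mdl T Λ) (A U : Finset Λ) (Tf K δ : ℝ) (v m f D : ℕ),
    Met ex ey d → M.Ok (Real.exp (-1 / Tf)) → M'.Ok (Real.exp (-1 / Tf)) → Agree ex ey M M' A →
    Rate ex ey d M (v + 2) K → Rate ex ey d M' (v + 2) K →
    Slow ex ey d (Cheap ex ey d M) (fun u => u.2 ∉ nbd d 1 A ∧ M.b u ≠ 0) v →
    Num (Fintype.card Λ) Tf K δ v m f D → (∀ a ∈ A, ∀ u ∈ U, 2 * D + 2 ≤ d a u) →
    ∀ (κ : Type) [Fintype κ] [DecidableEq κ] (lab : Finset (Fin T × Λ) → κ → ℝ), Lab lab →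
    ∀ (U' : Finset (Fin T × Λ)) (φ : St T Λ κ → ℝ), U' ⊆ cyl U → (∀ η, |φ η| ≤ 1) →
      |Ev ex ey M lab (fun ω => φ (res ex ey U' ω)) -
        Ev ex ey M' lab (fun ω => φ (res ex ey U' ω))| ≤ 10 * δ

/-- **(Box)** four layers mix. -/
def BoxStmt : Prop :=
  ∀ (Λ : Type) [Fintype Λ] [DecidableEq Λ] (T : ℕ) [NeZero T] (ex ey : Fin T → Λ)
    (d : Λ → Λ → ℕ) (M : Mdl T Λ) (Cor : Fin 4 → Finset Λ) (Tf K δ : ℝ) (v : ℕ → ℕ) (m f D : ℕ),
    Met ex ey d → M.Ok (Real.exp (-1 / Tf)) → (∀ i, v (i + 1) = (f + 1) * (v i + 1)) →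
    Rate ex ey d M (v 4 + 2) K → Num (Fintype.card Λ) Tf K δ (v 4) m f D →
    (∀ x, (∃ s, M.b (s, x) ≠ 0) → ∃ l, x ∉ nbd d (12 * D) (Cor l)) →
    ∀ (κ : Type) [Fintype κ] [DecidableEq κ] (lab : Finset (Fin T × Λ) → κ → ℝ), Lab lab →
    ∀ F : St T Λ κ → ℝ, (∀ ω, F (res ex ey univ ω) = F ω) →
      Ev ex ey M lab (fun ω => open Classical in if Gd ex ey d M m (v 0) ω then
        (Pk ex ey M lab (cyl (Cor 0)) (Pk ex ey M lab (cyl (Cor 1))
          (Pk ex ey M lab (cyl (Cor 2)) (Pk ex ey M lab (cyl (Cor 3)) F))) ω -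
            Ev ex ey M lab F) ^ 2 else 0) ≤
        400 * (δ + Pb ex ey M lab fun ω => ¬ Gd ex ey d M m (v 0) ω) * Ev ex ey M lab fun ω => F ω ^ 2

end Crest.Agent.N337.A
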