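import Crest.Agent.N337.A.Geo

/-!
# Row 337, block (a): slow pins give slow active paths
-/

set_option autoImplicit false
set_option linter.unusedSectionVars false

namespace Crest.Agent.N337.A

open Finset Equiv Crest.Agent.N337.Rep Crest.Agent.N337.LY0

section
variable {Λ : Type} [Fintype Λ] [DecidableEq Λ] {T : ℕ} [NeZero T] {ex ey : Fin T → Λ}
  {κ : Type} [Fintype κ] [DecidableEq κ]

theorem Path.mono {Al Al' : Fin T → Prop} {W W' : Fin T × Λ → Prop} {s t : ℕ} {γ : ℕ → Λ}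
    (h : Path ex ey Al W s t γ) (hA : ∀ r, Al r → Al' r) (hW : ∀ u, W u → W' u) :
    Path ex ey Al' W' s t γ := fun r h1 h2 =>
  ⟨hW _ (h r h1 h2).1, (h r h1 h2).2.imp id fun h' => ⟨hA _ h'.1, h'.2⟩⟩

theorem Path.sub {Al : Fin T → Prop} {W : Fin T × Λ → Prop} {s t s' t' : ℕ} {γ : ℕ → Λ}
    (h : Path ex ey Al W s t γ) (hs : s ≤ s') (ht : t' ≤ t) : Path ex ey Al W s' t' γ :=
  fun r h1 h2 => h r (hs.trans h1) (h2.trans_le ht)

theorem Slow.mono {d : Λ → Λ → ℕ} {Al Al' : Fin T → Prop} {W W' : Fin T × Λ → Prop} {v v' : ℕ}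
    (h : Slow ex ey d Al W v) (hA : ∀ r, Al' r → Al r) (hW : ∀ u, W' u → W u) (hv : v ≤ v') :
    Slow ex ey d Al' W' v' := fun s t γ h1 h2 hp => (h s t γ h1 h2 (hp.mono hA hW)).trans hv

theorem Rate.mono {d : Λ → Λ → ℕ} {M : Mdl T Λ} {r r' : ℕ} {K K' : ℝ} (h : Rate ex ey d M r K)
    (hp : ∀ s, 0 ≤ M.p s) (hr : r' ≤ r) (hK : K ≤ K') : Rate ex ey d M r' K' := by
  classical
  obtain ⟨h1, ns, τ, c, hm, hτ, hc, hcK, hs⟩ := h
  refine ⟨h1, ns, τ, c, hm, hτ, hc, hcK.trans hK, fun x j => le_trans ?_ (hs x j)⟩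
  refine sum_le_sum_of_subset_of_nonneg (fun s hs => ?_) fun s _ _ => hp s
  simp only [mem_filter, mem_univ, true_and] at hs ⊢
  exact ⟨hs.1, hs.2.1, hs.2.2.trans hr⟩

/-- a model whose free coins are free coins of `M` or pinned. -/
theorem Rate.of_pin {d : Λ → Λ → ℕ} {M M' : Mdl T Λ} {r : ℕ} {K : ℝ} (h : Rate ex ey d M r K)
    (hp : ∀ s, 0 ≤ M.p s) (hM : ∀ s, M'.p s = 0 ∨ M'.p s = 1 ∨ M'.p s = M.p s) :
    Rate ex ey d M' r K := by
  classical
  obtain ⟨h1, ns, τ, c, hm, hτ, hc, hcK, hs⟩ := h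
  have key : ∀ s, ¬ Cheap ex ey d M' s → M'.p s = 0 ∨ (M'.p s = M.p s ∧ ¬ Cheap ex ey d M s) := by
    intro s hs
    rcases hM s with h | h | h
    · exact Or.inl h
    · exact absurd (Or.inl h) hs
    · refine Or.inr ⟨h, fun h' => hs ?_⟩
      rcases h' with h' | h'
      · exact Or.inl (h.trans h')
      · exact Or.inr h'
  refine ⟨fun s hs => ?_, ns, τ, c, hm, hτ, hc, hcK, fun x j => le_trans ?_ (hs x j)⟩
  · rcases key s hs with h | h
    · rw [h]; norm_num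
    · rw [h.1]; exact h1 s h.2
  · rw [sum_filter, sum_filter]
    refine sum_le_sum fun s _ => ?_
    split_ifs with ha hb hb
    · rcases key s ha.2.1 with h | h
      · rw [h]; exact hp s
      · exact h.1.le
    · rcases key s ha.2.1 with h | h
      · exact h.le
      · exact absurd ⟨ha.1, h.2, ha.2.2⟩ hb
    · exact hp s
    · exact le_rfl

theorem Rate.child {d : Λ → Λ → ℕ} {M : Mdl T Λ} {r : ℕ} {K : ℝ} (h : Rate ex ey d M r K)
    (hp : ∀ s, 0 ≤ M.p s) (U : Finset (Fin T × Λ)) (η : St T Λ κ) :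
    Rate ex ey d (child ex ey M U η) r K := by
  refine h.of_pin hp fun s => ?_
  simp only [A.child]
  split_ifs
  · exact Or.inr (Or.inl rfl)
  · exact Or.inl rfl
  · exact Or.inr (Or.inr rfl)

/-- union bound. -/
theorem Pb_le_sum {M : Mdl T Λ} {lab : Finset (Fin T × Λ) → κ → ℝ}
    (hw : ∀ ω, 0 ≤ wt ex ey M lab ω) (hZ : 0 ≤ Z ex ey M) {ι : Type} (I : Finset ι)
    {E : St T Λ κ → Prop} {E' : ι → St T Λ κ → Prop} (h : ∀ ω, E ω → ∃ i ∈ I, E' i ω) :
    Pb ex ey M lab E ≤ ∑ i ∈ I, Pb ex ey M lab (E' i) := by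
  classical
  unfold Pb Ev
  rw [← sum_div, sum_comm]
  refine div_le_div_of_nonneg_right (sum_le_sum fun ω _ => ?_) hZ
  rw [← mul_sum]
  refine mul_le_mul_of_nonneg_left ?_ (hw ω)
  have h0 : ∀ i ∈ I, (0 : ℝ) ≤ if E' i ω then 1 else 0 := fun i _ => by split_ifs <;> norm_num
  beta_reduce
  split_ifs with hE
  · obtain ⟨i, hi, hi'⟩ := h ω hE
    have := single_le_sum h0 hi
    simpa only [if_pos hi'] using this
  · exact sum_nonneg h0

theorem Pb_mono {M : Mdl T Λ} {lab : Finset (Fin T × Λ) → κ → ℝ}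
    (hw : ∀ ω, 0 ≤ wt ex ey M lab ω) (hZ : 0 ≤ Z ex ey M)
    {E E' : St T Λ κ → Prop} (h : ∀ ω, E ω → E' ω) : Pb ex ey M lab E ≤ Pb ex ey M lab E' := by
  have := Pb_le_sum hw hZ ({()} : Finset Unit) (E := E) (E' := fun _ => E')
    fun ω hω => ⟨(), mem_singleton_self _, h ω hω⟩
  simpa using this

namespace Fast

variable (ex ey) in
/-- a chain of `k` expensive active steps after time `t`, starting near `x`. -/
def Ch (d : Λ → Λ → ℕ) (M : Mdl T Λ) (r : ℕ) (ξ : Fin T → Bool) : ℕ → ℕ → Λ → Prop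
  | 0, _, _ => True
  | k + 1, t, x => ∃ s : Fin T, t ≤ s.val ∧ ¬ Cheap ex ey d M s ∧ d x (ex s) ≤ r ∧ ξ s = true ∧
      Ch d M r ξ k (s.val + 1) (ex s)

theorem Ch.anti {d : Λ → Λ → ℕ} {M : Mdl T Λ} {r : ℕ} {ξ : Fin T → Bool} {k t t' : ℕ} {x : Λ}
    (h : Ch ex ey d M r ξ k t x) (ht : t' ≤ t) : Ch ex ey d M r ξ k t' x := by
  cases k with
  | zero => trivial
  | succ k =>
    obtain ⟨s, h1, h2⟩ := h
    exact ⟨s, ht.trans h1, h2⟩

theorem ch_of_path {d : Λ → Λ → ℕ} {M : Mdl T Λ} {W : Fin T × Λ → Prop} {v : ℕ}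
    (hd : Met ex ey d) (hS : Slow ex ey d (Cheap ex ey d M) W v) (ξ : Fin T → Bool) (γ : ℕ → Λ)
    (t : ℕ) (ht : t ≤ T) (k : ℕ) : ∀ (s : ℕ) (x : Λ), s ≤ t → d x (γ s) ≤ 1 →
      Path ex ey (Act ex ey d ξ) W s t γ → k * (v + 1) ≤ d (γ s) (γ t) →
      Ch ex ey d M (v + 2) ξ k s x := by
  classical
  obtain ⟨d0, dc, dt, d1⟩ := hd
  induction k with
  | zero => intros; trivial
  | succ k ih =>
    intro s x hs hx hp hk
    have hex : ∃ n, ∃ h : n < T, s ≤ n ∧ n < t ∧ γ (n + 1) ≠ γ n ∧ ¬ Cheap ex ey d M ⟨n, h⟩ := by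
      by_contra hn
      have : Path ex ey (Cheap ex ey d M) W s t γ := by
        intro r h1 h2
        refine ⟨(hp r h1 h2).1, ?_⟩
        by_cases he : γ (r.val + 1) = γ r.val
        · exact Or.inl he
        · refine Or.inr ⟨?_, ((hp r h1 h2).2.resolve_left he).2⟩
          by_contra hc
          exact hn ⟨r.val, r.2, h1, h2, he, hc⟩
      have := hS s t γ hs ht this
      nlinarith [Nat.zero_le (k * (v + 1))]
    obtain ⟨hn, n1, n2, n3, n4⟩ := Nat.find_spec hex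
    set n := Nat.find hex with hndef
    have hc : Path ex ey (Cheap ex ey d M) W s n γ := by
      intro r h1 h2
      refine ⟨(hp r h1 (h2.trans n2)).1, ?_⟩
      by_cases he : γ (r.val + 1) = γ r.val
      · exact Or.inl he
      · refine Or.inr ⟨?_, ((hp r h1 (h2.trans n2)).2.resolve_left he).2⟩
        by_contra hc
        exact Nat.find_min hex h2 ⟨r.2, h1, h2.trans n2, he, hc⟩
    have h1 := hS s n γ n1 hn.le hc
    obtain ⟨ha, hsw⟩ := (hp ⟨n, hn⟩ n1 n2).2.resolve_left n3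
    simp only at hsw
    have hxy : (γ n = ex ⟨n, hn⟩ ∧ γ (n + 1) = ey ⟨n, hn⟩) ∨
        (γ n = ey ⟨n, hn⟩ ∧ γ (n + 1) = ex ⟨n, hn⟩) := by
      by_cases e1 : γ n = ex ⟨n, hn⟩
      · exact Or.inl ⟨e1, by rw [hsw, e1, swap_apply_left]⟩
      · by_cases e2 : γ n = ey ⟨n, hn⟩
        · exact Or.inr ⟨e2, by rw [hsw, e2, swap_apply_right]⟩
        · exact absurd (by rw [hsw, swap_apply_of_ne_of_ne e1 e2]) n3
    have e1 : d (γ n) (ex ⟨n, hn⟩) ≤ 1 ∧ d (ex ⟨n, hn⟩) (γ (n + 1)) ≤ 1 ∧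
        d (γ n) (γ (n + 1)) ≤ 1 := by
      have := d1 ⟨n, hn⟩
      have := dc (ey ⟨n, hn⟩) (ex ⟨n, hn⟩)
      have := d0 (ex ⟨n, hn⟩)
      rcases hxy with ⟨a, b⟩ | ⟨a, b⟩ <;> rw [a, b] <;> omega
    refine ⟨⟨n, hn⟩, n1, n4, ?_, ha.resolve_right fun h => n4 (Or.inr h), ?_⟩
    · have := dt x (γ s) (ex ⟨n, hn⟩)
      have := dt (γ s) (γ n) (ex ⟨n, hn⟩)
      omega
    · refine ih (n + 1) _ n2 e1.2.1 (hp.sub (by omega) le_rfl) ?_
      have := dt (γ s) (γ n) (γ t)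
      have := dt (γ n) (γ (n + 1)) (γ t)
      have : (k + 1) * (v + 1) = k * (v + 1) + (v + 1) := by ring
      omega

theorem step_le {c : ℝ} (h0 : 0 ≤ c) (hc : 40 * c ≤ 1) (a : ℝ) :
    6 * c * Real.exp a ≤ Real.exp (-1) * (Real.exp a - Real.exp (a - 40 * c)) := by
  have h1 : Real.exp (-(40 * c)) * (1 + 40 * c) ≤ 1 := by
    have := Real.add_one_le_exp (40 * c)
    calc Real.exp (-(40 * c)) * (1 + 40 * c) ≤ Real.exp (-(40 * c)) * Real.exp (40 * c) :=
          mul_le_mul_of_nonneg_left (by linarith) (Real.exp_pos _).le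
      _ = 1 := by rw [← Real.exp_add]; simp
  have h2 : Real.exp (-(40 * c)) ≤ 1 - 20 * c := by
    have := Real.exp_pos (-(40 * c))
    nlinarith
  have h3 : (1 : ℝ) / 3 ≤ Real.exp (-1) := by
    rw [Real.exp_neg, ← one_div]
    exact one_div_le_one_div_of_le (Real.exp_pos 1) (by linarith [Real.exp_one_lt_d9])
  have h4 : Real.exp (a - 40 * c) = Real.exp a * Real.exp (-(40 * c)) := by
    rw [← Real.exp_add]; ring_nf
  have h5 := Real.exp_pos a
  have h6 : 20 * c * Real.exp a ≤ Real.exp a - Real.exp (a - 40 * c) := by rw [h4]; nlinarith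
  have h7 : 0 ≤ c * Real.exp a := mul_nonneg h0 h5.le
  nlinarith

theorem tele (φ : ℕ → ℝ) (j n : ℕ) (h : j ≤ n) :
    ∑ i ∈ Ico j n, (φ i - φ (i + 1)) = φ j - φ n := by
  induction n, h using Nat.le_induction with
  | base => simp
  | succ n h ih => rw [sum_Ico_succ_top h, ih]; ring

open Classical in
theorem pb_ch {d : Λ → Λ → ℕ} {M : Mdl T Λ} {lab : Finset (Fin T × Λ) → κ → ℝ} {r ns : ℕ}
    {τ : Fin T → ℕ} {c : ℝ} (hw : ∀ ω, 0 ≤ wt ex ey M lab ω) (hZ : 0 ≤ Z ex ey M)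
    (hp : ∀ s, 0 ≤ M.p s) (h1 : ∀ s, ¬ Cheap ex ey d M s → M.p s ≤ 1 / 2) (hm : Monotone τ)
    (hτ : ∀ s, τ s < ns) (hc : 40 * c ≤ 1)
    (hs : ∀ x j, ∑ s ∈ univ.filter (fun s =>
      τ s = j ∧ ¬ Cheap ex ey d M s ∧ d x (ex s) ≤ r), M.p s ≤ c)
    (hT : ∀ S : Finset (Fin T), (∀ s ∈ S, M.p s ≤ 1 / 2) →
      Pb ex ey M lab (fun ω => ∀ s ∈ S, ω.1 s = true) ≤ ∏ s ∈ S, 6 * M.p s) (k : ℕ) :
    ∀ (t j : ℕ) (x : Λ) (S : Finset (Fin T)), j ≤ ns → (∀ s : Fin T, t ≤ s.val → j ≤ τ s) →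
      (∀ s ∈ S, s.val < t ∧ M.p s ≤ 1 / 2) →
      Pb ex ey M lab (fun ω => (∀ s ∈ S, ω.1 s = true) ∧ Ch ex ey d M r ω.1 k t x) ≤
        (∏ s ∈ S, 6 * M.p s) * Real.exp (40 * c * (ns - j) - k) := by
  induction k with
  | zero =>
    intro t j x S hj _ hS
    have h0 : 0 ≤ c := (sum_nonneg fun s _ => hp s).trans (hs x 0)
    have hP : 0 ≤ ∏ s ∈ S, 6 * M.p s := prod_nonneg fun s _ => by linarith [hp s]
    refine ((Pb_mono hw hZ fun ω h => h.1).trans (hT S fun s h => (hS s h).2)).trans ?_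
    refine le_mul_of_one_le_right hP (Real.one_le_exp ?_)
    have : (j : ℝ) ≤ ns := by exact_mod_cast hj
    simp only [Nat.cast_zero, sub_zero]
    exact mul_nonneg (by linarith) (by linarith)
  | succ k ih =>
    intro t j x S hj ht hS
    have h0 : 0 ≤ c := (sum_nonneg fun s _ => hp s).trans (hs x 0)
    have hP : 0 ≤ ∏ s ∈ S, 6 * M.p s := prod_nonneg fun s _ => by linarith [hp s]
    set I : Finset (Fin T) := univ.filter fun s => t ≤ s.val ∧ ¬ Cheap ex ey d M s ∧ d x (ex s) ≤ r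
      with hI
    set φ : ℕ → ℝ := fun i => Real.exp (40 * c * (ns - i) - k) with hφ
    have a1 := Pb_le_sum hw hZ I
      (E := fun ω => (∀ s ∈ S, ω.1 s = true) ∧ Ch ex ey d M r ω.1 (k + 1) t x)
      (E' := fun s ω => (∀ s' ∈ insert s S, ω.1 s' = true) ∧ Ch ex ey d M r ω.1 k (s.val + 1) (ex s))
      (by
        rintro ω ⟨a, s, b1, b2, b3, b4, b5⟩
        refine ⟨s, by simp only [hI, mem_filter, mem_univ, true_and]; exact ⟨b1, b2, b3⟩, ?_, b5⟩
        intro s' hs'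
        rcases mem_insert.1 hs' with rfl | h
        · exact b4
        · exact a s' h)
    refine a1.trans ?_
    have a2 : ∀ s ∈ I, Pb ex ey M lab (fun ω => (∀ s' ∈ insert s S, ω.1 s' = true) ∧
        Ch ex ey d M r ω.1 k (s.val + 1) (ex s)) ≤
        (∏ s ∈ S, 6 * M.p s) * (6 * M.p s * φ (τ s)) := by
      intro s hs
      simp only [hI, mem_filter, mem_univ, true_and] at hs
      have hn : s ∉ S := fun h => by have := (hS s h).1; omega
      refine (ih (s.val + 1) (τ s) (ex s) (insert s S) (hτ s).le (fun s' h => hm ?_) ?_).trans ?_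
      · exact Fin.le_def.2 (by omega)
      · intro s' hs'
        rcases mem_insert.1 hs' with rfl | h
        · exact ⟨by omega, h1 _ hs.2.1⟩
        · exact ⟨by have := (hS s' h).1; omega, (hS s' h).2⟩
      · rw [prod_insert hn]; exact le_of_eq (by simp only [hφ]; ring)
    refine (sum_le_sum a2).trans ?_
    rw [← mul_sum]
    refine mul_le_mul_of_nonneg_left ?_ hP
    have a3 : ∀ s ∈ I, τ s ∈ Ico j ns := fun s hs => by
      simp only [hI, mem_filter, mem_univ, true_and] at hs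
      exact mem_Ico.2 ⟨ht s hs.1, hτ s⟩
    rw [← sum_fiberwise_of_maps_to a3]
    have a4 : ∀ i ∈ Ico j ns, ∑ s ∈ I with τ s = i, 6 * M.p s * φ (τ s) ≤
        Real.exp (-1) * (φ i - φ (i + 1)) := by
      intro i _
      have b1 : ∑ s ∈ I with τ s = i, 6 * M.p s * φ (τ s) = 6 * (∑ s ∈ I with τ s = i, M.p s) * φ i := by
        rw [mul_sum, sum_mul]
        exact sum_congr rfl fun s hs => by rw [(mem_filter.1 hs).2]
      have b2 : ∑ s ∈ I with τ s = i, M.p s ≤ c := by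
        refine le_trans (sum_le_sum_of_subset_of_nonneg (fun s hs => ?_) fun s _ _ => hp s) (hs x i)
        simp only [hI, mem_filter, mem_univ, true_and] at hs ⊢
        exact ⟨hs.2, hs.1.2.1, hs.1.2.2⟩
      have b3 : φ (i + 1) = Real.exp (40 * c * (ns - i) - k - 40 * c) := by
        simp only [hφ]; push_cast; ring_nf
      rw [b1, b3]
      refine le_trans ?_ (step_le h0 hc _)
      have : 0 < φ i := Real.exp_pos _
      exact mul_le_mul_of_nonneg_right (by linarith) this.le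
    refine (sum_le_sum a4).trans ?_
    rw [← mul_sum, tele φ j ns hj]
    have : 0 < φ ns := Real.exp_pos _
    have e : Real.exp (40 * c * (ns - j) - ((k + 1 : ℕ) : ℝ)) = Real.exp (-1) * φ j := by
      simp only [hφ]; rw [← Real.exp_add]; push_cast; ring_nf
    rw [e]
    exact mul_le_mul_of_nonneg_left (by linarith) (Real.exp_pos _).le

end Fast

end

theorem fast_of (hB : BasStmt) (hT : TogStmt) : FastStmt := by
  intro Λ _ _ T _ ex ey d M y K W v f hd hM hy hR hS κ _ _ lab hl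
  obtain ⟨hZ, -, -, -, hw⟩ := hB Λ T ex ey M y hM
  have hw := (hw κ lab hl).1
  have hZ : 0 ≤ Z ex ey M := by linarith
  obtain ⟨h1, ns, τ, c, hm, hτ, hc, hcK, hs⟩ := hR
  have a1 := Pb_le_sum hw hZ (univ : Finset Λ)
    (E := fun ω => ¬ Slow ex ey d (Act ex ey d ω.1) W ((f + 1) * (v + 1)))
    (E' := fun x ω => (∀ s ∈ (∅ : Finset (Fin T)), ω.1 s = true) ∧
      Fast.Ch ex ey d M (v + 2) ω.1 f 0 x)
    (by
      intro ω h
      unfold Slow at h
      push Not at h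
      obtain ⟨s, t, γ, a, b, e, g⟩ := h
      refine ⟨γ s, mem_univ _, by simp, ?_⟩
      refine (Fast.ch_of_path hd hS ω.1 γ t b f s (γ s) a (by rw [hd.1]; omega) e ?_).anti
        (Nat.zero_le _)
      have : (f + 1) * (v + 1) = f * (v + 1) + (v + 1) := by ring
      omega)
  refine a1.trans ?_
  have a2 := fun x => Fast.pb_ch hw hZ (fun s => (hM.1 s).1) h1 hm hτ hc hs
    (hT Λ T ex ey M y hM hy κ lab hl).1 f 0 0 x ∅ (Nat.zero_le _) (fun _ _ => Nat.zero_le _)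
    (by simp)
  refine (sum_le_sum fun x _ => a2 x).trans ?_
  simp only [prod_empty, one_mul, sum_const, card_univ, nsmul_eq_mul, Nat.cast_zero, sub_zero]
  refine mul_le_mul_of_nonneg_left (Real.exp_le_exp.2 (by linarith)) (Nat.cast_nonneg _)

end Crest.Agent.N337.A
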