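import Crest.Agent.N337.A.Defs

/-!
# Row 337, block (a): slow paths, diameter of short loops, elementary facts on `res` and `child`
-/

set_option autoImplicit false
set_option linter.unusedSectionVars false

namespace Crest.Agent.N337.A

open Finset Equiv Crest.Agent.N337.Rep Crest.Agent.N337.LY0

variable {Λ : Type} [Fintype Λ] [DecidableEq Λ] {T : ℕ} [NeZero T] {ex ey : Fin T → Λ}
  {κ : Type} [Fintype κ] [DecidableEq κ] {d : Λ → Λ → ℕ}

lemma Slow.mono' {Al Al' : Fin T → Prop} {W W' : Fin T × Λ → Prop} {v v' : ℕ}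
    (h : Slow ex ey d Al W v) (hv : v ≤ v') (hW : ∀ u, W' u → W u)
    (hA : ∀ s x, W' (s, x) → (x = ex s ∨ x = ey s) → Al' s → Al s) : Slow ex ey d Al' W' v' := by
  intro s t γ hst hT hp
  refine (h s t γ hst hT fun r h1 h2 => ?_).trans hv
  obtain ⟨h3, h4⟩ := hp r h1 h2
  refine ⟨hW _ h3, ?_⟩
  rcases h4 with h4 | ⟨h4, h5⟩
  · exact Or.inl h4
  · by_cases hx : γ r.val = ex r ∨ γ r.val = ey r
    · exact Or.inr ⟨hA r _ h3 hx h4, h5⟩
    · push Not at hx
      exact Or.inl (by rw [h5, swap_apply_of_ne_of_ne hx.1 hx.2])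

lemma Sg_pow_fst (ξ : Fin T → Bool) (k : ℕ) (v : Fin T × Λ) :
    ((Sg ex ey ξ ^ k) v).1 = v.1 + k • (1 : Fin T) := by
  induction k with
  | zero => simp
  | succ k ih => rw [pow_succ', Perm.mul_apply, succ_nsmul, ← add_assoc, ← ih]; rfl

lemma nsmul_one_val (n : ℕ) : (n • (1 : Fin T)).val = n % T := by
  induction n with
  | zero => simp
  | succ n ih => rw [succ_nsmul, Fin.val_add, ih, Fin.val_one', ← Nat.add_mod]

lemma Sg_pow_val (ξ : Fin T → Bool) (k : ℕ) (v : Fin T × Λ) :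
    ((Sg ex ey ξ ^ k) v).1.val = (v.1.val + k) % T := by
  rw [Sg_pow_fst, Fin.val_add, nsmul_one_val, Nat.add_mod_mod]

/-- a piece of a strand inside one period. -/
lemma seg_le {Al : Fin T → Prop} {W : Fin T × Λ → Prop} {v : ℕ} (hS : Slow ex ey d Al W v)
    (ξ : Fin T → Bool) (a : Fin T × Λ)
    (hA : ∀ k, ((Sg ex ey ξ ^ (k + 1)) a).2 = ((Sg ex ey ξ ^ k) a).2 ∨
      (Al ((Sg ex ey ξ ^ k) a).1 ∧ ((Sg ex ey ξ ^ (k + 1)) a).2 =
        swap (ex ((Sg ex ey ξ ^ k) a).1) (ey ((Sg ex ey ξ ^ k) a).1) ((Sg ex ey ξ ^ k) a).2))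
    (hW : ∀ k, d a.2 ((Sg ex ey ξ ^ k) a).2 ≤ v → W ((Sg ex ey ξ ^ k) a)) (i : ℕ)
    (hi : a.1.val + i ≤ T) : d a.2 ((Sg ex ey ξ ^ i) a).2 ≤ v := by
  induction i using Nat.strong_induction_on with
  | _ i ih =>
    have h := hS a.1.val (a.1.val + i) (fun r => ((Sg ex ey ξ ^ (r - a.1.val)) a).2)
      (Nat.le_add_right _ _) hi fun r h1 h2 => ?_
    · simpa using h
    · have e : ((Sg ex ey ξ ^ (r.val - a.1.val)) a).1 = r := by
        apply Fin.ext
        rw [Sg_pow_val, Nat.add_sub_cancel' h1, Nat.mod_eq_of_lt r.2]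
      have h3 := hW _ (ih (r.val - a.1.val) (by omega) (by omega))
      have h4 := hA (r.val - a.1.val)
      rw [e] at h4
      refine ⟨?_, ?_⟩
      · have e2 : (r, ((Sg ex ey ξ ^ (r.val - a.1.val)) a).2) =
            (Sg ex ey ξ ^ (r.val - a.1.val)) a := Prod.ext e.symm rfl
        rw [e2]; exact h3
      · have e3 : r.val + 1 - a.1.val = r.val - a.1.val + 1 := by omega
        simpa only [e3] using h4

/-- short loops with slow strands have small diameter. -/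
lemma loop_near {Al : Fin T → Prop} {W : Fin T × Λ → Prop} {v m : ℕ} (hd : Met ex ey d)
    (hS : Slow ex ey d Al W v) (ξ : Fin T → Bool) (u : Fin T × Λ) (hm : wind ex ey ξ u ≤ m)
    (hA : ∀ w, o (Sg ex ey ξ) w = o (Sg ex ey ξ) u → ξ w.1 = true →
      (w.2 = ex w.1 ∨ w.2 = ey w.1) → Al w.1)
    (hW : ∀ w, o (Sg ex ey ξ) w = o (Sg ex ey ξ) u → d u.2 w.2 ≤ (m + 1) * v → W w)
    (w : Fin T × Λ) (hw : o (Sg ex ey ξ) w = o (Sg ex ey ξ) u) : d u.2 w.2 ≤ (m + 1) * v := by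
  set π := Sg ex ey ξ with hπ
  have hT : 0 < T := Nat.pos_of_ne_zero (NeZero.ne T)
  have seg : ∀ (a : Fin T × Λ) (j : ℕ), o π a = o π u → j ≤ m → d u.2 a.2 ≤ j * v → ∀ i,
      a.1.val + i ≤ T → d u.2 ((π ^ i) a).2 ≤ (j + 1) * v := by
    intro a j ha hj hja i hi
    have h1 : ∀ k, d a.2 ((π ^ k) a).2 ≤ v → d u.2 ((π ^ k) a).2 ≤ (j + 1) * v := fun k hk =>
      (hd.2.2.1 _ _ _).trans (by rw [add_mul, one_mul]; exact Nat.add_le_add hja hk)
    refine h1 i (seg_le hS ξ a (fun k => ?_) (fun k hk => ?_) i hi)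
    · set c := (π ^ k) a with hc
      have e : ((π ^ (k + 1)) a).2 = sg (ex c.1) (ey c.1) (ξ c.1) c.2 := by
        rw [pow_succ', Perm.mul_apply, ← hc]; rfl
      rw [e]
      by_cases h2 : ξ c.1 = true
      · by_cases h3 : c.2 = ex c.1 ∨ c.2 = ey c.1
        · exact Or.inr ⟨hA c (by rw [hc, o_pow, ha]) h2 h3, by simp [sg, h2]⟩
        · push Not at h3
          exact Or.inl (by simp [sg, h2, swap_apply_of_ne_of_ne h3.1 h3.2])
      · exact Or.inl (by simp [sg, h2])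
    · exact hW _ (by rw [o_pow, ha]) ((h1 k hk).trans (Nat.mul_le_mul_right _ (by omega)))
  set z := (π ^ (T - u.1.val)) u with hz
  have hz0 : ∀ q, (((π ^ T) ^ q) z).1 = 0 := fun q => by
    apply Fin.ext
    rw [← pow_mul, hz, ← Perm.mul_apply, ← pow_add, Sg_pow_val]
    have : u.1.val + (T * q + (T - u.1.val)) = T * (q + 1) := by
      have := u.1.2; rw [mul_add, mul_one]; omega
    rw [this]; simp
  have hzo : ∀ q, o π (((π ^ T) ^ q) z) = o π u := fun q => by rw [← pow_mul, o_pow, hz, o_pow]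
  have hzd : ∀ q, q < m → d u.2 (((π ^ T) ^ q) z).2 ≤ (q + 1) * v := by
    intro q
    induction q with
    | zero =>
      intro _
      have := seg u 0 rfl (Nat.zero_le _) (by rw [hd.1]; exact Nat.zero_le _) (T - u.1.val) (by have := u.1.2; omega)
      simpa using this
    | succ q ih =>
      intro hq
      have := seg _ (q + 1) (hzo q) (by omega) (ih (by omega)) T (by rw [hz0]; simp)
      rwa [← Perm.mul_apply, ← pow_succ'] at this
  have hper : per (π ^ T) z ≤ m := by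
    refine le_trans ?_ hm
    unfold wind
    rw [← card_range (per (π ^ T) z)]
    refine card_le_card_of_injOn (fun q => (((π ^ T) ^ q) z).2) (fun q _ => ?_) fun q hq q' hq' h => ?_
    · simp only [coe_filter, mem_univ, true_and, Set.mem_ofPred_eq]
      rw [← hzo q, ← hz0 q]
    · refine it_inj (π := π ^ T) (x := z) (by simpa using hq) (by simpa using hq') ?_
      rw [← Perm.coe_pow, ← Perm.coe_pow]
      exact Prod.ext (by rw [hz0, hz0]) h
  obtain ⟨k, -, hk⟩ := (o_eq.1 ((hzo 0).trans hw.symm)).exists_pow_eq'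
  simp only [pow_zero, Perm.coe_one, id] at hk
  have hq : ((π ^ T) ^ (k / T)) z = ((π ^ T) ^ (k / T % per (π ^ T) z)) z := by
    rw [Perm.coe_pow, Perm.coe_pow (π ^ T), per, Function.iterate_mod_minimalPeriod_eq]
  have hlt : k / T % per (π ^ T) z < m := (Nat.mod_lt _ (per_pos _ _)).trans_le hper
  have h5 := seg _ _ (hzo (k / T % per (π ^ T) z)) hlt (hzd _ hlt) (k % T)
    (by rw [hz0]; simpa using (Nat.mod_lt _ hT).le)
  rw [← hq, ← pow_mul, ← Perm.mul_apply, ← pow_add, Nat.mod_add_div, hk] at h5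
  exact h5.trans (Nat.mul_le_mul_right _ (by omega))

lemma mem_nbd {r : ℕ} {A : Finset Λ} {x : Λ} : x ∈ nbd d r A ↔ ∃ a ∈ A, d x a ≤ r := by
  simp [nbd]

lemma mem_cyl {A : Finset Λ} {v : Fin T × Λ} : v ∈ cyl A ↔ v.2 ∈ A := by simp [cyl]

lemma Met.ends (hd : Met ex ey d) {s : Fin T} {x y : Λ} (hx : x = ex s ∨ x = ey s)
    (hy : y = ex s ∨ y = ey s) : d x y ≤ 1 := by
  rcases hx with rfl | rfl <;> rcases hy with rfl | rfl
  · rw [hd.1]; omega
  · exact hd.2.2.2 s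
  · rw [hd.2.1]; exact hd.2.2.2 s
  · rw [hd.1]; omega

lemma Cl.pow {α : Type} {ξ : Fin T → Bool} {n : Fin T × Λ → α} (h : Cl ex ey ξ n) (k : ℕ)
    (v : Fin T × Λ) : n ((Sg ex ey ξ ^ k) v) = n v := by
  induction k with
  | zero => rfl
  | succ k ih => rw [pow_succ', Perm.mul_apply, h, ih]

lemma Cl.eq {α : Type} {ξ : Fin T → Bool} {n : Fin T × Λ → α} (h : Cl ex ey ξ n)
    {v w : Fin T × Λ} (e : o (Sg ex ey ξ) v = o (Sg ex ey ξ) w) : n v = n w := by
  obtain ⟨k, -, hk⟩ := (o_eq.1 e).exists_pow_eq'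
  rw [← hk, h.pow]

variable {M : Mdl T Λ} {lab : Finset (Fin T × Λ) → κ → ℝ} {ω : St T Λ κ}

lemma wt_cl (h : wt ex ey M lab ω ≠ 0) : Cl ex ey ω.1 ω.2 := by
  by_contra hc; exact h (by rw [wt, if_neg hc])

lemma wt_b (h : wt ex ey M lab ω ≠ 0) {v : Fin T × Λ} (hv : ω.2 v ≠ none) : M.b v ≠ 0 := by
  intro hb
  apply h
  rw [wt, if_pos (wt_cl h), dw, prod_eq_zero (mem_univ v) (by rw [if_neg hv, hb]), zero_mul,
    mul_zero]

lemma wt_p1 (h : wt ex ey M lab ω ≠ 0) {s : Fin T} (hs : M.p s = 1) : ω.1 s = true := by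
  by_contra hb
  apply h
  rw [wt, if_pos (wt_cl h), Pw, prod_eq_zero (mem_univ s) (by rw [wb, if_neg hb, hs, sub_self]),
    zero_mul]

lemma wt_p0 (h : wt ex ey M lab ω ≠ 0) {s : Fin T} (hs : M.p s = 0) : ω.1 s = false := by
  by_contra hb
  apply h
  rw [wt, if_pos (wt_cl h), Pw,
    prod_eq_zero (mem_univ s) (by rw [wb, if_pos (by simpa using hb), hs]), zero_mul]

lemma Mdl.Ok.child {y : ℝ} (h : M.Ok y) (U : Finset (Fin T × Λ)) (η : St T Λ κ) :
    (child ex ey M U η).Ok y := by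
  refine ⟨fun s => ?_, fun v => ?_, fun x => ?_⟩
  · simp only [A.child]; split_ifs
    exacts [⟨zero_le_one, le_rfl⟩, ⟨le_rfl, zero_le_one⟩, h.1 s]
  · simp only [A.child]; split_ifs
    exacts [⟨le_rfl, zero_le_one⟩, h.2.1 v]
  · simp only [A.child]; split_ifs
    exacts [(h.2.1 (0, x)).1.trans (h.2.2 x), h.2.2 x]

lemma Mdl.Ok.mono {y y' : ℝ} (h : M.Ok y) (hy : y ≤ y') : M.Ok y' :=
  ⟨h.1, h.2.1, fun x => (h.2.2 x).trans hy⟩

lemma Rate.of_le {M' : Mdl T Λ} {r r' : ℕ} {K : ℝ} (h : Rate ex ey d M r K) (hr : r' ≤ r)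
    (h0 : ∀ s, 0 ≤ M.p s) (hp : ∀ s, M'.p s = M.p s ∨ M'.p s = 0 ∨ M'.p s = 1) :
    Rate ex ey d M' r' K := by
  classical
  obtain ⟨h1, ns, τ, c, h2, h3, h4, h5, h6⟩ := h
  refine ⟨fun s hs => ?_, ns, τ, c, h2, h3, h4, h5, fun x j => le_trans ?_ (h6 x j)⟩
  · rcases hp s with e | e | e
    · rw [e]; exact h1 s fun hc => hs (by unfold Cheap at hc ⊢; rwa [e])
    · rw [e]; norm_num
    · exact absurd (Or.inl e) hs
  · rw [sum_filter, sum_filter]
    refine sum_le_sum fun s _ => ?_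
    have h7 : (0 : ℝ) ≤ if τ s = j ∧ ¬ Cheap ex ey d M s ∧ d x (ex s) ≤ r then M.p s else 0 := by
      split_ifs; exacts [h0 s, le_rfl]
    split_ifs with h8 h9 h9
    · rcases hp s with e | e | e
      · rw [e]
      · rw [e]; exact h0 s
      · exact absurd (Or.inl e) h8.2.1
    · rcases hp s with e | e | e
      · exact absurd ⟨h8.1, fun hc => h8.2.1 (by unfold Cheap at hc ⊢; rwa [e]),
          h8.2.2.trans hr⟩ h9
      · rw [e]
      · exact absurd (Or.inl e) h8.2.1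
    · exact h0 s
    · exact le_rfl

lemma child_p (U : Finset (Fin T × Λ)) (η : St T Λ κ) (s : Fin T) :
    (child ex ey M U η).p s = M.p s ∨ (child ex ey M U η).p s = 0 ∨
      (child ex ey M U η).p s = 1 := by
  simp only [child]; split_ifs <;> simp

lemma child_b {U : Finset (Fin T × Λ)} {η : St T Λ κ} {v : Fin T × Λ}
    (h : (child ex ey M U η).b v ≠ 0) : v ∉ U ∧ η.2 v = none ∧ M.b v ≠ 0 := by
  simp only [child] at h
  split_ifs at h with h1
  · exact absurd rfl h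
  · push Not at h1; exact ⟨h1.1, h1.2, h⟩

lemma res_snd {U : Finset (Fin T × Λ)} {v : Fin T × Λ} (h : (res ex ey U ω).2 v ≠ none) :
    (res ex ey U ω).2 v = ω.2 v ∧ ∃ u ∈ U, o (Sg ex ey ω.1) u = o (Sg ex ey ω.1) v := by
  simp only [res, rn] at h ⊢
  split_ifs at h ⊢ with h1
  · exact ⟨rfl, h1⟩
  · exact absurd rfl h

lemma res_snd_of {U : Finset (Fin T × Λ)} {u v : Fin T × Λ} (hu : u ∈ U)
    (h : o (Sg ex ey ω.1) u = o (Sg ex ey ω.1) v) : (res ex ey U ω).2 v = ω.2 v := by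
  simp only [res, rn]; rw [if_pos ⟨u, hu, h⟩]

lemma res_fst {U : Finset (Fin T × Λ)} {s : Fin T} (h : Tch ex ey (res ex ey U ω).2 s) :
    (res ex ey U ω).1 s = ω.1 s := by
  simp only [res] at h ⊢; rw [if_pos h]

lemma res_fst' {U : Finset (Fin T × Λ)} {s : Fin T} (h : ¬ Tch ex ey (res ex ey U ω).2 s) :
    (res ex ey U ω).1 s = false := by
  simp only [res] at h ⊢; rw [if_neg h]

end Crest.Agent.N337.A
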