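import Crest.Agent.N337.A.Stage
import Crest.Agent.N337.Top.Short
import Crest.Agent.N337.Free.Tor
import Crest.Agent.N337.Rg.Defs

/-!
# Row 337, block (a): the word of the torus (metric, rates, coordinates); slow pins from the rung
-/

set_option autoImplicit false
set_option linter.unusedSectionVars false

namespace Crest.Agent.N337.A

open Finset Equiv Crest.Agent.N337.Top Crest.Agent.N337.Top.Sh Crest.Agent.N337.Free

section word
variable {L n : ℕ} [NeZero L] [NeZero n] {β : ℝ} {w : ℕ} {sy : List (Sl L n × Sl L n × ℝ)}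

/-- distance of the sites of two slots. -/
def dS (x y : Sl L n) : ℕ := tdist x.1 y.1

lemma tdist_single (z : Tor 3 L) (a : Fin 3) : tdist z (z + Pi.single a 1) ≤ 1 := by
  refine tdist_le_iff.2 fun b => ?_
  rw [Pi.add_apply, add_sub_cancel_left, ZMod.valMinAbs_natAbs_eq_min]
  refine (min_le_left _ _).trans ?_
  by_cases h : b = a
  · rw [h, Pi.single_eq_same, ← Nat.cast_one, ZMod.val_natCast]; exact Nat.mod_le _ _
  · rw [Pi.single_eq_of_ne h, ZMod.val_zero]; omega

theorem met_word (hs : Sym sy) : Met (ex β w sy) (ey β w sy) dS := by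
  refine ⟨fun _ => tdist_self _, fun _ _ => tdist_comm _ _, fun _ _ _ => tdist_triangle _ _ _,
    fun s => ?_⟩
  rcases stp_cases (β := β) (w := w) hs s with ⟨-, q, h⟩ | ⟨-, h⟩
  · rw [dS, ex, ey, h]; exact tdist_single _ _
  · rw [dS, ex, ey, hs.site _ h, tdist_self]; omega

/-- rate bound of the word. -/
noncomputable def Kw (n : ℕ) (β : ℝ) (r : ℕ) : ℕ := 2 * n ^ 2 * (⌊β⌋₊ + 1) * (2 * r + 1) ^ 3

theorem rate_word (hβ : 0 ≤ β) (hs : Sym sy) (b : Fin (TT β w sy) × Sl L n → ℝ) {r : ℕ}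
    (hw : 60 * n ^ 2 * (2 * r + 1) ^ 3 ≤ w + 1) :
    Rate (ex β w sy) (ey β w sy) dS ⟨pp β w sy, b⟩ r (Kw n β r) := by
  classical
  have hM := MM_pos β w
  have hE : 0 < (lay sy).length := NeZero.pos _
  have hb := (Nat.lt_floor_add_one β).le
  have hX : (0 : ℝ) ≤ 3 * n ^ 2 * (2 * r + 1) ^ 3 := by positivity
  refine ⟨fun s _ => (Sh.pp_mem hβ hs s).2, MM β w, fun s => s / (lay sy).length,
    β / (2 * MM β w) * (3 * n ^ 2 * (2 * r + 1) ^ 3), fun s t h => Nat.div_le_div_right h,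
    fun s => (Nat.div_lt_iff_lt_mul hE).2 s.2, ?_, ?_, fun x j => ?_⟩
  · have h1 : (60 * n ^ 2 * (2 * r + 1) ^ 3 : ℝ) ≤ w + 1 := by exact_mod_cast hw
    have h2 : (MM β w : ℝ) = (⌊β⌋₊ + 1) * (w + 1) := by simp [MM]
    rw [div_mul_eq_mul_div, ← mul_div_assoc, div_le_one (by positivity), h2]
    nlinarith [mul_le_mul hb h1 (by positivity) (by positivity)]
  · rw [show β / (2 * MM β w) * (3 * n ^ 2 * (2 * r + 1) ^ 3) * MM β w =
      β / 2 * (3 * n ^ 2 * (2 * r + 1) ^ 3) by field_simp, Kw]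
    push_cast
    nlinarith [mul_le_mul_of_nonneg_right hb hX]
  · set I := univ.filter fun s : Fin (TT β w sy) => s / (lay sy).length = j ∧
      ¬ Cheap (ex β w sy) (ey β w sy) dS ⟨pp β w sy, b⟩ s ∧ dS x (ex β w sy s) ≤ r with hI
    have h1 : ∀ s ∈ I, s % (lay sy).length < (bl L n).length := fun s h => by
      rcases stp_cases (β := β) (w := w) hs s with ⟨h2, -⟩ | ⟨-, h2⟩
      · exact h2
      · exact absurd (Or.inr (by rw [dS, ex, ey, hs.site _ h2, tdist_self])) (mem_filter.1 h).2.2.1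
    have hl : (bl L n).length = (univ : Finset (Bd L n)).toList.length := List.length_map _
    let f : Fin (TT β w sy) → Bd L n := fun s => if h : s % (lay sy).length < (bl L n).length then
      (univ : Finset (Bd L n)).toList[s % (lay sy).length]'(hl ▸ h) else default
    have h2 : I.card ≤ ((univ.filter fun z => tdist x.1 z ≤ r) ×ˢ
        (univ : Finset (Fin 3 × Fin n × Fin n))).card := by
      refine card_le_card_of_injOn f (fun s h => ?_) fun s h t h' e => ?_
      · have h3 : stp β w sy s = ends (f s) := by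
          have hlt : s % (lay sy).length < (bl L n ++ sy).length := Nat.mod_lt _ hE
          have e : stp β w sy s = (bl L n ++ sy)[s % (lay sy).length] := rfl
          rw [e, List.getElem_append_left (h1 s h)]
          simp only [f, dif_pos (h1 s h)]
          simp only [bl, List.getElem_map]
        have h4 := (mem_filter.1 h).2.2.2
        rw [dS, ex, h3] at h4
        simpa [ends] using h4
      · simp only [f, dif_pos (h1 s h), dif_pos (h1 t h')] at e
        rw [(nodup_toList _).getElem_inj_iff] at e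
        have e' := (mem_filter.1 h).2.1.trans (mem_filter.1 h').2.1.symm
        exact Fin.ext (by rw [← Nat.div_add_mod s (lay sy).length, e, e', Nat.div_add_mod])
    rw [card_product, card_univ] at h2
    have h3 : (I.card : ℝ) ≤ 3 * n ^ 2 * (2 * r + 1) ^ 3 := by
      have := h2.trans (Nat.mul_le_mul_right _ (card_ball_le x.1 r))
      simp only [Fintype.card_prod, Fintype.card_fin] at this
      exact (Nat.cast_le.2 this).trans (le_of_eq (by push_cast; ring))
    rw [sum_congr rfl fun s h => show pp β w sy s = β / (2 * MM β w) from if_pos (h1 s h), sum_const,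
      nsmul_eq_mul, mul_comm]
    exact mul_le_mul_of_nonneg_left h3 (by positivity)

/-- coordinates seen from the corner `z`. -/
def coz (z : Tor 3 L) (x : Sl L n) (a : Fin 3) : ℕ := (x.1 a - z a).val

lemma sub_eq_cast {u v : ZMod L} (h : v.val ≤ u.val) : u - v = ((u.val - v.val : ℕ) : ZMod L) := by
  rw [Nat.cast_sub h, ZMod.natCast_zmod_val, ZMod.natCast_zmod_val]

lemma coz_lip {z : Tor 3 L} {l : ℕ} (hl : 2 * l ≤ L) {x : Sl L n} (hx : x.1 ∈ cube z l) (y : Sl L n)
    (a : Fin 3) : coz z x a ≤ coz z y a + dS x y := by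
  rcases le_total (coz z x a) (coz z y a) with h | h
  · omega
  · have h1 := le_tdist y.1 x.1 a
    have h2 : coz z x a < l := hx a
    rw [show x.1 a - y.1 a = (x.1 a - z a) - (y.1 a - z a) by ring, sub_eq_cast h,
      ZMod.valMinAbs_natCast_of_le_half (by unfold coz at h2; omega), Int.natAbs_natCast,
      tdist_comm] at h1
    unfold coz dS at *
    omega

lemma dS_le {z : Tor 3 L} {x y : Sl L n} {r : ℕ} (h : ∀ a, coz z x a ≤ coz z y a + r)
    (h' : ∀ a, coz z y a ≤ coz z x a + r) : dS x y ≤ r := by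
  refine tdist_le_iff.2 fun a => ?_
  have key : ∀ u v : ZMod L, v.val ≤ u.val → u.val ≤ v.val + r → (u - v).valMinAbs.natAbs ≤ r :=
    fun u v h1 h2 => by
      rw [ZMod.valMinAbs_natAbs_eq_min, sub_eq_cast h1, ZMod.val_natCast]
      exact (min_le_left _ _).trans ((Nat.mod_le _ _).trans (by omega))
  rw [show y.1 a - x.1 a = (y.1 a - z a) - (x.1 a - z a) by ring]
  rcases le_total (coz z x a) (coz z y a) with h1 | h1
  · exact key _ _ h1 (h' a)
  · rw [← ZMod.natAbs_valMinAbs_neg, neg_sub]; exact key _ _ h1 (h a)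

lemma Kw_le {Y : ℕ} (h : 2 * n ^ 2 * (⌊β⌋₊ + 1) ≤ Y) (r : ℕ) : Kw n β r ≤ Y * (2 * r + 1) ^ 3 :=
  Nat.mul_le_mul_right _ h

open Classical in
/-- the slots of a cube. -/
noncomputable def cubeS (n : ℕ) (z : Tor 3 L) (l : ℕ) : Finset (Sl L n) :=
  univ.filter fun x => x.1 ∈ cube z l

lemma mem_cubeS {z : Tor 3 L} {l : ℕ} {x : Sl L n} : x ∈ cubeS n z l ↔ x.1 ∈ cube z l := by
  simp [cubeS]

/-- the static hypotheses of the box stage for every pinned model of the word. -/
theorem boxHyp_word (hβ : 0 ≤ β) (hs : Sym sy) {M : Mdl (TT β w sy) (Sl L n)} {S : Finset (Sl L n)}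
    {N Tn lg v : ℕ} {Tf δ : ℝ} (ho : M.Ok (Real.exp (-1 / Tf)))
    (hp : ∀ s, M.p s = pp β w sy s ∨ M.p s = 0 ∨ M.p s = 1) (hb : ∀ u, M.b u ≠ 0 → u.2 ∈ S)
    (hN : S.card ≤ N) (hN1 : 1 ≤ N) (hT : 1 ≤ Tf) (hTn : Tf ≤ Tn) (hδ : 0 < δ) (hδ1 : δ ≤ 1 / 8)
    (hl : 6400 * N ^ 2 * Tf ≤ δ * Real.exp lg)
    (hw : 60 * n ^ 2 * (2 * (vt (Kw n β) lg v 4 + 2) + 1) ^ 3 ≤ w + 1) :
    BoxHyp (ex β w sy) (ey β w sy) dS M S (Kw n β) N Tn lg v Tf δ :=
  ⟨met_word hs, ho, hb, hN, hN1, hT, hTn, hδ, hδ1, hl, fun r hr =>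
    (rate_word hβ hs M.b (le_trans (by gcongr) hw)).of_le le_rfl (fun s => (Sh.pp_mem hβ hs s).1) hp⟩

section
variable {z : Tor 3 L} {l q wd : ℕ} {S : Finset (Sl L n)} (hl : 2 * l ≤ L)
  (hS : ∀ x ∈ S, x.1 ∈ cube z l)
include hl hS

lemma cor_cover {R : ℕ} (hq : wd + 2 * R ≤ q) :
    ∀ x ∈ S, ∃ i, x ∉ nbd dS R (Cor S (coz z) q wd i) := fun _ hx =>
  Cor_cover (fun _ _ => tdist_comm _ _) (fun x hx y _ => coz_lip hl (hS x hx) y) hq hx

lemma blk_apart (hs : Sym sy) (hw : 1 ≤ wd) (i : Fin 4) :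
    Gas.Apart (ex β w sy) (ey β w sy) (Blk S (coz z) q wd i) :=
  Blk_apart (met_word hs) (fun x hx y _ => coz_lip hl (hS x hx) y) hw

end

lemma blk_diam {z : Tor 3 L} {q wd : ℕ} {S : Finset (Sl L n)} {i : Fin 4} {j : Fin 3 → ℕ}
    {x y : Sl L n} (hq : 0 < q) (hx : x ∈ Blk S (coz z) q wd i j) (hy : y ∈ Blk S (coz z) q wd i j) :
    dS x y ≤ 4 * q := dS_le (Blk_diam hq hx hy) (Blk_diam hq hy hx)

end word

/-! ### slow pins -/

section slow
variable {X α κ : Type} [Fintype X] [SemilatticeSup α] [Preorder κ] {S : Rg.Sys X α κ}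
  {dd : ℕ} {E : α} {Z : κ}

lemma ivt_path {φ : ℕ → ℕ} {s u k : ℕ} (hsu : s ≤ u) (h : ∀ r, s ≤ r → r < u → φ (r + 1) ≤ φ r + 1)
    (h0 : φ s ≤ k) (h1 : k ≤ φ u) : ∃ r, s ≤ r ∧ r ≤ u ∧ φ r = k := by
  induction u, hsu using Nat.le_induction with
  | base => exact ⟨s, le_rfl, le_rfl, le_antisymm h0 h1⟩
  | succ u hu ih =>
    rcases le_or_gt k (φ u) with h2 | h2
    · obtain ⟨r, a, b, c⟩ := ih (fun r a b => h r a (by omega)) h2
      exact ⟨r, a, by omega, c⟩
    · exact ⟨u + 1, by omega, le_rfl, by have := h u hu (by omega); omega⟩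

/-- escape length: total width of the covers of the scales `< m`. -/
def esc (S : Rg.Sys X α κ) (τ m : ℕ) : ℕ := ∑ k ∈ range m, (τ + 1) * S.a * (2 * S.rad k τ + 1)

lemma esc_le {τ : ℕ}
    (hρ : ∀ m, (τ + 1) * S.a * (2 * S.rad m τ + 1) + 3 * τ * S.H m ≤ S.ρ (m + 1)) (m : ℕ) :
    esc S τ m ≤ S.loc m := by
  induction m with
  | zero => exact Nat.zero_le _
  | succ m ih => have := hρ m; simp only [esc, sum_range_succ, Rg.Sys.loc] at ih ⊢; omega

/-- a long lattice path that starts in a good cell meets a good base cell long before its end. -/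
theorem exists_base {τ J : ℕ} (hτ : S.k0 + S.oc + dd ≤ τ)
    (hρ : ∀ m, (τ + 1) * S.a * (2 * S.rad m τ + 1) + 3 * τ * S.H m ≤ S.ρ (m + 1)) {γ : ℕ → X} {u : ℕ}
    (m : ℕ) : ∀ s ≤ u, (∀ r, s ≤ r → r < u → S.d (γ r) (γ (r + 1)) ≤ 1) →
      S.Good dd E Z m τ (γ s) → J + esc S τ m < S.d (γ s) (γ u) →
      ∃ r, s ≤ r ∧ r ≤ u ∧ S.G0 τ E Z (γ r) ∧ J < S.d (γ r) (γ u) := by
  classical
  induction m with
  | zero => exact fun s hs _ h1 h2 => ⟨s, le_rfl, hs, h1, h2⟩
  | succ m ih =>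
    intro s hs hγ h1 h2
    have h3 := hρ m
    have h4 := h1.card_cov
    rw [esc, sum_range_succ, ← esc] at h2
    have h5 : ∀ i : Fin ((τ + 1) * S.a + 1), ∃ r, s ≤ r ∧ r ≤ u ∧
        S.d (γ s) (γ r) = i * (2 * S.rad m τ + 1) := fun i =>
      ivt_path hs (fun r a b => (S.d_tri _ (γ r) _).trans (Nat.add_le_add_left (hγ r a b) _))
        (by rw [S.d_self]; omega) (by nlinarith [Nat.le_of_lt_succ i.2])
    choose r r1 r2 r3 using h5
    have h6 : ∃ i, S.Off (S.cov dd E Z m (γ s)) (S.rad m τ) (γ (r i)) := by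
      by_contra h
      simp only [Rg.Sys.Off, not_exists, not_forall, not_lt] at h
      choose f f1 f2 using h
      have := card_le_card_of_injOn (s := univ) (t := S.cov dd E Z m (γ s)) f (fun i _ => f1 i)
        fun i _ j _ e => by
          have a1 := f2 i
          have a2 := f2 j
          have a3 := S.d_tri (γ s) (γ (r i)) (γ (r j))
          have a4 := S.d_tri (γ s) (γ (r j)) (γ (r i))
          have a5 := S.d_tri (γ (r i)) (f j) (γ (r j))
          have a6 := S.d_comm (γ (r i)) (γ (r j))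
          have a7 := S.d_comm (γ (r i)) (f j)
          rw [e] at a1
          rw [r3, r3] at a3 a4
          refine Fin.ext (le_antisymm ?_ ?_) <;> by_contra h <;> push Not at h <;>
            nlinarith [Nat.mul_le_mul_right (2 * S.rad m τ + 1) (Nat.succ_le_of_lt h)]
      rw [card_univ, Fintype.card_fin] at this
      omega
    obtain ⟨i, hi⟩ := h6
    have h7 : S.d (γ s) (γ (r i)) ≤ (τ + 1) * S.a * (2 * S.rad m τ + 1) :=
      (r3 i).trans_le (Nat.mul_le_mul_right _ (Nat.le_of_lt_succ i.2))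
    have h8 := S.d_tri (γ s) (γ (r i)) (γ u)
    obtain ⟨r', a, b, c⟩ := ih (r i) (r2 i) (fun r' a b => hγ r' ((r1 i).trans a) b)
      ((h1.child (by unfold Rg.Sys.In; omega) hi).up hτ) (by omega)
    exact ⟨r', (r1 i).trans a, b, c⟩

variable {Λ : Type} [Fintype Λ] [DecidableEq Λ] {T : ℕ} [NeZero T] {ex ey : Fin T → Λ}

/-- **slow pins from the rung**: `hJ` is the base leaf (no long allowed path from a good cell). -/
theorem slow_of_good' {τ J m : ℕ} (π : Λ → X) {Al : Fin T → Prop} {W : Fin T × Λ → Prop}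
    (hd : ∀ s, S.d (π (ex s)) (π (ey s)) ≤ 1) (hτ : S.k0 + S.oc + dd ≤ τ)
    (hρ : ∀ m, (τ + 1) * S.a * (2 * S.rad m τ + 1) + 3 * τ * S.H m ≤ S.ρ (m + 1))
    (hJ : ∀ s t γ, s ≤ t → t ≤ T → Path ex ey Al W s t γ → S.G0 τ E Z (π (γ s)) →
      S.d (π (γ s)) (π (γ t)) ≤ J)
    (hG : ∀ u, W u → S.Good dd E Z m τ (π u.2)) :
    Slow ex ey (fun x y => S.d (π x) (π y)) Al W (J + esc S τ m) := by
  intro s t γ hs ht hp
  by_contra h
  beta_reduce at h
  have hst : s < t := hs.lt_of_ne fun e => h (by rw [e, S.d_self]; omega)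
  obtain ⟨r, a, b, c, e⟩ := exists_base (γ := fun r => π (γ r)) (J := J) hτ hρ m s hs
    (fun r a b => by
      rcases (hp ⟨r, b.trans_le ht⟩ a b).2 with e | ⟨-, e⟩
      · rw [show γ (r + 1) = γ r from e, S.d_self]; omega
      · rw [show γ (r + 1) = _ from e]
        refine swap_apply_def (ex _) (ey _) _ ▸ ?_
        split_ifs with h1 h2
        · rw [h1]; exact hd _
        · rw [h2, S.d_comm]; exact hd _
        · rw [S.d_self]; omega)
    (hG _ (hp ⟨s, hst.trans_le ht⟩ le_rfl hst).1) (by omega)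
  exact absurd (hJ r t γ b ht (hp.sub a le_rfl) c) (not_le.2 e)

theorem slow_of_good {τ J m : ℕ} (π : Λ → X) {Al : Fin T → Prop} {W : Fin T × Λ → Prop}
    (hd : ∀ s, S.d (π (ex s)) (π (ey s)) ≤ 1) (hτ : S.k0 + S.oc + dd ≤ τ)
    (hρ : ∀ m, (τ + 1) * S.a * (2 * S.rad m τ + 1) + 3 * τ * S.H m ≤ S.ρ (m + 1))
    (hJ : ∀ s t γ, s ≤ t → t ≤ T → Path ex ey Al W s t γ → S.G0 τ E Z (π (γ s)) →
      S.d (π (γ s)) (π (γ t)) ≤ J)
    (hG : ∀ u, W u → S.Good dd E Z m τ (π u.2)) :
    Slow ex ey (fun x y => S.d (π x) (π y)) Al W (J + S.loc m) :=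
  (slow_of_good' π hd hτ hρ hJ hG).mono' (Nat.add_le_add_left (esc_le hρ m) _) (fun _ h => h)
    fun _ _ _ _ h => h

/-- the base leaf from a count: few allowed long steps move a point of `W` in the ball. -/
theorem path_le_count {d : Λ → Λ → ℕ} (hd : Met ex ey d) {Al : Fin T → Prop}
    {W : Fin T × Λ → Prop} {s t J : ℕ} {γ : ℕ → Λ} (hs : s ≤ t) (ht : t ≤ T)
    (hp : Path ex ey Al W s t γ) {I : Finset (Fin T)} (hI : I.card ≤ J)
    (h : ∀ r x, Al r → d (ex r) (ey r) ≠ 0 → (x = ex r ∨ x = ey r) → W (r, x) → d (γ s) x ≤ J →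
      r ∈ I) : d (γ s) (γ t) ≤ J := by
  have key : ∀ u, s ≤ u → u ≤ t → d (γ s) (γ u) ≤ (I.filter fun r => r.val < u).card := by
    intro u hu
    induction u, hu using Nat.le_induction with
    | base => intro _; rw [hd.1]; omega
    | succ u hu ih =>
      intro h1
      have h2 := ih (by omega)
      have h3 : (I.filter fun r => r.val < u) ⊆ I.filter fun r => r.val < u + 1 :=
        monotone_filter_right _ fun r _ h => Nat.lt_succ_of_lt h
      have h4 := hd.2.2.1 (γ s) (γ u) (γ (u + 1))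
      obtain ⟨h5, h6⟩ := hp ⟨u, by omega⟩ hu h1
      by_cases h7 : d (γ u) (γ (u + 1)) = 0
      · exact le_trans (by omega) (h2.trans (card_le_card h3))
      · have h8 : γ (u + 1) ≠ γ u := fun e => h7 (by rw [e, hd.1])
        obtain ⟨h9, h10⟩ := h6.resolve_left h8
        simp only at h10
        have h11 : (γ u = ex ⟨u, by omega⟩ ∧ γ (u + 1) = ey ⟨u, by omega⟩) ∨
            (γ u = ey ⟨u, by omega⟩ ∧ γ (u + 1) = ex ⟨u, by omega⟩) := by
          rw [swap_apply_def] at h10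
          split_ifs at h10 with a b
          exacts [Or.inl ⟨a, h10⟩, Or.inr ⟨b, h10⟩, absurd h10 h8]
        have h12 : d (γ u) (γ (u + 1)) = d (ex ⟨u, by omega⟩) (ey ⟨u, by omega⟩) := by
          rcases h11 with ⟨a, b⟩ | ⟨a, b⟩
          · rw [← a, ← b]
          · rw [← a, ← b, hd.2.1]
        have h13 := h _ _ h9 (h12 ▸ h7) (h11.imp And.left And.left) h5
          (h2.trans ((card_filter_le _ _).trans hI))
        have h14 := hd.2.2.2 ⟨u, by omega⟩
        have h15 := card_lt_card ((ssubset_iff_of_subset h3).2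
          ⟨_, mem_filter.2 ⟨h13, Nat.lt_succ_self u⟩, fun h => lt_irrefl u (mem_filter.1 h).2⟩)
        omega
  exact (key t hs le_rfl).trans ((card_filter_le _ _).trans hI)

end slow

end Crest.Agent.N337.A
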