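import Crest.Agent.N337.A.Clus

/-!
# Row 337, block (a): agreement of loops, locality of `res`
-/

set_option autoImplicit false
set_option linter.unusedSectionVars false

namespace Crest.Agent.N337.A

open Finset Equiv Crest.Agent.N337.Rep Crest.Agent.N337.LY0

variable {Λ : Type} [Fintype Λ] [DecidableEq Λ] {T : ℕ} [NeZero T] {ex ey : Fin T → Λ}
  {κ : Type} [Fintype κ] [DecidableEq κ] {d : Λ → Λ → ℕ} {M : Mdl T Λ}
  {lab : Finset (Fin T × Λ) → κ → ℝ} {y : ℝ} {x x' x'' ω : St T Λ κ} {u : Fin T × Λ}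
  {U : Finset (Fin T × Λ)}

/-- the loop through `u` only depends on the coins it touches. -/
lemma orb_iff {ξ ξ' : Fin T → Bool} (h : ∀ w, o (Sg ex ey ξ) u = o (Sg ex ey ξ) w →
    (w.2 = ex w.1 ∨ w.2 = ey w.1) → ξ w.1 = ξ' w.1) (w : Fin T × Λ) :
    o (Sg ex ey ξ) u = o (Sg ex ey ξ) w ↔ o (Sg ex ey ξ') u = o (Sg ex ey ξ') w := by
  have key : ∀ k : ℕ, (Sg ex ey ξ' ^ k) u = (Sg ex ey ξ ^ k) u := by
    intro k
    induction k with
    | zero => rfl
    | succ k ih =>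
      rw [pow_succ', pow_succ', Perm.mul_apply, Perm.mul_apply, ih]
      have h1 := h ((Sg ex ey ξ ^ k) u) (by rw [o_pow])
      generalize (Sg ex ey ξ ^ k) u = c at h1
      obtain ⟨s, z⟩ := c
      rw [Sg_apply, Sg_apply]
      by_cases h2 : z = ex s ∨ z = ey s
      · rw [show ξ s = ξ' s from h1 h2]
      · push Not at h2
        cases ξ s <;> cases ξ' s <;> simp [sg, swap_apply_of_ne_of_ne h2.1 h2.2]
  constructor <;> intro e <;> obtain ⟨k, -, hk⟩ := (o_eq.1 e).exists_pow_eq'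
  · rw [← hk, ← key, o_pow]
  · rw [← hk, key, o_pow]

variable (ex ey) in
/-- two states have the same down loop (or none) through `u`. -/
def LA (x x' : St T Λ κ) (u : Fin T × Λ) : Prop :=
  x.2 u = x'.2 u ∧ (x.2 u ≠ none → ∀ w, o (Sg ex ey x.1) u = o (Sg ex ey x.1) w →
    (w.2 = ex w.1 ∨ w.2 = ey w.1) → x.1 w.1 = x'.1 w.1)

lemma LA.orb (h : LA ex ey x x' u) (hu : x.2 u ≠ none) (w : Fin T × Λ) :
    o (Sg ex ey x.1) u = o (Sg ex ey x.1) w ↔ o (Sg ex ey x'.1) u = o (Sg ex ey x'.1) w :=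
  orb_iff (h.2 hu) w

lemma LA.symm (h : LA ex ey x x' u) : LA ex ey x' x u :=
  ⟨h.1.symm, fun hu w hw he => (h.2 (h.1 ▸ hu) w ((h.orb (h.1 ▸ hu) w).2 hw) he).symm⟩

lemma LA.trans (h : LA ex ey x x' u) (h' : LA ex ey x' x'' u) : LA ex ey x x'' u :=
  ⟨h.1.trans h'.1, fun hu w hw he =>
    (h.2 hu w hw he).trans (h'.2 (h.1 ▸ hu) w ((h.orb hu w).1 hw) he)⟩

lemma LA.wind (h : LA ex ey x x' u) (hu : x.2 u ≠ none) : wind ex ey x.1 u = wind ex ey x'.1 u := by
  unfold A.wind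
  exact congrArg card (filter_congr fun z _ => by rw [eq_comm, h.orb hu, eq_comm])

lemma tch_of {n : Fin T × Λ → Option κ} {w : Fin T × Λ} (h : n w ≠ none)
    (he : w.2 = ex w.1 ∨ w.2 = ey w.1) : Tch ex ey n w.1 := by
  rcases he with e | e
  · exact Or.inl (by rw [← e]; exact h)
  · exact Or.inr (by rw [← e]; exact h)

lemma Tch.exists {n : Fin T × Λ → Option κ} {s : Fin T} (h : Tch ex ey n s) :
    ∃ z, (z = ex s ∨ z = ey s) ∧ n (s, z) ≠ none :=
  h.elim (fun h => ⟨_, Or.inl rfl, h⟩) fun h => ⟨_, Or.inr rfl, h⟩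

lemma res_none (h : x.2 u = none) : (res ex ey U x).2 u = none := by
  by_contra h1; exact h1 ((res_snd h1).1.trans h)

lemma la_res (hc : Cl ex ey x.1 x.2) (h : (res ex ey U x).2 u = x.2 u) :
    LA ex ey x (res ex ey U x) u := by
  refine ⟨h.symm, fun hu w hw he => (res_fst (tch_of ?_ he)).symm⟩
  obtain ⟨-, u0, h0, h1⟩ := res_snd (h ▸ hu : (res ex ey U x).2 u ≠ none)
  rwa [res_snd_of h0 (h1.trans hw), ← hc.eq hw]

lemma LA.res (h : LA ex ey x x' u) (hc : Cl ex ey x.1 x.2) (hc' : Cl ex ey x'.1 x'.2) :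
    LA ex ey (res ex ey U x) (res ex ey U x') u := by
  have e : (A.res ex ey U x).2 u = (A.res ex ey U x').2 u := by
    by_cases hu : x.2 u = none
    · rw [res_none hu, res_none (h.1 ▸ hu)]
    · simp only [A.res, rn, eq_comm (b := o _ u), h.orb hu, h.1]
  by_cases hu : (A.res ex ey U x).2 u = none
  · exact ⟨e, fun h => absurd hu h⟩
  · exact ((la_res hc (res_snd hu).1).symm.trans h).trans (la_res hc' (res_snd (e ▸ hu)).1)

lemma la_of_res (hc : Cl ex ey x.1 x.2) (hc' : Cl ex ey x'.1 x'.2)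
    (h : res ex ey U x = res ex ey U x') (hu : u ∈ U) : LA ex ey x x' u :=
  (la_res hc (res_snd_of hu rfl)).trans (h ▸ (la_res hc' (res_snd_of hu rfl)).symm)

lemma res_ext (hc : Cl ex ey x.1 x.2) (hc' : Cl ex ey x'.1 x'.2)
    (h : ∀ u ∈ U, LA ex ey x x' u) : res ex ey U x = res ex ey U x' := by
  have key : ∀ {x x' : St T Λ κ}, Cl ex ey x.1 x.2 → Cl ex ey x'.1 x'.2 →
      (∀ u ∈ U, LA ex ey x x' u) → ∀ w, (res ex ey U x).2 w ≠ none →
      (res ex ey U x).2 w = (res ex ey U x').2 w ∧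
        ((w.2 = ex w.1 ∨ w.2 = ey w.1) → x.1 w.1 = x'.1 w.1) := by
    intro x x' hc hc' h w hw
    obtain ⟨e, u, hu, h1⟩ := res_snd hw
    have h2 : x.2 u ≠ none := by rwa [hc.eq h1, ← e]
    have h3 := ((h u hu).orb h2 w).1 h1
    exact ⟨by rw [e, res_snd_of hu h3, ← hc.eq h1, ← hc'.eq h3, (h u hu).1], (h u hu).2 h2 w h1⟩
  have e : (res ex ey U x).2 = (res ex ey U x').2 := by
    funext w
    by_cases h1 : (res ex ey U x).2 w = none
    · by_contra h2
      exact h2 (key hc' hc (fun u hu => (h u hu).symm) w fun h3 => h2 (h1.trans h3.symm)).1.symm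
    · exact (key hc hc' h w h1).1
  refine Prod.ext (funext fun s => ?_) e
  by_cases h1 : Tch ex ey (res ex ey U x).2 s
  · obtain ⟨z, h2, h3⟩ := h1.exists
    rw [res_fst h1, res_fst (e ▸ h1)]
    exact (key hc hc' h (s, z) h3).2 h2
  · rw [res_fst' h1, res_fst' (e ▸ h1)]

end Crest.Agent.N337.A
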