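import Crest.Agent.N337.Gas.Bridge

/-!
# Row 337, block (a): numbers, corridors and blocks, the box stage in gas form
-/

set_option autoImplicit false
set_option linter.unusedSectionVars false

namespace Crest.Agent.N337.A

open Finset Equiv Crest.Agent.N337.Gas

/-! ### numbers -/

/-- one step of the tower of speeds (`Kn r` = rate bound at radius `r`). -/
def vn (Kn : ℕ → ℕ) (lg v : ℕ) : ℕ := (40 * Kn (v + 2) + lg + 1) * (v + 1)
/-- the tower of speeds. -/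
def vt (Kn : ℕ → ℕ) (lg v i : ℕ) : ℕ := (vn Kn lg)^[i] v
/-- winding cut-off. -/
def mw (Tn lg : ℕ) : ℕ := 2 * Tn * lg
/-- range of the clustering. -/
def Dn (K Tn lg v : ℕ) : ℕ :=
  (2 * (40 * K + 2 * (mw Tn lg + 1) * lg) + 3) * (2 * ((40 * K + 2 * (mw Tn lg + 1) * lg + 1) * (v + 1)) + 2)

lemma vt_succ (Kn : ℕ → ℕ) (lg v i : ℕ) : vt Kn lg v (i + 1) = vn Kn lg (vt Kn lg v i) :=
  Function.iterate_succ_apply' _ _ _

lemma le_vn (Kn : ℕ → ℕ) (lg v : ℕ) : v ≤ vn Kn lg v := by unfold vn; nlinarith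

lemma vt_mono (Kn : ℕ → ℕ) (lg v : ℕ) : Monotone (vt Kn lg v) :=
  monotone_nat_of_le_succ fun i => by rw [vt_succ]; exact le_vn _ _ _

section num
variable {N Tn lg : ℕ} {Tf δ : ℝ} (hN : 1 ≤ N) (hT : 1 ≤ Tf) (hTn : Tf ≤ Tn) (hδ : 0 < δ)
  (hδ1 : δ ≤ 1 / 8) (hl : 6400 * N ^ 2 * Tf ≤ δ * Real.exp lg)
include hN hT hδ hδ1 hl

lemma num_aux : 6400 * N ^ 2 * Tf * Real.exp (-lg) ≤ δ ∧ 16 * N ≤ Real.exp lg ∧ 1 ≤ lg := by
  have h1 : (1 : ℝ) ≤ N := by exact_mod_cast hN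
  have h2 := Real.exp_pos lg
  have h3 : 16 * N ≤ Real.exp lg := by nlinarith
  refine ⟨by rwa [Real.exp_neg, ← div_eq_mul_inv, div_le_iff₀ h2], h3, ?_⟩
  by_contra h
  obtain rfl : lg = 0 := by omega
  rw [Nat.cast_zero, Real.exp_zero] at h3
  linarith

lemma fast_ok (K : ℕ) : N * Real.exp (40 * (K : ℝ) - (40 * K + lg : ℕ)) ≤ δ := by
  have h1 : (1 : ℝ) ≤ N := by exact_mod_cast hN
  rw [show 40 * (K : ℝ) - (40 * K + lg : ℕ) = -lg by push_cast; ring]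
  refine le_trans (mul_le_mul_of_nonneg_right ?_ (Real.exp_pos _).le) (num_aux hN hT hδ hδ1 hl).1
  nlinarith

include hTn in
lemma num_ok (K v : ℕ) :
    Num N Tf K δ v (mw Tn lg) (40 * K + 2 * (mw Tn lg + 1) * lg) (Dn K Tn lg v) := by
  obtain ⟨a1, a2, a3⟩ := num_aux hN hT hδ hδ1 hl
  have h1 : (1 : ℝ) ≤ N := by exact_mod_cast hN
  have hlg : (0 : ℝ) ≤ lg := Nat.cast_nonneg _
  refine ⟨hT, hδ, hδ1, le_trans ?_ a1, le_trans ?_ a1, le_rfl, ?_⟩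
  · refine mul_le_mul (mul_le_mul_of_nonneg_right (by nlinarith) (by linarith))
      (Real.exp_le_exp.2 ?_) (Real.exp_pos _).le (by positivity)
    rw [div_le_iff₀ (by linarith), mw]; push_cast; nlinarith
  · set m := mw Tn lg
    have b1 : (16 * N : ℝ) ^ m ≤ Real.exp (m * lg) := by
      rw [Real.exp_nat_mul]; exact pow_le_pow_left₀ (by positivity) a2 _
    have b2 : (1 / 2 : ℝ) ^ (40 * K + 2 * (m + 1) * lg) ≤ Real.exp (-((m + 1) * lg)) := by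
      have c1 : (1 / 2 : ℝ) ^ 2 ≤ Real.exp (-1) := by
        rw [Real.exp_neg, le_inv_comm₀ (by norm_num) (Real.exp_pos 1)]
        linarith [Real.exp_one_lt_d9]
      calc (1 / 2 : ℝ) ^ (40 * K + 2 * (m + 1) * lg) ≤ (1 / 2) ^ (2 * ((m + 1) * lg)) :=
            pow_le_pow_of_le_one (by norm_num) (by norm_num) (by nlinarith)
        _ ≤ Real.exp (-1) ^ ((m + 1) * lg) := by
            rw [pow_mul]; exact pow_le_pow_left₀ (by norm_num) c1 _
        _ = _ := by rw [← Real.exp_nat_mul]; push_cast; ring_nf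
    have b3 : Real.exp (40 * (K : ℝ) - (40 * K + 2 * (m + 1) * lg : ℕ)) ≤
        Real.exp (-((m + 1) * lg)) := Real.exp_le_exp.2 (by push_cast; nlinarith [Nat.cast_nonneg (α := ℝ) m])
    have b4 : Real.exp (-((m + 1) * lg)) * Real.exp (m * lg) = Real.exp (-lg) := by
      rw [← Real.exp_add]; ring_nf
    have b5 := Real.exp_pos (-((m + 1) * lg))
    have b6 := Real.exp_pos (-(lg : ℝ))
    calc _ ≤ 3200 * N * ((1 + N) * Real.exp (-((m + 1) * lg))) * Real.exp (m * lg) := by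
          gcongr; nlinarith
      _ = 3200 * N * (1 + N) * Real.exp (-lg) := by rw [← b4]; ring
      _ ≤ _ := mul_le_mul_of_nonneg_right
          (by nlinarith [mul_le_mul_of_nonneg_left hT (sq_nonneg (N : ℝ))]) b6.le
  · unfold Dn
    generalize mw Tn lg = m
    have : m + 1 ≤ 40 * K + 2 * (m + 1) * lg := by nlinarith
    generalize 40 * K + 2 * (m + 1) * lg = f at this
    generalize (f + 1) * (v + 1) = w
    nlinarith

end num

/-- crude size of the tower. -/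
lemma vt_le {Kn : ℕ → ℕ} {lg v Y : ℕ} (hY : 10 ≤ Y) (hK : ∀ r, Kn r ≤ Y * (2 * r + 1) ^ 3)
    (hl : lg ≤ Y) (hv : v ≤ Y) (i : ℕ) : vt Kn lg v i ≤ Y ^ 10 ^ i := by
  induction i with
  | zero => simpa [vt] using hv
  | succ i ih =>
    have h1 : Y ≤ Y ^ 10 ^ i := Nat.le_self_pow (by positivity) _
    rw [vt_succ, pow_succ, pow_mul]
    generalize Y ^ 10 ^ i = W at ih h1
    generalize vt Kn lg v i = u at ih
    have h2 : Kn (u + 2) ≤ W * (3 * W) ^ 3 :=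
      (hK _).trans (Nat.mul_le_mul h1 (Nat.pow_le_pow_left (by omega) _))
    have h3 : W ≤ W ^ 4 := Nat.le_self_pow (by norm_num) _
    have h4 : 10 ^ 5 ≤ W ^ 5 := Nat.pow_le_pow_left (by omega) _
    calc vn Kn lg u ≤ (1082 * W ^ 4) * (2 * W) := Nat.mul_le_mul (by nlinarith) (by omega)
      _ = 2164 * W ^ 5 := by ring
      _ ≤ W ^ 5 * W ^ 5 := Nat.mul_le_mul_right _ (by omega)
      _ = W ^ 10 := by ring

lemma Dn_le {K Tn lg v Y : ℕ} (hY : 10 ≤ Y) (hK : K ≤ Y) (hl : lg ≤ Y) (hv : v ≤ Y) :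
    Dn K Tn lg v ≤ Y ^ 8 * (Tn + 1) ^ 2 := by
  have h1 : 40 * K + 2 * (mw Tn lg + 1) * lg + 2 ≤ 9 * (Y ^ 2 * (Tn + 1)) := by
    have : 2 * (mw Tn lg + 1) * lg ≤ 2 * (2 * Tn * Y + 1) * Y := by unfold mw; gcongr
    nlinarith
  unfold Dn
  generalize 40 * K + 2 * (mw Tn lg + 1) * lg = f at h1
  have h2 : Y ^ 8 * (Tn + 1) ^ 2 = Y ^ 3 * Y * (Y ^ 2 * (Tn + 1)) ^ 2 := by ring
  have h3 : 10 ^ 3 ≤ Y ^ 3 := Nat.pow_le_pow_left hY _
  rw [h2]
  generalize Y ^ 2 * (Tn + 1) = X at h1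
  calc _ ≤ (18 * X) * (2 * (9 * X) * (2 * Y)) := Nat.mul_le_mul (by omega) (by nlinarith)
    _ = 648 * Y * X ^ 2 := by ring
    _ ≤ _ := by gcongr; omega

/-! ### corridors and blocks -/

section cor
variable {Λ : Type} [Fintype Λ] [DecidableEq Λ] (S : Finset Λ) (co : Λ → Fin 3 → ℕ) (q wd : ℕ)

/-- the corridors of layer `l`: period `4 q`, width `wd`, shift `l q` along the diagonal. -/
def Cor (l : Fin 4) : Finset Λ := S.filter fun x => ∃ a, (co x a + l * q) % (4 * q) < wd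
/-- the blocks of layer `l`. -/
def Blk (l : Fin 4) (i : Fin 3 → ℕ) : Finset Λ :=
  (S \ Cor S co q wd l).filter fun x => ∀ a, (co x a + l * q) / (4 * q) = i a

variable {S co q wd} {d : Λ → Λ → ℕ} {l : Fin 4} {x y : Λ} {i : Fin 3 → ℕ}

lemma mem_Cor : x ∈ Cor S co q wd l ↔ x ∈ S ∧ ∃ a, (co x a + l * q) % (4 * q) < wd := mem_filter

lemma mem_Blk : x ∈ Blk S co q wd l i ↔ (x ∈ S ∧ x ∉ Cor S co q wd l) ∧
    ∀ a, (co x a + l * q) / (4 * q) = i a := by simp only [Blk, mem_filter, mem_sdiff]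

lemma exists_Blk (hx : x ∈ S) (h : x ∉ Cor S co q wd l) :
    x ∈ Blk S co q wd l fun a => (co x a + l * q) / (4 * q) := mem_Blk.2 ⟨⟨hx, h⟩, fun _ => rfl⟩

lemma Cor_cover (hs : ∀ x y, d x y = d y x) (hco : ∀ x ∈ S, ∀ y ∈ S, ∀ a, co x a ≤ co y a + d x y)
    {R : ℕ} (hq : wd + 2 * R ≤ q) (hx : x ∈ S) : ∃ l, x ∉ nbd d R (Cor S co q wd l) := by
  have key : ∀ l : Fin 4, x ∈ nbd d R (Cor S co q wd l) → ∃ a, ((co x a + R) / q + l) % 4 = 0 := by
    intro l h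
    obtain ⟨y, hy, h1⟩ := mem_nbd.1 h
    obtain ⟨h2, a, h3⟩ := mem_Cor.1 hy
    have h4 := hco x hx y h2 a
    have h5 := hco y h2 x hx a
    rw [hs] at h5
    have hq0 : 0 < q := by omega
    have h6 := Nat.div_add_mod (co y a + l * q) (4 * q)
    refine ⟨a, ?_⟩
    rw [← Nat.add_mul_div_right _ _ hq0, show co x a + R + l * q = (co y a + l * q) % (4 * q) +
      (co x a + R - co y a) + 4 * ((co y a + l * q) / (4 * q)) * q by
        have : 4 * ((co y a + l * q) / (4 * q)) * q = 4 * q * ((co y a + l * q) / (4 * q)) := by ring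
        omega, Nat.add_mul_div_right _ _ hq0, Nat.div_eq_of_lt (by omega)]
    omega
  by_contra h
  push Not at h
  obtain ⟨a0, h0⟩ := key 0 (h 0)
  obtain ⟨a1, h1⟩ := key 1 (h 1)
  obtain ⟨a2, h2⟩ := key 2 (h 2)
  obtain ⟨a3, h3⟩ := key 3 (h 3)
  revert h0 h1 h2 h3
  generalize (fun a => (co x a + R) / q) = c at *
  fin_cases a0 <;> fin_cases a1 <;> fin_cases a2 <;> fin_cases a3 <;> simp <;> omega

lemma Blk_diam (hq : 0 < q) (hx : x ∈ Blk S co q wd l i) (hy : y ∈ Blk S co q wd l i) (a : Fin 3) :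
    co x a ≤ co y a + 4 * q := by
  have h1 := Nat.div_add_mod (co x a + l * q) (4 * q)
  have h2 := Nat.div_add_mod (co y a + l * q) (4 * q)
  have h3 := Nat.mod_lt (co x a + l * q) (by omega : 0 < 4 * q)
  rw [(mem_Blk.1 hx).2 a] at h1
  rw [(mem_Blk.1 hy).2 a] at h2
  omega

lemma Blk_apart {T : ℕ} [NeZero T] {ex ey : Fin T → Λ} (hd : Met ex ey d)
    (hco : ∀ x ∈ S, ∀ y ∈ S, ∀ a, co x a ≤ co y a + d x y) (hw : 1 ≤ wd) :
    Apart ex ey (Blk S co q wd l) := by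
  refine ⟨fun i j x hi hj => funext fun a => ((mem_Blk.1 hi).2 a).symm.trans ((mem_Blk.1 hj).2 a),
    fun i j s hi hj => funext fun a => ?_⟩
  obtain ⟨⟨h1, h2⟩, h3⟩ := mem_Blk.1 hi
  obtain ⟨⟨h4, h5⟩, h6⟩ := mem_Blk.1 hj
  have h7 := hco _ h1 _ h4 a
  have h8 := hco _ h4 _ h1 a
  have h9 := hd.2.2.2 s
  rw [hd.2.1] at h8
  have key : ∀ u : ℕ, 1 ≤ (u + 1) % (4 * q) → (u + 1) / (4 * q) = u / (4 * q) := fun u h => by
    rw [Nat.succ_div, if_neg fun h' => by rw [Nat.mod_eq_zero_of_dvd h'] at h; omega, add_zero]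
  have b1 : wd ≤ (co (ex s) a + l * q) % (4 * q) := not_lt.1 fun h => h2 (mem_Cor.2 ⟨h1, a, h⟩)
  have b2 : wd ≤ (co (ey s) a + l * q) % (4 * q) := not_lt.1 fun h => h5 (mem_Cor.2 ⟨h4, a, h⟩)
  rw [← h3 a, ← h6 a]
  obtain e | e | e : co (ex s) a + l * q = co (ey s) a + l * q ∨
      co (ex s) a + l * q = co (ey s) a + l * q + 1 ∨
      co (ey s) a + l * q = co (ex s) a + l * q + 1 := by omega
  · rw [e]
  · rw [e] at b1 ⊢; exact key _ (hw.trans b1)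
  · rw [e] at b2 ⊢; exact (key _ (hw.trans b2)).symm

end cor

/-! ### the stage -/

variable {Λ : Type} [Fintype Λ] [DecidableEq Λ] {T : ℕ} [NeZero T] {ex ey : Fin T → Λ}
  {d : Λ → Λ → ℕ} {M : Mdl T Λ} {S : Finset Λ} {Kn : ℕ → ℕ} {N Tn lg v : ℕ} {Tf δ : ℝ}

/-- the hypotheses of the box stage that do not see the pins. -/
structure BoxHyp (ex ey : Fin T → Λ) (d : Λ → Λ → ℕ) (M : Mdl T Λ) (S : Finset Λ) (Kn : ℕ → ℕ)
    (N Tn lg v : ℕ) (Tf δ : ℝ) : Prop where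
  met : Met ex ey d
  ok : M.Ok (Real.exp (-1 / Tf))
  sup : ∀ u, M.b u ≠ 0 → u.2 ∈ S
  card : S.card ≤ N
  N1 : 1 ≤ N
  T1 : 1 ≤ Tf
  Tn : Tf ≤ Tn
  δ0 : 0 < δ
  δ1 : δ ≤ 1 / 8
  big : 6400 * N ^ 2 * Tf ≤ δ * Real.exp lg
  rate : ∀ r ≤ vt Kn lg v 4 + 2, Rate ex ey d M r (Kn r)

lemma BoxHyp.child (h : BoxHyp ex ey d M S Kn N Tn lg v Tf δ) {M' : Mdl T Λ}
    (ho : M'.Ok (Real.exp (-1 / Tf))) (hb : ∀ u, M'.b u ≠ 0 → u.2 ∈ S)
    (hp : ∀ s, M'.p s = M.p s ∨ M'.p s = 0 ∨ M'.p s = 1) : BoxHyp ex ey d M' S Kn N Tn lg v Tf δ :=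
  { h with
    ok := ho
    sup := hb
    rate := fun r hr => (h.rate r hr).of_le le_rfl (fun s => (h.ok.1 s).1) hp }

open Classical in
/-- the bad set of the box stage is rare in every slow model `M'` that keeps the pins of `M`. -/
theorem BoxHyp.rare {M' : Mdl T Λ} (h : BoxHyp ex ey d M' S Kn N Tn lg v Tf δ)
    (hs : ∀ u, M.b u ≠ 0 → u.2 ∈ S) (hp : ∀ s, M.p s = 1 → M'.p s = 1)
    (hS : Slow ex ey d (Cheap ex ey d M') (fun u => M.b u ≠ 0) v) :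
    Op.ex (law ex ey M') (Op.ind fun A => ¬ GdG ex ey d M (mw Tn lg) (vt Kn lg v 1) A) ≤ 2 * δ := by
  have h1 := Pb_not_Gd (mw Tn lg) (40 * Kn (v + 2) + lg) h.met h.ok (Real.exp_pos _).le lab_lab1 hs
    h.sup h.card hp (h.rate (v + 2) (Nat.add_le_add_right (vt_mono Kn lg v (Nat.zero_le 4)) 2)) hS
  have h2 := ((num_ok h.N1 h.T1 h.Tn h.δ0 h.δ1 h.big 0 0).small h.N1).2
  have h3 := fast_ok h.N1 h.T1 h.δ0 h.δ1 h.big (Kn (v + 2))
  exact (dn_le_Pb h.ok fun ω hw a b => a ((gd_dn (wt_cl hw) d M _ _).1 b)).trans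
    (h1.trans (by linarith))

open Classical in
/-- **the box stage.** -/
theorem BoxHyp.var_le (h : BoxHyp ex ey d M S Kn N Tn lg v Tf δ) {C : Fin 4 → Finset Λ}
    (hC : ∀ x ∈ S, ∃ l, x ∉ nbd d (12 * Dn (Kn (vt Kn lg v 4 + 2)) Tn lg (vt Kn lg v 4)) (C l))
    (B : Finset (Lp T Λ) → Prop)
    (hB : ∀ A, law ex ey M A ≠ 0 → ¬ B A → GdG ex ey d M (mw Tn lg) (vt Kn lg v 1) A)
    (he : δ + Op.ex (law ex ey M) (Op.ind B) ≤ 1 / 1600) (F : Finset (Lp T Λ) → ℝ) :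
    Op.var (law ex ey M) F ≤ 20 * ∑ l, Op.ex (law ex ey M) (fun A =>
      Op.var (Op.cond (law ex ey M) (filter (Hit (cyl (C l)))) (A.filter (Hit (cyl (C l))))) F) +
        40 * Op.ex (law ex ey M) fun A => Op.ind B A * (F A - Op.ex (law ex ey M) F) ^ 2 := by
  have hp := pr_law (ex := ex) (ey := ey) h.ok
  have hδ := h.δ0
  have h1 := box_tr (U := fun l => cyl (C l)) h.ok hδ.le (boxS (K := fun i => Kn (vt Kn lg v (i + 1) + 2))
    (v := fun i => vt Kn lg v (i + 1)) (g := fun i => 40 * Kn (vt Kn lg v (i + 1) + 2) + lg)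
    h.sup h.card h.N1 h.met h.ok (fun i hi => ⟨vt_succ _ _ _ _,
      h.rate _ (Nat.add_le_add_right (vt_mono Kn lg v (by omega)) 2),
      fast_ok h.N1 h.T1 hδ h.δ1 h.big _⟩) (num_ok h.N1 h.T1 h.Tn hδ h.δ1 h.big _ _)
    (fun x ⟨s, hx⟩ => hC x (h.sup _ hx)) lab_lab1) B hB he
  have hk : ∀ k ∈ [Op.ps B (law ex ey M), Op.ce (law ex ey M) (filter (Hit (cyl (C 0)))),
      Op.ce (law ex ey M) (filter (Hit (cyl (C 1)))), Op.ce (law ex ey M) (filter (Hit (cyl (C 2)))),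
      Op.ce (law ex ey M) (filter (Hit (cyl (C 3))))], Op.Proj (law ex ey M) k := by
    simp only [List.forall_mem_cons, List.not_mem_nil, false_imp_iff, implies_true, and_true]
    exact ⟨Op.proj_ps hp (by linarith), Op.proj_ce hp.nn _, Op.proj_ce hp.nn _, Op.proj_ce hp.nn _,
      Op.proj_ce hp.nn _⟩
  have h2 := Op.var_le_word hp (fun k h => (hk k h).ker) (fun k h => (hk k h).ctr hp.nn)
    (by norm_num) (by norm_num) h1 F
  have h3 := Op.res_ps_le (S := B) hp (by linarith) F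
  simp only [List.map_cons, List.map_nil, List.sum_cons, List.sum_nil, List.length_cons,
    List.length_nil, Op.res_ce hp.nn] at h2
  rw [Fin.sum_univ_four]
  norm_num at h2
  linarith

end Crest.Agent.N337.A
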