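import Crest.Agent.N337.A.Geo

/-!
# Row 337, block (a): the two-copy swap (`two`, helper40)

If some shell `nbd (r+1) A \ nbd r A` between `A` and `G` is vacant in both copies at all times, the two
copies are exchanged on the cylinder over `nbd r A`.  Otherwise a copy is fast or has many down points.
-/

set_option autoImplicit false
set_option linter.unusedSectionVars false

namespace Crest.Agent.N337.A

open Finset Equiv Crest.Agent.N337.Rep Crest.Agent.N337.LY0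

namespace Two

variable {Λ : Type} [Fintype Λ] [DecidableEq Λ] {T : ℕ} [NeZero T] (ex ey : Fin T → Λ)

/-- coins and down points -/
abbrev Cf (T : ℕ) (Λ : Type) : Type := (Fin T → Bool) × (Fin T × Λ → Bool)

open Classical in
/-- the complex weight -/
noncomputable def w (M : Mdl T Λ) (l : ℂ) (ω : Cf T Λ) : ℂ :=
  if Cl ex ey ω.1 ω.2 then (Pw M.p ω.1 : ℂ) *
    ∏ v, if ω.2 v = true then (if v.1 = 0 then l else 1) * (M.b v : ℂ) else 1 else 0

lemma Zc_eq (M : Mdl T Λ) (l : ℂ) : Zc ex ey M l = ∑ ω, w ex ey M l ω := by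
  rw [Fintype.sum_prod_type]; rfl

/-- occupied points -/
def oc (ω ω' : Cf T Λ) : Fin T × Λ → Bool := fun v => ω.2 v || ω'.2 v

/-- `B` separates `A` from `G`, and its outer boundary is vacant -/
def Cut (A G : Finset Λ) (c : Fin T × Λ → Bool) (B : Finset Λ) : Prop :=
  A ⊆ B ∧ (∀ x ∈ B, x ∉ G) ∧ ∀ s, (ex s ∈ B ∨ ey s ∈ B) → ∀ x, (x = ex s ∨ x = ey s) →
    x ∉ G ∧ (x ∉ B → ∀ t, c (t, x) = false)

/-- `ω'` on `B`, `ω` off `B` -/
def sw (B : Finset Λ) (ω ω' : Cf T Λ) : Cf T Λ :=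
  (fun s => if ex s ∈ B ∨ ey s ∈ B then ω'.1 s else ω.1 s,
    fun v => if v.2 ∈ B then ω'.2 v else ω.2 v)

variable {ex ey} {A G B : Finset Λ} {ω ω' : Cf T Λ} {d : Λ → Λ → ℕ}

lemma oc_comm (ω ω' : Cf T Λ) : oc ω ω' = oc ω' ω := funext fun _ => Bool.or_comm _ _

lemma oc_sw : oc (sw ex ey B ω ω') (sw ex ey B ω' ω) = oc ω ω' := by
  funext v
  simp only [oc, sw]
  split_ifs
  · exact Bool.or_comm _ _
  · rfl

lemma sw_sw : sw ex ey B (sw ex ey B ω ω') (sw ex ey B ω' ω) = ω := by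
  refine Prod.ext (funext fun s => ?_) (funext fun v => ?_) <;> simp only [sw] <;> split_ifs <;> rfl

lemma sg_mem (x y : Λ) (b : Bool) (z : Λ) :
    (sg x y b z = z ∧ z ≠ x ∧ z ≠ y) ∨ ((z = x ∨ z = y) ∧ (sg x y b z = x ∨ sg x y b z = y)) := by
  by_cases h1 : z = x
  · cases b <;> simp [sg, h1]
  by_cases h2 : z = y
  · cases b <;> simp [sg, h2]
  · cases b <;> simp [sg, h1, h2, swap_apply_of_ne_of_ne h1 h2]

lemma cl_sw (hc : Cut ex ey A G (oc ω ω') B) (h : Cl ex ey ω.1 ω.2) (h' : Cl ex ey ω'.1 ω'.2) :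
    Cl ex ey (sw ex ey B ω ω').1 (sw ex ey B ω ω').2 := by
  rintro ⟨s, x⟩
  have e := h (s, x)
  have e' := h' (s, x)
  rw [Sg_apply] at e e' ⊢
  by_cases hx : x = ex s ∨ x = ey s
  · by_cases hs : ex s ∈ B ∨ ey s ∈ B
    · have key : ∀ t y, (y = ex s ∨ y = ey s) → (sw ex ey B ω ω').2 (t, y) = ω'.2 (t, y) := by
        intro t y hy
        simp only [sw]
        split_ifs with hB
        · rfl
        · have := Bool.or_eq_false_iff.1 ((hc.2.2 s hs y hy).2 hB t)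
          rw [this.1, this.2]
      rw [show (sw ex ey B ω ω').1 s = ω'.1 s from if_pos hs, key _ _ hx, key, e']
      rcases sg_mem (ex s) (ey s) (ω'.1 s) x with h1 | h1
      · rw [h1.1]; exact hx
      · exact h1.2
    · have key : ∀ t y, (y = ex s ∨ y = ey s) → (sw ex ey B ω ω').2 (t, y) = ω.2 (t, y) :=
        fun t y hy => if_neg fun hB => hs (by
          rcases hy with rfl | rfl
          exacts [Or.inl hB, Or.inr hB])
      rw [show (sw ex ey B ω ω').1 s = ω.1 s from if_neg hs, key _ _ hx, key, e]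
      rcases sg_mem (ex s) (ey s) (ω.1 s) x with h1 | h1
      · rw [h1.1]; exact hx
      · exact h1.2
  · have key : ∀ b, sg (ex s) (ey s) b x = x := fun b =>
      ((sg_mem (ex s) (ey s) b x).resolve_right fun h1 => hx h1.1).1
    rw [key] at e e' ⊢
    simp only [sw, e, e']

lemma w_sw {M : Bool → Bool → Mdl T Λ} (hA : ∀ j, Agree ex ey (M true j) (M false j) A)
    (hG : ∀ i, Agree ex ey (M i true) (M i false) G) (l : ℂ) (hc : Cut ex ey A G (oc ω ω') B) :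
    w ex ey (M true true) l ω * w ex ey (M false false) l ω' =
      w ex ey (M false true) l (sw ex ey B ω ω') * w ex ey (M true false) l (sw ex ey B ω' ω) := by
  by_cases h : Cl ex ey ω.1 ω.2 ∧ Cl ex ey ω'.1 ω'.2
  · rw [w, w, w, w, if_pos h.1, if_pos h.2, if_pos (cl_sw hc h.1 h.2),
      if_pos (cl_sw (oc_comm ω ω' ▸ hc) h.2 h.1), mul_mul_mul_comm]
    refine Eq.trans (congrArg₂ _ ?_ ?_) (mul_mul_mul_comm _ _ _ _)
    · rw [← Complex.ofReal_mul, ← Complex.ofReal_mul, Pw, Pw, Pw, Pw, ← prod_mul_distrib,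
        ← prod_mul_distrib]
      refine congrArg _ (prod_congr rfl fun s _ => ?_)
      simp only [sw]
      split_ifs with hs
      · have h1 := (hc.2.2 s hs _ (Or.inl rfl)).1
        have h2 := (hc.2.2 s hs _ (Or.inr rfl)).1
        rw [(hG true).1 s h1 h2, (hG false).1 s h1 h2, mul_comm]
      · have h1 : ex s ∉ A := fun e => hs (Or.inl (hc.1 e))
        have h2 : ey s ∉ A := fun e => hs (Or.inr (hc.1 e))
        rw [(hA true).1 s h1 h2, (hA false).1 s h1 h2]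
    · rw [← prod_mul_distrib, ← prod_mul_distrib]
      refine prod_congr rfl fun v _ => ?_
      by_cases hv : v.2 ∈ B
      · simp only [sw, if_pos hv]
        rw [(hG true).2 v (hc.2.1 _ hv), (hG false).2 v (hc.2.1 _ hv), mul_comm]
      · simp only [sw, if_neg hv]
        rw [(hA true).2 v fun e => hv (hc.1 e), (hA false).2 v fun e => hv (hc.1 e)]
  · have h' : ¬ (Cl ex ey (sw ex ey B ω ω').1 (sw ex ey B ω ω').2 ∧
        Cl ex ey (sw ex ey B ω' ω).1 (sw ex ey B ω' ω).2) := fun h' => h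
      ⟨sw_sw (B := B) (ω := ω) (ω' := ω') ▸ cl_sw (B := B) (by rwa [oc_sw]) h'.1 h'.2,
        sw_sw (B := B) (ω := ω') (ω' := ω) ▸ cl_sw (B := B) (by rwa [oc_sw, oc_comm]) h'.2 h'.1⟩
    have key : ∀ (a a' : Cf T Λ) (N N' : Mdl T Λ), ¬ (Cl ex ey a.1 a.2 ∧ Cl ex ey a'.1 a'.2) →
        w ex ey N l a * w ex ey N' l a' = 0 := fun a a' N N' h => by
      rcases not_and_or.1 h with h | h
      · rw [w, if_neg h, zero_mul]
      · rw [w.eq_1 _ _ N', if_neg h, mul_zero]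
    rw [key _ _ _ _ h, key _ _ _ _ h']

open Classical in
/-- the good pairs cancel -/
lemma good_eq {M : Bool → Bool → Mdl T Λ} (hA : ∀ j, Agree ex ey (M true j) (M false j) A)
    (hG : ∀ i, Agree ex ey (M i true) (M i false) G) (l : ℂ) :
    ∑ q : Cf T Λ × Cf T Λ, (if ∃ B, Cut ex ey A G (oc q.1 q.2) B then
        w ex ey (M true true) l q.1 * w ex ey (M false false) l q.2 else 0) =
      ∑ q : Cf T Λ × Cf T Λ, if ∃ B, Cut ex ey A G (oc q.1 q.2) B then
        w ex ey (M false true) l q.1 * w ex ey (M true false) l q.2 else 0 := by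
  let f : Cf T Λ × Cf T Λ → Cf T Λ × Cf T Λ := fun q =>
    (sw ex ey (epsilon (Cut ex ey A G (oc q.1 q.2))) q.1 q.2,
      sw ex ey (epsilon (Cut ex ey A G (oc q.1 q.2))) q.2 q.1)
  have hf : Function.Involutive f := fun q => by
    simp only [f, oc_sw, sw_sw]
  refine Fintype.sum_equiv hf.toPerm _ _ fun q => ?_
  simp only [Function.Involutive.coe_toPerm, f, oc_sw]
  split_ifs with h
  · exact w_sw hA hG l (epsilon_spec h)
  · rfl

/-! ### geometry -/

/-- a down point is near `A ∪ G` or near a down point at time `0` -/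
lemma near (hd : Met ex ey d) {b : Fin T × Λ → ℝ} {v : ℕ} (hc : Cl ex ey ω.1 ω.2)
    (hb : ∀ u, ω.2 u = true → b u ≠ 0)
    (hS : Slow ex ey d (Act ex ey d ω.1) (fun u => u.2 ∉ A ∧ u.2 ∉ G ∧ b u ≠ 0) v)
    {u : Fin T × Λ} (hu : ω.2 u = true) :
    (∃ y, (y ∈ A ∨ y ∈ G) ∧ d y u.2 ≤ v + 1) ∨ ∃ y, ω.2 (0, y) = true ∧ d y u.2 ≤ v := by
  obtain ⟨z, hz⟩ := (Sg ex ey ω.1 ^ u.1.val).surjective u
  have hz0 : z.1 = 0 := by
    have h1 := Sg_pow_fst (ex := ex) (ey := ey) ω.1 u.1.val z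
    have h2 : u.1.val • (1 : Fin T) = u.1 := Fin.ext (by rw [nsmul_one_val, Nat.mod_eq_of_lt u.1.2])
    rw [hz, h2] at h1
    exact right_eq_add.1 h1
  set γ : ℕ → Λ := fun r => ((Sg ex ey ω.1 ^ r) z).2 with hγ
  have e1 : ∀ r : Fin T, (Sg ex ey ω.1 ^ r.val) z = (r, γ r.val) := fun r =>
    Prod.ext (Fin.ext (by rw [Sg_pow_val, hz0]; simp [Nat.mod_eq_of_lt r.2])) rfl
  have e2 : ∀ r : Fin T, γ (r.val + 1) = sg (ex r) (ey r) (ω.1 r) (γ r.val) := fun r => by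
    simp only [hγ]
    rw [pow_succ', Perm.mul_apply, e1]
    rfl
  have e3 : γ u.1.val = u.2 := congrArg Prod.snd hz
  have e4 : ω.2 z = true := by rw [← hc.pow u.1.val z, hz, hu]
  have key : ∀ j, j ≤ u.1.val → (∃ y, (y ∈ A ∨ y ∈ G) ∧ d y u.2 ≤ v + 1) ∨
      Path ex ey (Act ex ey d ω.1) (fun u => u.2 ∉ A ∧ u.2 ∉ G ∧ b u ≠ 0) (u.1.val - j) u.1.val γ := by
    intro j
    induction j with
    | zero => exact fun _ => Or.inr fun r h1 h2 => by omega
    | succ j ih =>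
      intro hj
      refine (ih (by omega)).elim Or.inl fun hp => ?_
      obtain ⟨r, hr⟩ : ∃ r : Fin T, r.val + 1 = u.1.val - j :=
        ⟨⟨u.1.val - (j + 1), by have := u.1.2; omega⟩, by simp only; omega⟩
      by_cases hy : γ r.val ∈ A ∨ γ r.val ∈ G
      · have h1 := hS _ _ γ (Nat.sub_le _ _) u.1.2.le hp
        have h2 : d (γ r.val) (γ (r.val + 1)) ≤ 1 := by
          rw [e2]
          rcases sg_mem (ex r) (ey r) (ω.1 r) (γ r.val) with h3 | h3
          · rw [h3.1, hd.1]; omega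
          · exact hd.ends h3.1 h3.2
        have h3 := hd.2.2.1 (γ r.val) (γ (r.val + 1)) u.2
        rw [← hr, e3] at h1
        exact Or.inl ⟨_, hy, by omega⟩
      · refine Or.inr fun r' h1 h2 => ?_
        by_cases h3 : r' = r
        · subst h3
          refine ⟨⟨fun e => hy (Or.inl e), fun e => hy (Or.inr e), hb _ ?_⟩, ?_⟩
          · rw [← e1, hc.pow, e4]
          · rw [e2]
            cases h4 : ω.1 r'
            · exact Or.inl (by simp [sg])
            · exact Or.inr ⟨Or.inl h4, by simp [sg]⟩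
        · exact hp r' (by have := Fin.val_ne_of_ne h3; omega) h2
  refine (key _ le_rfl).imp id fun hp => ⟨z.2, by rw [← hz0]; exact e4, ?_⟩
  have := hS _ _ γ (Nat.sub_le _ _) u.1.2.le hp
  rwa [Nat.sub_self, e3] at this

/-- number of down points at time `0` -/
def ct (ω : Cf T Λ) : ℕ := (univ.filter fun x => ω.2 (0, x) = true).card

lemma exists_cut (hd : Met ex ey d) {v n0 : ℕ}
    (hAG : ∀ a ∈ A, ∀ g ∈ G, (2 * n0 + 2) * (2 * v + 2) < d a g)
    (hn : ∀ u, oc ω ω' u = true → (∃ y, (y ∈ A ∨ y ∈ G) ∧ d y u.2 ≤ v + 1) ∨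
      ∃ y, oc ω ω' (0, y) = true ∧ d y u.2 ≤ v) (h1 : ct ω < n0) (h2 : ct ω' < n0) :
    ∃ B, Cut ex ey A G (oc ω ω') B := by
  by_contra hB
  have key : ∀ j, j < 2 * n0 → ∃ y, oc ω ω' (0, y) = true ∧
      (∃ a ∈ A, d y a ≤ (j + 1) * (2 * v + 1) + 1) ∧ ∀ a ∈ A, j * (2 * v + 1) + 1 < d y a := by
    intro j hj
    have hr : j * (2 * v + 1) + (2 * v + 3) ≤ (2 * n0 + 2) * (2 * v + 2) := by nlinarith
    have hG : ∀ x, (∃ a ∈ A, d x a ≤ j * (2 * v + 1) + v + 2) → ∀ g ∈ G, v + 1 < d g x := by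
      rintro x ⟨a, ha, h3⟩ g hg
      have h4 := hAG a ha g hg
      have h5 := hd.2.2.1 a x g
      rw [hd.2.1 a x, hd.2.1 x g] at h5
      omega
    have hE : ∀ s, (ex s ∈ nbd d (j * (2 * v + 1) + v + 1) A ∨
        ey s ∈ nbd d (j * (2 * v + 1) + v + 1) A) → ∀ x, (x = ex s ∨ x = ey s) →
        ∃ a ∈ A, d x a ≤ j * (2 * v + 1) + v + 2 := by
      intro s hs x hx
      obtain ⟨y, hy, a, ha, h3⟩ : ∃ y, (y = ex s ∨ y = ey s) ∧
          ∃ a ∈ A, d y a ≤ j * (2 * v + 1) + v + 1 :=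
        hs.elim (fun h => ⟨_, Or.inl rfl, mem_nbd.1 h⟩) fun h => ⟨_, Or.inr rfl, mem_nbd.1 h⟩
      have h4 := hd.ends hx hy
      have h5 := hd.2.2.1 x y a
      exact ⟨a, ha, by omega⟩
    have hG' : ∀ x, (∃ a ∈ A, d x a ≤ j * (2 * v + 1) + v + 2) → x ∉ G := fun x hx hg => by
      have := hG x hx x hg
      rw [hd.1] at this
      omega
    by_contra hy
    refine hB ⟨nbd d (j * (2 * v + 1) + v + 1) A, fun a ha => mem_nbd.2 ⟨a, ha, by rw [hd.1]; omega⟩,
      fun x hx => hG' x ?_, fun s hs x hx => ⟨hG' x (hE s hs x hx), fun hx' t => ?_⟩⟩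
    · obtain ⟨a, ha, h3⟩ := mem_nbd.1 hx
      exact ⟨a, ha, by omega⟩
    · by_contra ho
      have h3 : ∀ a ∈ A, j * (2 * v + 1) + v + 1 < d x a := fun a ha =>
        not_le.1 fun h => hx' (mem_nbd.2 ⟨a, ha, h⟩)
      rcases hn (t, x) (by simpa using ho) with ⟨y, h4 | h4, h5⟩ | ⟨y, h4, h5⟩
      · have := h3 y h4
        rw [hd.2.1] at h5
        simp only at h5
        omega
      · exact absurd h5 (not_le.2 (hG x (hE s hs x hx) y h4))
      · obtain ⟨a, ha, h6⟩ := hE s hs x hx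
        refine hy ⟨y, h4, ⟨a, ha, ?_⟩, fun a' ha' => ?_⟩
        · have := hd.2.2.1 y x a
          simp only at h5
          rw [add_mul]
          omega
        · have h7 := hd.2.2.1 x y a'
          have h8 := h3 a' ha'
          rw [hd.2.1] at h5
          simp only at h5
          omega
  have : Nonempty Λ := ⟨ex 0⟩
  choose! y hy using key
  have hlt : ∀ j j', j < j' → j' < 2 * n0 → y j ≠ y j' := fun j j' h3 h4 e => by
    obtain ⟨a, ha, h5⟩ := (hy j (by omega)).2.1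
    have h6 := (hy j' h4).2.2 a ha
    have h7 := Nat.mul_le_mul_right (2 * v + 1) (show j + 1 ≤ j' from h3)
    rw [e] at h5
    omega
  have h3 : (range (2 * n0)).card ≤ ((univ.filter fun x => ω.2 (0, x) = true) ∪
      univ.filter fun x => ω'.2 (0, x) = true).card :=
    card_le_card_of_injOn y (fun j hj => by simpa [oc] using (hy j (by simpa using hj)).1)
      fun j hj j' hj' e => by
        by_contra hne
        rcases Nat.lt_or_gt_of_ne hne with h | h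
        · exact hlt j j' h (by simpa using hj') e
        · exact hlt j' j h (by simpa using hj) e.symm
  have h4 := h3.trans (card_union_le _ _)
  rw [card_range] at h4
  unfold ct at h1 h2
  omega

/-! ### weights -/

lemma Pw_nonneg' {M : Mdl T Λ} (h : M.Ok 1) (ξ : Fin T → Bool) : 0 ≤ Pw M.p ξ :=
  prod_nonneg fun s _ => by
    have := h.1 s
    unfold wb
    split_ifs <;> linarith

open Classical in
lemma norm_w {M : Mdl T Λ} (h : M.Ok 1) (l : ℂ) (ω : Cf T Λ) :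
    ‖w ex ey M l ω‖ ≤ Pw M.p ω.1 * if Cl ex ey ω.1 ω.2 then ‖l‖ ^ ct ω else 0 := by
  rw [w]
  split_ifs
  · rw [norm_mul, Complex.norm_real, Real.norm_of_nonneg (Pw_nonneg' h _), norm_prod]
    refine mul_le_mul_of_nonneg_left (le_trans (prod_le_prod (fun v _ => norm_nonneg _)
      (g := fun v => if v.1 = 0 then (if ω.2 v = true then ‖l‖ else 1) else 1) fun v _ => ?_)
      (le_of_eq ?_)) (Pw_nonneg' h _)
    · have h1 := h.2.1 v
      split_ifs
      · rw [norm_mul, Complex.norm_real, Real.norm_of_nonneg h1.1]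
        exact mul_le_of_le_one_right (norm_nonneg _) h1.2
      · rw [one_mul, Complex.norm_real, Real.norm_of_nonneg h1.1]
        exact h1.2
      all_goals simp
    · rw [Fintype.prod_prod_type, prod_eq_single 0 (fun s _ hs => by simp [hs]) (by simp), ct,
        ← prod_const, prod_filter]
      simp
  · simp

open Classical in
lemma sum_cl' (ξ : Fin T → Bool) (S : Finset Λ) {a : ℝ} (ha : 0 ≤ a) :
    ∑ n : Fin T × Λ → Bool, (if Cl ex ey ξ n ∧ ∀ x, n (0, x) = true → x ∈ S then a ^ ct (ξ, n)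
      else 0) ≤ (1 + a) ^ S.card := by
  have h1 : ∑ n : Fin T × Λ → Bool, (if Cl ex ey ξ n ∧ ∀ x, n (0, x) = true → x ∈ S then
      a ^ ct (ξ, n) else 0) ≤
      ∑ σ : Λ → Bool, ∏ x, if σ x = true then (if x ∈ S then a else 0) else 1 := by
    rw [← sum_filter]
    refine le_trans (le_of_eq ?_) (sum_le_sum_of_subset_of_nonneg (subset_univ
      ((univ.filter fun n => Cl ex ey ξ n ∧ ∀ x, n (0, x) = true → x ∈ S).image
        fun (n : Fin T × Λ → Bool) x => n (0, x)))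
      fun σ _ _ => prod_nonneg fun x _ => by split_ifs <;> linarith)
    rw [sum_image fun n hn n' hn' e => funext fun u => ?_]
    · refine sum_congr rfl fun n hn => ?_
      rw [ct, ← prod_const, prod_filter]
      refine prod_congr rfl fun x _ => ?_
      split_ifs with h1 h2
      exacts [rfl, absurd ((mem_filter.1 hn).2.2 x h1) h2, rfl]
    · obtain ⟨x, hx⟩ := exists_time ex ey ξ (o (Sg ex ey ξ) u) 0
      rw [← (mem_filter.1 hn).2.1.eq hx, ← (mem_filter.1 hn').2.1.eq hx]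
      exact congrFun e x
  refine h1.trans (le_of_eq ?_)
  rw [← Fintype.prod_sum (fun (x : Λ) (b : Bool) => if b = true then (if x ∈ S then a else 0) else 1)]
  simp only [Fintype.sum_bool, if_true, Bool.false_eq_true, if_false]
  rw [← prod_const, ← prod_subset (subset_univ S) fun x _ hx => by rw [if_neg hx, zero_add]]
  exact prod_congr rfl fun x hx => by rw [if_pos hx, add_comm]

open Classical in
lemma sum_cl (ξ : Fin T → Bool) {S : Finset Λ} {N : ℕ} (hS : S.card ≤ N) {a : ℝ} (ha : 0 ≤ a)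
    (hN : 4 * N * a ≤ 1) :
    ∑ n : Fin T × Λ → Bool, (if Cl ex ey ξ n ∧ ∀ x, n (0, x) = true → x ∈ S then a ^ ct (ξ, n)
      else 0) ≤ 2 := by
  refine (sum_cl' ξ S ha).trans ?_
  calc (1 + a) ^ S.card ≤ (1 + a) ^ N := pow_le_pow_right₀ (by linarith) hS
    _ ≤ Real.exp a ^ N := pow_le_pow_left₀ (by linarith) (by linarith [Real.add_one_le_exp a]) _
    _ = Real.exp (N * a) := (Real.exp_nat_mul _ _).symm
    _ ≤ Real.exp (1 / 4) := Real.exp_le_exp.2 (by linarith)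
    _ ≤ 2 := by
      have := Real.exp_bound_div_one_sub_of_interval (x := 1 / 4) (by norm_num) (by norm_num)
      linarith [show (1 : ℝ) / (1 - 1 / 4) ≤ 2 by norm_num]

lemma w_ne {M : Mdl T Λ} {l : ℂ} (h : w ex ey M l ω ≠ 0) :
    Cl ex ey ω.1 ω.2 ∧ ∀ u, ω.2 u = true → M.b u ≠ 0 := by
  have h1 : Cl ex ey ω.1 ω.2 := by
    by_contra hc
    exact h (by rw [w, if_neg hc])
  refine ⟨h1, fun u hu hb => h ?_⟩
  rw [w, if_pos h1, prod_eq_zero (mem_univ u) (by rw [if_pos hu, hb]; simp), mul_zero]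

open Classical in
lemma norm_wS {M : Mdl T Λ} (h : M.Ok 1) {S : Finset Λ} (hS : ∀ v, M.b v ≠ 0 → v.2 ∈ S) (l : ℂ)
    (ω : Cf T Λ) : ‖w ex ey M l ω‖ ≤ Pw M.p ω.1 *
      if Cl ex ey ω.1 ω.2 ∧ ∀ x, ω.2 (0, x) = true → x ∈ S then ‖l‖ ^ ct ω else 0 := by
  by_cases h0 : w ex ey M l ω = 0
  · rw [h0, norm_zero]
    exact mul_nonneg (Pw_nonneg' h _) (by split_ifs <;> positivity)
  · have h1 := norm_w (ex := ex) (ey := ey) h l ω
    rwa [if_pos (w_ne h0).1, ← if_pos (c := Cl ex ey ω.1 ω.2 ∧ ∀ x, ω.2 (0, x) = true → x ∈ S)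
      ⟨(w_ne h0).1, fun x hx => hS _ ((w_ne h0).2 _ hx)⟩ (t := ‖l‖ ^ ct ω) (e := 0)] at h1

open Classical in
/-- total mass, and the mass of an event that forces `E ξ` or many down points -/
lemma sum_w {M : Mdl T Λ} (h : M.Ok 1) {S : Finset Λ} {N : ℕ} (hS : ∀ v, M.b v ≠ 0 → v.2 ∈ S)
    (hN : S.card ≤ N) {l : ℂ} (hl : 8 * N * ‖l‖ ≤ 1)
    (E : (Fin T → Bool) → Prop) (n0 : ℕ) {ε : ℝ} (hε : ∑ ξ, Pw M.p ξ * (if E ξ then 0 else 1) ≤ ε) :
    ∑ ω : Cf T Λ, (if E ω.1 ∧ ct ω < n0 then 0 else ‖w ex ey M l ω‖) ≤ 2 * ((1 / 2) ^ n0 + ε) := by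
  have h0 := norm_nonneg l
  have h1 : ∀ ω : Cf T Λ, (if E ω.1 ∧ ct ω < n0 then 0 else ‖w ex ey M l ω‖) ≤
      Pw M.p ω.1 * ((1 / 2) ^ n0 + if E ω.1 then 0 else 1) *
        if Cl ex ey ω.1 ω.2 ∧ ∀ x, ω.2 (0, x) = true → x ∈ S then (2 * ‖l‖) ^ ct ω else 0 :=
      fun ω => by
    have h2 := Pw_nonneg' h ω.1
    have h3 : (0 : ℝ) ≤ if E ω.1 then 0 else 1 := by split_ifs <;> norm_num
    by_cases h4 : E ω.1 ∧ ct ω < n0
    · rw [if_pos h4]
      refine mul_nonneg (mul_nonneg h2 (by positivity)) ?_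
      split_ifs <;> positivity
    · rw [if_neg h4, mul_assoc]
      refine (norm_wS h hS l ω).trans (mul_le_mul_of_nonneg_left ?_ h2)
      by_cases h5 : Cl ex ey ω.1 ω.2 ∧ ∀ x, ω.2 (0, x) = true → x ∈ S
      · rw [if_pos h5, if_pos h5, show ‖l‖ ^ ct ω = (1 / 2) ^ ct ω * (2 * ‖l‖) ^ ct ω by
          rw [← mul_pow]; congr 1; ring]
        refine mul_le_mul_of_nonneg_right ?_ (by positivity)
        by_cases h6 : E ω.1
        · rw [if_pos h6, add_zero]
          exact pow_le_pow_of_le_one (by norm_num) (by norm_num) (not_lt.1 fun e => h4 ⟨h6, e⟩)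
        · rw [if_neg h6]
          exact le_add_of_nonneg_of_le (by positivity) (pow_le_one₀ (by norm_num) (by norm_num))
      · rw [if_neg h5, if_neg h5, mul_zero]
  rw [Fintype.sum_prod_type]
  refine (sum_le_sum (g := fun ξ => Pw M.p ξ * ((1 / 2) ^ n0 + if E ξ then 0 else 1) * 2)
    fun ξ _ => (sum_le_sum (g := fun n => Pw M.p ξ * ((1 / 2) ^ n0 + if E ξ then 0 else 1) *
      if Cl ex ey ξ n ∧ ∀ x, n (0, x) = true → x ∈ S then (2 * ‖l‖) ^ ct (ξ, n) else 0)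
        fun n _ => h1 (ξ, n)).trans ?_).trans ?_
  · rw [← mul_sum]
    refine mul_le_mul_of_nonneg_left (sum_cl ξ hN (by positivity) (by linarith))
      (mul_nonneg (Pw_nonneg' h ξ) ?_)
    split_ifs <;> positivity
  · simp only [mul_add, add_mul, sum_add_distrib, ← sum_mul, sum_Pw]
    linarith

lemma sum_two {α R : Type} [Fintype α] [CommSemiring R] (f g : α → R) :
    ∑ q : α × α, f q.1 * g q.2 = (∑ a, f a) * ∑ a, g a := by
  rw [sum_mul_sum, Fintype.sum_prod_type]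

open Classical in
/-- the bad pairs are light -/
lemma bad_le (hd : Met ex ey d) {v n0 : ℕ} {ε : ℝ} {M M' : Mdl T Λ} (h : M.Ok 1) (h' : M'.Ok 1)
    {S : Finset Λ} {N : ℕ} (hS : ∀ v, M.b v ≠ 0 → v.2 ∈ S) (hS' : ∀ v, M'.b v ≠ 0 → v.2 ∈ S)
    (hN : S.card ≤ N)
    (hAG : ∀ a ∈ A, ∀ g ∈ G, (2 * n0 + 2) * (2 * v + 2) < d a g)
    (hε : ∑ ξ, Pw M.p ξ * (if Slow ex ey d (Act ex ey d ξ)
      (fun u => u.2 ∉ A ∧ u.2 ∉ G ∧ M.b u ≠ 0) v then 0 else 1) ≤ ε)
    (hε' : ∑ ξ, Pw M'.p ξ * (if Slow ex ey d (Act ex ey d ξ)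
      (fun u => u.2 ∉ A ∧ u.2 ∉ G ∧ M'.b u ≠ 0) v then 0 else 1) ≤ ε)
    {l : ℂ} (hl : 8 * N * ‖l‖ ≤ 1) :
    ‖∑ q : Cf T Λ × Cf T Λ, if ∃ B, Cut ex ey A G (oc q.1 q.2) B then 0 else
      w ex ey M l q.1 * w ex ey M' l q.2‖ ≤ 8 * ((1 / 2) ^ n0 + ε) := by
  have tot : ∀ {M : Mdl T Λ}, M.Ok 1 → (∀ v, M.b v ≠ 0 → v.2 ∈ S) →
      ∑ ω : Cf T Λ, ‖w ex ey M l ω‖ ≤ 2 := fun {M} hM hS => by
    have := sum_w (ex := ex) (ey := ey) hM hS hN hl (fun _ => True) 0 (ε := 0) (by simp)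
    simpa using this
  have b1 := sum_w (ex := ex) (ey := ey) h hS hN hl _ n0 hε
  have b2 := sum_w (ex := ex) (ey := ey) h' hS' hN hl _ n0 hε'
  set F : Cf T Λ → ℝ := fun ω => if Slow ex ey d (Act ex ey d ω.1)
    (fun u => u.2 ∉ A ∧ u.2 ∉ G ∧ M.b u ≠ 0) v ∧ ct ω < n0 then 0 else ‖w ex ey M l ω‖ with hF
  set F' : Cf T Λ → ℝ := fun ω => if Slow ex ey d (Act ex ey d ω.1)
    (fun u => u.2 ∉ A ∧ u.2 ∉ G ∧ M'.b u ≠ 0) v ∧ ct ω < n0 then 0 else ‖w ex ey M' l ω‖ with hF'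
  have F0 : ∀ ω, 0 ≤ F ω := fun ω => by simp only [hF]; split_ifs <;> positivity
  have F0' : ∀ ω, 0 ≤ F' ω := fun ω => by simp only [hF']; split_ifs <;> positivity
  refine (norm_sum_le_of_le _ (n := fun q => F q.1 * ‖w ex ey M' l q.2‖ +
    ‖w ex ey M l q.1‖ * F' q.2) fun q _ => ?_).trans ?_
  · have c1 := mul_nonneg (F0 q.1) (norm_nonneg (w ex ey M' l q.2))
    have c2 := mul_nonneg (norm_nonneg (w ex ey M l q.1)) (F0' q.2)
    split_ifs with hB
    · rw [norm_zero]; linarith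
    by_cases h0 : w ex ey M l q.1 * w ex ey M' l q.2 = 0
    · rw [h0, norm_zero]; linarith
    have w1 := w_ne (left_ne_zero_of_mul h0)
    have w2 := w_ne (right_ne_zero_of_mul h0)
    rw [norm_mul]
    by_cases g1 : Slow ex ey d (Act ex ey d q.1.1)
        (fun u => u.2 ∉ A ∧ u.2 ∉ G ∧ M.b u ≠ 0) v ∧ ct q.1 < n0
    · by_cases g2 : Slow ex ey d (Act ex ey d q.2.1)
          (fun u => u.2 ∉ A ∧ u.2 ∉ G ∧ M'.b u ≠ 0) v ∧ ct q.2 < n0
      · refine absurd (exists_cut hd hAG (fun u hu => ?_) g1.2 g2.2) hB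
        rcases Bool.or_eq_true_iff.1 hu with hu | hu
        · exact (near hd w1.1 w1.2 g1.1 hu).imp id fun ⟨y, a, b⟩ => ⟨y, by simp [oc, a], b⟩
        · exact (near hd w2.1 w2.2 g2.1 hu).imp id fun ⟨y, a, b⟩ => ⟨y, by simp [oc, a], b⟩
      · rw [show F' q.2 = ‖w ex ey M' l q.2‖ from if_neg g2]; linarith
    · rw [show F q.1 = ‖w ex ey M l q.1‖ from if_neg g1]; linarith
  · rw [sum_add_distrib, sum_two F fun ω => ‖w ex ey M' l ω‖,
      sum_two (fun ω => ‖w ex ey M l ω‖) F']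
    have c1 := mul_le_mul b1 (tot h' hS') (sum_nonneg fun _ _ => norm_nonneg _)
      ((sum_nonneg fun ω _ => F0 ω).trans b1)
    have c2 := mul_le_mul (tot h hS) b2 (sum_nonneg fun ω _ => F0' ω) (by norm_num)
    linarith

end Two
open Two

open Classical in
/-- two-copy swap for models supported on `S`. -/
theorem twoS {Λ : Type} [Fintype Λ] [DecidableEq Λ] {T : ℕ} [NeZero T] {ex ey : Fin T → Λ}
    {d : Λ → Λ → ℕ} (M : Bool → Bool → Mdl T Λ) (A G : Finset Λ) (v n0 : ℕ) (ε : ℝ)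
    {S : Finset Λ} {N : ℕ} (hS : ∀ i j v, (M i j).b v ≠ 0 → v.2 ∈ S) (hN : S.card ≤ N)
    (hd : Met ex ey d) (hM : ∀ i j, (M i j).Ok 1)
    (hA : ∀ j, Agree ex ey (M true j) (M false j) A) (hG : ∀ i, Agree ex ey (M i true) (M i false) G)
    (hAG : ∀ a ∈ A, ∀ g ∈ G, (2 * n0 + 2) * (2 * v + 2) < d a g)
    (hε : ∀ i j, ∑ ξ, Pw (M i j).p ξ * (if Slow ex ey d (Act ex ey d ξ)
      (fun u => u.2 ∉ A ∧ u.2 ∉ G ∧ (M i j).b u ≠ 0) v then 0 else 1) ≤ ε)
    (l : ℂ) (hl : 8 * N * ‖l‖ ≤ 1) :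
    ‖Zc ex ey (M true true) l * Zc ex ey (M false false) l -
      Zc ex ey (M true false) l * Zc ex ey (M false true) l‖ ≤ 16 * ((1 / 2) ^ n0 + ε) := by
  have b1 := bad_le hd (hM true true) (hM false false) (hS _ _) (hS _ _) hN hAG (hε _ _) (hε _ _) hl
  have b2 := bad_le hd (hM false true) (hM true false) (hS _ _) (hS _ _) hN hAG (hε _ _) (hε _ _) hl
  have e : ∀ N N' : Mdl T Λ, Zc ex ey N l * Zc ex ey N' l =
      (∑ q : Cf T Λ × Cf T Λ, if ∃ B, Cut ex ey A G (oc q.1 q.2) B then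
        w ex ey N l q.1 * w ex ey N' l q.2 else 0) +
      ∑ q : Cf T Λ × Cf T Λ, if ∃ B, Cut ex ey A G (oc q.1 q.2) B then 0 else
        w ex ey N l q.1 * w ex ey N' l q.2 := fun N N' => by
    rw [Zc_eq, Zc_eq, ← sum_two, ← sum_add_distrib]
    refine sum_congr rfl fun _ _ => ?_
    split_ifs <;> simp
  rw [mul_comm (Zc ex ey (M true false) l), e, e, good_eq hA hG, add_sub_add_left_eq_sub]
  exact (norm_sub_le_of_le b1 b2).trans (le_of_eq (by ring))

theorem two : TwoStmt := fun _ _ _ _ _ _ _ _ M A G v n0 ε =>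
  twoS M A G v n0 ε (S := univ) (fun _ _ _ _ => mem_univ _) le_rfl

end Crest.Agent.N337.A
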