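import Crest.Agent.N337.A.Bas
import Crest.Agent.N337.A.Fast
import Crest.Agent.N337.A.Two

/-!
# Row 337, block (a): the crude bounds for models supported on a set `S` of slots
-/

set_option autoImplicit false
set_option linter.unusedSectionVars false

namespace Crest.Agent.N337.A

open Finset Equiv Crest.Agent.N337.Rep Crest.Agent.N337.LY0 Bs

variable {Λ : Type} [Fintype Λ] [DecidableEq Λ] {T : ℕ} [NeZero T] (ex ey : Fin T → Λ)
  {κ : Type} [Fintype κ] [DecidableEq κ] {d : Λ → Λ → ℕ} {M : Mdl T Λ}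
  {lab : Finset (Fin T × Λ) → κ → ℝ} {y : ℝ} {S : Finset Λ} {N : ℕ}

theorem degS (hS : ∀ v, M.b v ≠ 0 → v.2 ∈ S) (hN : S.card ≤ N) :
    ∃ Q : Polynomial ℂ, Q.natDegree ≤ N ∧ ∀ l, Q.eval l = Zc ex ey M l := by
  refine ⟨∑ ξ, Polynomial.C (Pw M.p ξ : ℂ) * ∑ n : Fin T × Λ → Bool,
    if ∀ v, n (Sg ex ey ξ v) = n v then Polynomial.monomial (c0 n) (zd M.b n : ℂ) else 0, ?_,
    fun l => ?_⟩
  · refine Polynomial.natDegree_sum_le_of_forall_le _ _ fun ξ _ =>
      (Polynomial.natDegree_C_mul_le _ _).trans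
        (Polynomial.natDegree_sum_le_of_forall_le _ _ fun n _ => ?_)
    split_ifs
    · by_cases h : zd M.b n = 0
      · simp [h]
      · refine (Polynomial.natDegree_monomial_le _).trans ((card_le_card fun x hx => ?_).trans hN)
        have := prod_ne_zero_iff.1 h (0, x) (mem_univ _)
        rw [if_pos (mem_filter.1 hx).2] at this
        exact hS _ this
    · simp
  · rw [Zc_eq, Polynomial.eval_finsetSum]
    refine sum_congr rfl fun ξ _ => ?_
    rw [Polynomial.eval_C_mul, Polynomial.eval_finsetSum]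
    congr 1
    refine sum_congr rfl fun n _ => ?_
    split_ifs <;> simp [mul_comm]

theorem normS (hM : M.Ok 1) (hS : ∀ v, M.b v ≠ 0 → v.2 ∈ S) (hN : S.card ≤ N) (l : ℂ) :
    ‖Zc ex ey M l - 1‖ ≤ (1 + ‖l‖) ^ N - 1 := by
  classical
  have h1 : (1 : ℂ) = ∑ ξ, Two.w ex ey M l (ξ, fun _ => false) := by
    have : ∀ ξ, Two.w ex ey M l (ξ, fun _ => false) = (Pw M.p ξ : ℂ) := fun ξ => by
      rw [Two.w, if_pos (show Cl ex ey ξ fun _ => false from fun _ => rfl)]; simp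
    simp only [this]; exact_mod_cast (sum_Pw M.p).symm
  have h2 : ∀ c : ℝ, c = ∑ ξ, Pw M.p ξ * c := fun c => by rw [← sum_mul, sum_Pw, one_mul]
  rw [Two.Zc_eq, Fintype.sum_prod_type, h2 (_ - 1 : ℝ)]
  conv_lhs => rw [h1, ← sum_sub_distrib]
  refine (norm_sum_le _ _).trans (sum_le_sum fun ξ _ => ?_)
  have h3 := (Two.sum_cl' (ex := ex) (ey := ey) ξ S (norm_nonneg l)).trans
    (pow_le_pow_right₀ (by linarith [norm_nonneg l]) hN)
  rw [← add_sum_erase _ _ (mem_univ fun _ => false), if_pos ⟨fun _ => rfl, by simp⟩,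
    show Two.ct (ξ, fun _ => false) = 0 by simp [Two.ct], pow_zero] at h3
  rw [← add_sum_erase _ _ (mem_univ fun _ => false), add_sub_cancel_left]
  refine (norm_sum_le _ _).trans ((sum_le_sum fun n _ => Two.norm_wS hM hS l (ξ, n)).trans ?_)
  dsimp only
  rw [← mul_sum]
  exact mul_le_mul_of_nonneg_left (le_sub_iff_add_le'.2 h3) (Pw_nonneg hM.1 ξ)

theorem longS (hM : M.Ok y) (hy : 0 ≤ y) (hl : Lab lab) (hS : ∀ v, M.b v ≠ 0 → v.2 ∈ S)
    (hN : S.card ≤ N) (K : ℕ) :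
    Pb ex ey M lab (fun ω => ∃ u, ω.2 u ≠ none ∧ K < wind ex ey ω.1 u) ≤ N * y ^ K := by
  have hZ : 0 < Z ex ey M := one_pos.trans_le (one_le_Z ex ey hM)
  refine le_trans ?_ (mul_le_mul_of_nonneg_right (Nat.cast_le.2 hN) (pow_nonneg hy K))
  rw [Pb, Ev, div_le_iff₀ hZ, mul_assoc, ← nsmul_eq_mul, ← sum_const]
  refine le_trans ?_ (sum_le_sum fun x _ => sum_long ex ey hM hy hl K (0, x))
  rw [sum_comm]
  refine sum_le_sum fun ω _ => ?_
  rw [← mul_sum]
  by_cases hc : wt ex ey M lab ω = 0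
  · rw [hc, zero_mul, zero_mul]
  · refine mul_le_mul_of_nonneg_left ?_ (wt_nonneg ex ey hM hl ω)
    split_ifs with h
    · obtain ⟨u, h1, h2⟩ := h
      obtain ⟨x, hx⟩ := exists_time ex ey ω.1 (o (Sg ex ey ω.1) u) 0
      have h3 : ω.2 (0, x) ≠ none := by rwa [(wt_cl hc).eq hx]
      refine le_trans (le_of_eq (if_pos ⟨h3, ?_⟩).symm) (single_le_sum
        (f := fun x => if ω.2 (0, x) ≠ none ∧ K < wind ex ey ω.1 (0, x) then (1 : ℝ) else 0)
        (fun _ _ => by split_ifs <;> norm_num) (hS _ (wt_b hc h3)))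
      rwa [wind, hx]
    · exact sum_nonneg fun _ _ => by split_ifs <;> norm_num

theorem fastS {K : ℝ} {W : Fin T × Λ → Prop} {v : ℕ} (f : ℕ) (hd : Met ex ey d) (hM : M.Ok y)
    (hy : 0 ≤ y) (hR : Rate ex ey d M (v + 2) K) (hW : Slow ex ey d (Cheap ex ey d M) W v)
    (hl : Lab lab) (hS : ∀ u, W u → u.2 ∈ S) (hN : S.card ≤ N) :
    Pb ex ey M lab (fun ω => ¬ Slow ex ey d (Act ex ey d ω.1) W ((f + 1) * (v + 1))) ≤
      N * Real.exp (40 * K - f) := by
  have hw := wt_nonneg ex ey hM hl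
  have hZ : 0 ≤ Z ex ey M := zero_le_one.trans (one_le_Z ex ey hM)
  obtain ⟨h1, ns, τ, c, hm, hτ, hc, hcK, hs⟩ := hR
  have a1 := Pb_le_sum hw hZ S
    (E := fun ω => ¬ Slow ex ey d (Act ex ey d ω.1) W ((f + 1) * (v + 1)))
    (E' := fun x ω => (∀ s ∈ (∅ : Finset (Fin T)), ω.1 s = true) ∧
      Fast.Ch ex ey d M (v + 2) ω.1 f 0 x)
    (by
      intro ω h
      unfold Slow at h
      push Not at h
      obtain ⟨s, t, γ, a, b, e, g⟩ := h
      have hst : s < t := a.lt_of_ne fun h => by rw [h, hd.1] at g; omega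
      refine ⟨γ s, hS _ (e ⟨s, hst.trans_le b⟩ le_rfl hst).1, by simp, ?_⟩
      refine (Fast.ch_of_path hd hW ω.1 γ t b f s (γ s) a (by rw [hd.1]; omega) e ?_).anti
        (Nat.zero_le _)
      have : (f + 1) * (v + 1) = f * (v + 1) + (v + 1) := by ring
      omega)
  refine a1.trans ?_
  have a2 := fun x => Fast.pb_ch hw hZ (fun s => (hM.1 s).1) h1 hm hτ hc hs
    (tog Λ T ex ey M y hM hy κ lab hl).1 f 0 0 x ∅ (Nat.zero_le _) (fun _ _ => Nat.zero_le _)
    (by simp)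
  refine (sum_le_sum fun x _ => a2 x).trans ?_
  simp only [prod_empty, one_mul, sum_const, nsmul_eq_mul, Nat.cast_zero, sub_zero]
  exact mul_le_mul (Nat.cast_le.2 hN) (Real.exp_le_exp.2 (by linarith)) (Real.exp_pos _).le
    (Nat.cast_nonneg _)

end Crest.Agent.N337.A
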